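-- KEEP
import Claimed.Agent.R256.Top.Amp
import Claimed.Agent.R256.Rt.Tests

/-!
# Row 256 (LS paper), LAYER L3 = `Round ⟹ Level` (09-physical-wave.tex l.86-470), DEFINITIONS      (chief helper73; prefix `ph`)

Lean normalisation: all phases are `ee θ = e^{2π i θ}` (`R255.BR.ee`); frequencies `(η, ρ)` are in cycles (paper: `(ξ, ρ) = 2π (η, ρ)`; the phase is homogeneous of degree one, `A = η/2ρ` is unchanged).
SIGN: the Lean half wave has the symbol `e^{+2π i τ|η|}`, the patch `pat` lives in `η₃ < |η|/2`.  With `ρ = (|η|-η₃)/2`, `η₃ = |η'|²/4ρ - ρ`, `|η| = ρ + |η'|²/4ρ`: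
   `<x,η> + τ|η| = b·η' - y ρ - t |η'|²/(4ρ)`,     `b = x'`,  `t = -(x₃ + τ)`,  `y = x₃ - τ`           (no complex conjugation is needed).
The initial slice `τ = 0` is the plane `(t, b, y) = (-z₃, z', z₃)`  (the plane `t + y = 0` of the paper, with `z₃ → -z₃`).

* `phH n = 2^{-n}`            the scale `H`
* `phPh, phWave, phRow, phMass`   the free scalar round-cone wave with spectrum `F`, its plateau analysis `V_ℓ U(t)`, row energies (Def rt:model; row measure `d_ℓ^{-2} dA db dy`, `d_ℓ² = H/ℓ`)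
* `phRt, PhReg`               rows as `RtRow`s; regularity (Def rt:regularity) for the tests `RtTest` of `Rt/Tests.lean` (a round test is the test `rtRound`, `f = 1`)
* `PhWin, PhSupp, PhAdm`      window, spectral support, admissible initial spectrum
* `PhRound ψ η`, `Round`      eq. (phys-round-application) = wave half of Theorem round for FREE, SCALAR experiments, initial length `1`, terminal length `s = H`, in concrete form
                              (the ENTRY of the layer is `RoundRate` of `Phys/Ent.lean` : `(rndWav η).RateF (100 η)`; block E proves `RoundRate → Round`)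
* `phXi, phSpec, phF, phSh`   null coordinates in frequency, the spectrum of the physical wave, time shift
* `phDb, phDy, phX`           the packet relation (phys-predecessor-relation) between a row at time `T` and a point of the initial slice
-/

set_option autoImplicit false

namespace Claimed.Agent.R256

open MeasureTheory Complex Claimed.Agent.R255.BR
open scoped FourierTransform Real SchwartzMap InnerProductSpace ENNReal ContDiff

/-- the scale `H = 2^{-n}` -/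
noncomputable def phH (n : ℕ) : ℝ := ((2 : ℝ) ^ n)⁻¹

/-- rows `(A, b, y)` -/
abbrev PhRow : Type := E2 × E2 × ℝ

/-- phase of the round cone: `b·η - yρ - t|η|²/(4ρ)`, `q = (η, ρ)` -/
noncomputable def phPh (t : ℝ) (b : E2) (y : ℝ) (q : E2 × ℝ) : ℝ := ⟪b, q.1⟫_ℝ - y * q.2 - t * ‖q.1‖ ^ 2 / (4 * q.2)

/-- the free wave with spectrum `F` -/
noncomputable def phWave (F : E2 × ℝ → ℂ) (t : ℝ) (b : E2) (y : ℝ) : ℂ := ∫ q, F q * ee (phPh t b y q)

/-- plateau analysis `V_ℓ U(t) v₀` at the row `p = (A,b,y)`;  aperture `d_ℓ = (H/ℓ)^{1/2}` -/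
noncomputable def phRow (ψ : E2 → ℂ) (H l : ℝ) (F : E2 × ℝ → ℂ) (t : ℝ) (p : PhRow) : ℂ :=
  ∫ q, F q * ψ ((Real.sqrt (l / H)) • ((2 * q.2)⁻¹ • q.1 - p.1)) * ee (phPh t p.2.1 p.2.2 q)

/-- row energy of a set of rows; row measure `d_ℓ^{-2} dA db dy` -/
noncomputable def phMass (ψ : E2 → ℂ) (H l : ℝ) (F : E2 × ℝ → ℂ) (t : ℝ) (S : Set PhRow) : ℝ :=
  l / H * ∫ p in S, ‖phRow ψ H l F t p‖ ^ 2

/-- a row as a phase point of `Rt/Tests.lean` -/
def phRt (p : PhRow) : RtRow := ⟨(p.1 0, p.1 1), (p.2.1 0, p.2.1 1), p.2.2⟩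

/-- initial regularity with constant `κ` at length `1` (`d_1 = √H`) -/
def PhReg (ψ : E2 → ℂ) (η H κ : ℝ) (F : E2 × ℝ → ℂ) : Prop :=
  ∀ τ : RtTest, τ.Adm 1 → τ.l = 1 → Real.sqrt H ≤ τ.unc → phMass ψ H 1 F 0 (phRt ⁻¹' τ.set 1) ≤ κ * τ.w η

/-- the angular window -/
structure PhWin (ψ : E2 → ℂ) : Prop where
  smooth : ContDiff ℝ ∞ ψ
  supp : ∀ A, ψ A ≠ 0 → ‖A‖ ≤ 2
  nrm : ∫ A, ‖ψ A‖ ^ 2 = 1

/-- the spectral support: `1/8 ≤ Hρ ≤ 6`, `|A| = |η|/2ρ ≤ 2` -/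
def PhSupp (H : ℝ) (F : E2 × ℝ → ℂ) : Prop := ∀ q, F q ≠ 0 → 1 / 8 ≤ H * q.2 ∧ H * q.2 ≤ 6 ∧ ‖q.1‖ ≤ 4 * q.2

/-- all rows over the spatial `H`-cube `Q` -/
def phCube (H : ℝ) (Q : Fin 3 → ℤ) : Set PhRow :=
  {p | ⌊p.2.1 0 / H⌋ = Q 0 ∧ ⌊p.2.1 1 / H⌋ = Q 1 ∧ ⌊p.2.2 / H⌋ = Q 2}

/-- admissible initial spectrum at scale `H` (fixed polynomial setup: band `[1/8, 6]`, angles `≤ 2`, size exponent `12`, tail constants `tl`) -/
structure PhAdm (ψ : E2 → ℂ) (tl : ℕ → ℝ) (η H κ : ℝ) (F : E2 × ℝ → ℂ) : Prop where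
  cont : Continuous F
  supp : PhSupp H F
  kpos : 0 < κ
  size : H ^ 12 * κ ≤ ∫ q, ‖F q‖ ^ 2 ∧ ∫ q, ‖F q‖ ^ 2 ≤ H⁻¹ ^ 12 * κ
  reg : PhReg ψ η H κ F
  tail : ∀ N : ℕ, phMass ψ H 1 F 0 {p | H⁻¹ ^ 12 < ‖p.2.1‖ + |p.2.2|} ≤ tl N * H ^ N * ∫ q, ‖F q‖ ^ 2

/-- the terminal functional `H^{-1/2} ∑_{j,Q} m_{j,Q}^{3/2}` : cuts at `t = jH`, `j < 2^n`, analysis of length `H`, spatial `H`-cubes -/
noncomputable def phFun (ψ : E2 → ℂ) (n : ℕ) (F : E2 × ℝ → ℂ) : ℝ :=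
  (phH n) ^ (-(1 / 2) : ℝ) * ∑ j ∈ Finset.range (2 ^ n), ∑' Q : Fin 3 → ℤ,
    (phMass ψ (phH n) (phH n) F (j * phH n) (phCube (phH n) Q)) ^ (3 / 2 : ℝ)

/-- eq. (phys-round-application) for the window `ψ` and the weight exponent `η` (only for large `n`; the threshold may depend on everything but `n, F, κ`) -/
def PhRound (ψ : E2 → ℂ) (η : ℝ) : Prop :=
  ∀ ζ : ℝ, 0 < ζ → ∀ tl : ℕ → ℝ, ∃ (C : ℝ) (n₀ : ℕ), ∀ (n : ℕ) (F : E2 × ℝ → ℂ) (κ : ℝ), n₀ ≤ n →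
    PhAdm ψ tl η (phH n) κ F → phFun ψ n F ≤ C * (phH n) ^ (-(100 * η + ζ)) * (∫ q, ‖F q‖ ^ 2) * Real.sqrt κ

/-- **the concrete form of Theorem round (wave half, free scalar experiments)** : some window, all small `η` -/
def Round : Prop := ∃ ψ : E2 → ℂ, PhWin ψ ∧ ∃ η₀ : ℝ, 0 < η₀ ∧ ∀ η : ℝ, 0 < η → η < η₀ → PhRound ψ η

/-! ### the physical wave in null coordinates -/

/-- the point of `ℝ³` over `(η', ρ)` : `η₃ = |η'|²/(4ρ) - ρ` -/
noncomputable def phXi (q : E2 × ℝ) : E3 := J (q.1, ‖q.1‖ ^ 2 / (4 * q.2) - q.2)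

/-- the null spectrum of `G` : `1_{ρ>0} (1 + |η'|²/4ρ²) G(ξ(η',ρ))` -/
noncomputable def phSpec (G : E3 → ℂ) (q : E2 × ℝ) : ℂ :=
  if 0 < q.2 then ((1 + ‖q.1‖ ^ 2 / (4 * q.2 ^ 2) : ℝ) : ℂ) * G (phXi q) else 0

/-- the spectrum of the physical wave `wop (pat (2^n)) g` -/
noncomputable def phF (n : ℕ) (g : E3 → ℂ) : E2 × ℝ → ℂ := phSpec (fun η => (pat (2 ^ n) η : ℂ) * 𝓕 g η)

/-- time shift by `T` -/
noncomputable def phSh (T : ℝ) (F : E2 × ℝ → ℂ) (q : E2 × ℝ) : ℂ := F q * ee (-(T * ‖q.1‖ ^ 2 / (4 * q.2)))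

/-- the bounded region of `(b, y)` space -/
def phOm : Set (E2 × ℝ) := {X | ‖X.1‖ ≤ 1 ∧ |X.2| ≤ 3}

/-- `Δb = b - z' - (T + z₃) A` -/
noncomputable def phDb (T : ℝ) (p : PhRow) (z : E3) : E2 := p.2.1 - (Ji z).1 - (T + z 2) • p.1

/-- `Δy = y - z₃ - (T + z₃)|A|² - 2 A·Δb` -/
noncomputable def phDy (T : ℝ) (p : PhRow) (z : E3) : ℝ := p.2.2 - z 2 - (T + z 2) * ‖p.1‖ ^ 2 - 2 * ⟪p.1, phDb T p z⟫_ℝ

/-- the packet distance `|Δb|/√H + |Δy|/H` -/
noncomputable def phX (H T : ℝ) (p : PhRow) (z : E3) : ℝ := ‖phDb T p z‖ / Real.sqrt H + |phDy T p z| / H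

theorem ph_defs_eqns_cite : True := by
  have := @phH.eq_1
  have := @phPh.eq_1
  have := @phWave.eq_1
  have := @phRow.eq_1
  have := @phMass.eq_1
  have := @phRt.eq_1
  have := @PhReg.eq_1
  have := @PhSupp.eq_1
  have := @phCube.eq_1
  have := @phFun.eq_1
  have := @PhRound.eq_1
  have := @Round.eq_1
  have := @phXi.eq_1
  have := @phSpec.eq_1
  have := @phF.eq_1
  have := @phSh.eq_1
  have := @phOm.eq_1
  have := @phDb.eq_1
  have := @phDy.eq_1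
  have := @phX.eq_1
  trivial

end Claimed.Agent.R256
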