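-- KEEP
import Claimed.Agent.R256.Phys.Defs
import Claimed.Agent.R256.Base.RndCut

/-!
# Row 256 (LS paper), PHYS, BLOCK E : THE BRIDGE  `RateF (rndWav η) (100 η) ⟹ PhRound brPsi η`  = the cut of `ph_ent_one` of `Phys/Ent.lean`      (architect helper163; prefix `ph_br_`, defs `br*`)

`Round` (`Phys/Defs.lean`) is the concrete form of the wave half of Theorem round consumed by sec. 9: plain integrals, `ee θ = e^{2π i θ}`, vectors in `E2`.
`rndWav η` (`Base/RndWav.lean`) is the model of secs. 7-8: `L²` states in momentum representation, phases `e^{iθ}`, prefactor `(2π)^{-3/2}`, plain pairs.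
DICTIONARY.   (SCALAR model since 20:25Z: no `Om`, `Fb = ℂ`)  `p.H = H = 2^-n`;   `(ξ, ρ)_paper = 2π (η, ρ)_Lean`;   `G(ξ,ρ) = (2π)^{-3/2} F(ξ/2π, ρ/2π)`, `‖G‖² = ∫ |F|²`;
`H ρ_paper = 2π H ρ ∈ [π/4, 12π] ⊆ rdPlat 2 = [2^-6, 2^6]` : root and terminal generation `2`;   `ψ = rdPsi`;   `k0 = i0 = 0`, frame `r = 1`, centre `0`;
labels `(j, Q)`, `j < 2^n`, `Q` in a finite set of `H`-cubes: the round test `r = 4`, `A_* = 0`, centre of the cube, weight `256`; `θ` = indicator of `cube ∩ {|A|² ≤ 16}` (rows with `|A| > 2 + √2` vanish).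
ENTRY from the instance unit of `Rt`: `RdWvInst` (formula for `an`, isometry on the plateau class).
Every `sorry` is a leaf.  EDIT IN PLACE, statements are frozen.
-/

set_option autoImplicit false

namespace Claimed.Agent.R256

open MeasureTheory Complex Claimed.Agent.R255.BR
open scoped Real InnerProductSpace ENNReal ContDiff

/-- **ENTRY (instance unit of Rt, W1)** for the scalar model without passive index -/
def RdWvInst : Prop :=
  ∀ p : RdWvPar, p.Ok →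
    (∀ (T : ℝ) (k β : ℕ) (G : Lp ℂ 2 (volume : Measure RdWvPar.Mo)),
      (p.an T k β G : RdWvPar.Ph → ℂ) =ᵐ[p.rw k] p.row T k β G) ∧
    (∀ (β : ℕ) (G : Lp ℂ 2 (volume : Measure RdWvPar.Mo)), p.Spec β G → ∀ (T : ℝ) (k : ℕ), ‖p.an T k β G‖ = ‖G‖)

/-- the parameters -/
noncomputable def brPar (n : ℕ) : RdWvPar where
  H := phH n
  H_pos := inv_pos.2 (pow_pos two_pos n)

/-- what the bridge uses of `RdWvInst` -/
def BrInst : Prop :=
  ∀ n : ℕ,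
    (∀ (T : ℝ) (k β : ℕ) (G : Lp ℂ 2 (volume : Measure RdWvPar.Mo)),
      ((brPar n).an T k β G : RdWvPar.Ph → ℂ) =ᵐ[(brPar n).rw k] (brPar n).row T k β G) ∧
    (∀ (β : ℕ) (G : Lp ℂ 2 (volume : Measure RdWvPar.Mo)), (brPar n).Spec β G →
      ∀ (T : ℝ) (k : ℕ), ‖(brPar n).an T k β G‖ = ‖G‖)

/-- the window -/
noncomputable def brPsi (A : E2) : ℂ := (rdPsi (A 0, A 1) : ℂ)

/-- a plain pair as a vector -/
noncomputable def brVec (v : ℝ × ℝ) : E2 := !₂[v.1, v.2]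

/-- the state in momentum representation -/
noncomputable def brG (F : E2 × ℝ → ℂ) (z : RdWvPar.Mo) : ℂ :=
  (((2 * π) ^ (-(3 / 2) : ℝ) : ℝ) : ℂ) * F (brVec ((2 * π)⁻¹ • z.1), (2 * π)⁻¹ * z.2)

/-- the state as an element of `L²` (junk `0`) -/
noncomputable def brV (_n : ℕ) (F : E2 × ℝ → ℂ) : Lp ℂ 2 (volume : Measure RdWvPar.Mo) :=
  open Classical in
  if h : MemLp (brG F) 2 (volume : Measure RdWvPar.Mo) then h.toLp _ else 0

/-- a row of `Phys/Defs.lean` as a row of the model -/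
def brRow (p : PhRow) : RdWvPar.Ph := ((p.1 0, p.1 1), (p.2.1 0, p.2.1 1), p.2.2)

/-- the test of the cube `Q` -/
noncomputable def brTst (H : ℝ) (Q : Fin 3 → ℤ) : RdTst :=
  ⟨4, 1, (0, 0), ((Q 0 + 1 / 2) * H, (Q 1 + 1 / 2) * H), (Q 2 + 1 / 2) * H, rtLin⟩

/-- the rows of the label `Q` -/
def brCell (H : ℝ) (Q : Fin 3 → ℤ) : Set RdWvPar.Ph :=
  {x | ⌊x.2.1.1 / H⌋ = Q 0 ∧ ⌊x.2.1.2 / H⌋ = Q 1 ∧ ⌊x.2.2 / H⌋ = Q 2 ∧ rtSq x.1 ≤ 16}

/-- the finite set of labels -/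
def brLab (n : ℕ) (𝒬 : Finset (Fin 3 → ℤ)) : Finset (ℕ × (Fin 3 → ℤ)) := Finset.range (2 ^ n) ×ˢ 𝒬

/-- the `l`-th label -/
noncomputable def brL (n : ℕ) (𝒬 : Finset (Fin 3 → ℤ)) (l : Fin (brLab n 𝒬).card) : ℕ × (Fin 3 → ℤ) :=
  ((brLab n 𝒬).equivFin.symm l).1

/-- **the experiment** -/
noncomputable def brXp (η : ℝ) (n : ℕ) (F : E2 × ℝ → ℂ) (κ : ℝ) (𝒬 : Finset (Fin 3 → ℤ)) : Xp ((brPar n).sys η) where
  k0 := 0
  i0 := 0
  n := n
  v := brV n F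
  e := ∫ q, ‖F q‖ ^ 2
  ka := κ
  b0 := 2
  st := []
  bT := 2
  L := (brLab n 𝒬).card
  iv := fun l => (brL n 𝒬 l).1
  ts := fun l => brTst (phH n) (brL n 𝒬 l).2
  th := fun l => (brCell (phH n) (brL n 𝒬 l).2).indicator fun _ => 1

theorem ph_br_eqns_cite : True := by
  have := @RdWvInst.eq_1
  have := @brPar.eq_1
  have := @BrInst.eq_1
  have := @brPsi.eq_1
  have := @brVec.eq_1
  have := @brG.eq_1
  have := @brV.eq_1
  have := @brRow.eq_1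
  have := @brTst.eq_1
  have := @brCell.eq_1
  have := @brLab.eq_1
  have := @brL.eq_1
  have := @brXp.eq_1
  trivial

/-! ### tools of BR1, BR2 -/

/-- `E2 ≃ ℝ × ℝ` -/
noncomputable def brE : E2 ≃ᵐ ℝ × ℝ := (MeasurableEquiv.toLp 2 (Fin 2 → ℝ)).symm.trans MeasurableEquiv.finTwoArrow

theorem ph_br_E_apply (A : E2) : brE A = (A 0, A 1) := rfl

theorem ph_br_E_symm (v : ℝ × ℝ) : brE.symm v = brVec v := by
  apply brE.injective
  rw [MeasurableEquiv.apply_symm_apply, ph_br_E_apply]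
  simp [brVec]

theorem ph_br_E_mp : MeasurePreserving brE volume volume :=
  (volume_preserving_finTwoArrow ℝ).comp (EuclideanSpace.volume_preserving_symm_measurableEquiv_toLp (Fin 2))

theorem ph_br_vec_mp : MeasurePreserving brVec volume volume := by
  have h := ph_br_E_mp.symm
  have e : (brE.symm : ℝ × ℝ → E2) = brVec := funext ph_br_E_symm
  rwa [e] at h

theorem ph_br_vec_zero (v : ℝ × ℝ) : brVec v 0 = v.1 := by simp [brVec]

theorem ph_br_vec_one (v : ℝ × ℝ) : brVec v 1 = v.2 := by simp [brVec]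

theorem ph_br_nrm (u : E2) : ‖u‖ ^ 2 = rtSq (u 0, u 1) := by
  rw [EuclideanSpace.norm_sq_eq, Fin.sum_univ_two]
  unfold rtSq
  simp only [Real.norm_eq_abs, sq_abs]

theorem ph_br_ip (u v : E2) : ⟪u, v⟫_ℝ = rtIp (v 0, v 1) (u 0, u 1) := by
  rw [PiLp.inner_apply, Fin.sum_univ_two]
  unfold rtIp
  simp

theorem ph_br_win' : PhWin brPsi := by
  refine ⟨?_, ?_, ?_⟩
  · unfold brPsi
    have h1 : ContDiff ℝ ∞ fun A : E2 => (A 0, A 1) := by fun_prop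
    exact Complex.ofRealCLM.contDiff.comp (rd_psi_contDiff.comp h1)
  · intro A hA
    have h1 : rdPsi (A 0, A 1) ≠ 0 := fun h => hA (by unfold brPsi; rw [h]; simp)
    have h2 := rd_psi_supp h1
    rw [← ph_br_nrm] at h2
    nlinarith [norm_nonneg A]
  · have h1 : ∀ A : E2, ‖brPsi A‖ ^ 2 = (fun x : ℝ × ℝ => rdPsi x ^ 2) (brE A) := by
      intro A
      unfold brPsi
      rw [Complex.norm_real, Real.norm_eq_abs, sq_abs, ph_br_E_apply]
    rw [integral_congr_ae (Filter.Eventually.of_forall h1),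
      ph_br_E_mp.integral_comp brE.measurableEmbedding fun x : ℝ × ℝ => rdPsi x ^ 2]
    exact rd_psi_norm

theorem ph_br_vec_cont : Continuous brVec := by
  unfold brVec
  refine (PiLp.continuous_toLp 2 _).comp (continuous_pi fun i => ?_)
  fin_cases i
  · exact continuous_fst
  · exact continuous_snd

/-- `(ℝ × ℝ) × ℝ ≃ E2 × ℝ` -/
noncomputable def brM : RdWvPar.Mo ≃ᵐ E2 × ℝ := brE.symm.prodCongr (MeasurableEquiv.refl ℝ)

theorem ph_br_M_apply (z : RdWvPar.Mo) : brM z = (brVec z.1, z.2) := by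
  show (brE.symm z.1, z.2) = _
  rw [ph_br_E_symm]

theorem ph_br_M_mp : MeasurePreserving brM volume volume := by
  have h := ph_br_vec_mp.prod (MeasurePreserving.id (volume : Measure ℝ))
  have e : (brM : RdWvPar.Mo → E2 × ℝ) = Prod.map brVec id := funext ph_br_M_apply
  rw [e]
  exact h

theorem ph_br_two_pi_pos : 0 < 2 * π := by positivity

/-- the substitution `z = 2π q` -/
theorem ph_br_subst {X : Type*} [NormedAddCommGroup X] [NormedSpace ℝ X] (g : E2 × ℝ → X) :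
    ∫ z : RdWvPar.Mo, g (brVec ((2 * π)⁻¹ • z.1), (2 * π)⁻¹ * z.2) = (2 * π) ^ 3 • ∫ q, g q := by
  have i1 : (volume : Measure (ℝ × ℝ)).IsAddHaarMeasure := by
    rw [Measure.volume_eq_prod]
    infer_instance
  have i2 : (volume : Measure RdWvPar.Mo).IsAddHaarMeasure := by
    rw [Measure.volume_eq_prod]
    infer_instance
  have h1 := Measure.integral_comp_inv_smul_of_nonneg (volume : Measure RdWvPar.Mo) (fun w : RdWvPar.Mo => g (brM w))
    ph_br_two_pi_pos.le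
  have h2 : Module.finrank ℝ RdWvPar.Mo = 3 := by simp
  rw [h2, ph_br_M_mp.integral_comp brM.measurableEmbedding g] at h1
  rw [← h1]
  refine integral_congr_ae (Filter.Eventually.of_forall fun z => ?_)
  show _ = g (brM ((2 * π)⁻¹ • z))
  rw [ph_br_M_apply]
  rfl

theorem ph_br_H_pos (n : ℕ) : 0 < phH n := inv_pos.2 (pow_pos two_pos n)

theorem ph_br_G_cont {F : E2 × ℝ → ℂ} (hF : Continuous F) : Continuous (brG F) := by
  unfold brG
  have h0 : Continuous fun z : RdWvPar.Mo => (2 * π)⁻¹ • z.1 := by fun_prop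
  have h1 : Continuous fun z : RdWvPar.Mo => (brVec ((2 * π)⁻¹ • z.1), (2 * π)⁻¹ * z.2) :=
    (ph_br_vec_cont.comp h0).prodMk (by fun_prop)
  exact continuous_const.mul (hF.comp h1)

theorem ph_br_G_ne {F : E2 × ℝ → ℂ} {z : RdWvPar.Mo} (h : brG F z ≠ 0) :
    F (brVec ((2 * π)⁻¹ • z.1), (2 * π)⁻¹ * z.2) ≠ 0 := fun h0 => h (by unfold brG; rw [h0, mul_zero])

theorem ph_br_G_supp (n : ℕ) {F : E2 × ℝ → ℂ} (hs : PhSupp (phH n) F) : HasCompactSupport (brG F) := by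
  have hH := ph_br_H_pos n
  refine HasCompactSupport.intro (isCompact_closedBall (0 : RdWvPar.Mo) (2 * π * (24 / phH n))) fun z hz => ?_
  by_contra h
  apply hz
  obtain ⟨h1, h2, h3⟩ := hs _ (ph_br_G_ne h)
  simp only at h1 h2 h3
  have hp := ph_br_two_pi_pos
  obtain ⟨ρ, hρ⟩ : ∃ ρ : ℝ, ρ = (2 * π)⁻¹ * z.2 := ⟨_, rfl⟩
  rw [← hρ] at h1 h2 h3
  have hz2 : z.2 = 2 * π * ρ := by rw [hρ]; field_simp
  have hρ6 : ρ ≤ 6 / phH n := by rw [le_div_iff₀ hH]; linarith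
  have hρ0 : 0 ≤ ρ := by
    by_contra hc
    push Not at hc
    nlinarith
  have h4 : ‖brVec ((2 * π)⁻¹ • z.1)‖ ^ 2 = (2 * π)⁻¹ ^ 2 * (z.1.1 ^ 2 + z.1.2 ^ 2) := by
    rw [ph_br_nrm, ph_br_vec_zero, ph_br_vec_one]
    unfold rtSq
    simp only [Prod.smul_fst, Prod.smul_snd, smul_eq_mul]
    ring
  have h24 : 24 / phH n = 4 * (6 / phH n) := by ring
  have h5 : z.1.1 ^ 2 + z.1.2 ^ 2 ≤ (2 * π * (24 / phH n)) ^ 2 := by
    have h6 : ‖brVec ((2 * π)⁻¹ • z.1)‖ ^ 2 ≤ (24 / phH n) ^ 2 :=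
      pow_le_pow_left₀ (norm_nonneg _) (by linarith) 2
    rw [h4] at h6
    calc z.1.1 ^ 2 + z.1.2 ^ 2 = (2 * π) ^ 2 * ((2 * π)⁻¹ ^ 2 * (z.1.1 ^ 2 + z.1.2 ^ 2)) := by field_simp
      _ ≤ (2 * π) ^ 2 * (24 / phH n) ^ 2 := mul_le_mul_of_nonneg_left h6 (by positivity)
      _ = (2 * π * (24 / phH n)) ^ 2 := by ring
  have hR : 0 ≤ 2 * π * (24 / phH n) := by positivity
  rw [mem_closedBall_zero_iff, Prod.norm_def, Prod.norm_def, Real.norm_eq_abs, Real.norm_eq_abs, Real.norm_eq_abs]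
  refine max_le (max_le ?_ ?_) ?_
  · exact abs_le_of_sq_le_sq (by nlinarith [sq_nonneg z.1.2]) hR
  · exact abs_le_of_sq_le_sq (by nlinarith [sq_nonneg z.1.1]) hR
  · rw [hz2, abs_of_nonneg (by positivity)]
    exact mul_le_mul_of_nonneg_left (by linarith) hp.le

theorem ph_br_memLp' (n : ℕ) {F : E2 × ℝ → ℂ} (hF : Continuous F) (hs : PhSupp (phH n) F) :
    MemLp (brG F) 2 (volume : Measure RdWvPar.Mo) :=
  (ph_br_G_cont hF).memLp_of_hasCompactSupport (ph_br_G_supp n hs)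

theorem ph_br_V_ae (n : ℕ) {F : E2 × ℝ → ℂ} (hF : Continuous F) (hs : PhSupp (phH n) F) :
    (brV n F : RdWvPar.Mo → ℂ) =ᵐ[volume] brG F := by
  unfold brV
  rw [dif_pos (ph_br_memLp' n hF hs)]
  exact MemLp.coeFn_toLp _

theorem ph_br_l2_sq {V : Type*} [MeasurableSpace V] {μ : Measure V} (F : Lp ℂ 2 μ) : ‖F‖ ^ 2 = ∫ x, ‖(F : V → ℂ) x‖ ^ 2 ∂μ := by
  have h := (Lp.memLp F).eLpNorm_eq_integral_rpow_norm (by norm_num) (by norm_num)
  have h0 : 0 ≤ ∫ x, ‖(F : V → ℂ) x‖ ^ 2 ∂μ := integral_nonneg fun x => by positivity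
  rw [Lp.norm_def, h]
  simp only [ENNReal.toReal_ofNat, Real.rpow_ofNat]
  rw [ENNReal.toReal_ofReal (by positivity), ← Real.rpow_natCast, ← Real.rpow_mul h0]
  norm_num

/-- `((2π)^{-3/2})² (2π)³ = 1` -/
theorem ph_br_const : ((2 * π) ^ (-(3 / 2) : ℝ)) ^ 2 * (2 * π) ^ 3 = 1 := by
  have hp := ph_br_two_pi_pos
  rw [← Real.rpow_natCast, ← Real.rpow_natCast, ← Real.rpow_mul hp.le, ← Real.rpow_add hp]
  norm_num

theorem ph_br_norm' (n : ℕ) {F : E2 × ℝ → ℂ} (hF : Continuous F) (hs : PhSupp (phH n) F) : ‖brV n F‖ ^ 2 = ∫ q, ‖F q‖ ^ 2 := by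
  have h1 : ∫ z, ‖(brV n F : RdWvPar.Mo → ℂ) z‖ ^ 2 =
      ∫ z : RdWvPar.Mo, (fun q : E2 × ℝ => ((2 * π) ^ (-(3 / 2) : ℝ)) ^ 2 * ‖F q‖ ^ 2) (brVec ((2 * π)⁻¹ • z.1), (2 * π)⁻¹ * z.2) := by
    refine integral_congr_ae ?_
    filter_upwards [ph_br_V_ae n hF hs] with z hz
    rw [hz]
    unfold brG
    rw [norm_mul, Complex.norm_real, Real.norm_of_nonneg (by positivity), mul_pow]
  rw [ph_br_l2_sq, h1, ph_br_subst fun q : E2 × ℝ => ((2 * π) ^ (-(3 / 2) : ℝ)) ^ 2 * ‖F q‖ ^ 2, integral_const_mul, smul_eq_mul,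
    ← mul_assoc, mul_comm ((2 * π) ^ 3), ph_br_const, one_mul]

theorem ph_br_spec' (n : ℕ) {F : E2 × ℝ → ℂ} (hF : Continuous F) (hs : PhSupp (phH n) F) : (brPar n).Spec 2 (brV n F) := by
  unfold RdWvPar.Spec
  filter_upwards [ph_br_V_ae n hF hs] with z hz h
  rw [hz] at h
  obtain ⟨h1, h2, -⟩ := hs _ (ph_br_G_ne h)
  simp only at h1 h2
  have hp := ph_br_two_pi_pos
  have e : (brPar n).H * z.2 = 2 * π * (phH n * ((2 * π)⁻¹ * z.2)) := by
    show phH n * z.2 = _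
    field_simp
  rw [e]
  obtain ⟨w, hw⟩ : ∃ w : ℝ, w = phH n * ((2 * π)⁻¹ * z.2) := ⟨_, rfl⟩
  rw [← hw] at h1 h2 ⊢
  have p1 := Real.pi_gt_three
  have p2 := Real.pi_lt_d2
  constructor
  · norm_num
    nlinarith
  · norm_num
    nlinarith

/-! ### B1 : window, state -/

/-- (`rd_psi_contDiff`, `rd_psi_supp`, `rd_psi_norm`; `A ↦ (A 0, A 1)` is a continuous linear, measure preserving equivalence `E2 ≃ ℝ × ℝ`:
`EuclideanSpace.volume_preserving_measurableEquiv`, `volume_preserving_finTwoArrow`) -/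
theorem ph_br_win : PhWin brPsi := ph_br_win'

theorem ph_br_ok (n : ℕ) : (brPar n).Ok := (brPar n).ok

theorem ph_br_inst (h : RdWvInst) : BrInst := fun n => h (brPar n) (ph_br_ok n)

/-- (`F` is continuous with compact support) -/
theorem ph_br_memLp (n : ℕ) {F : E2 × ℝ → ℂ} (hF : Continuous F) (hs : PhSupp (phH n) F) :
    MemLp (brG F) 2 (volume : Measure RdWvPar.Mo) := ph_br_memLp' n hF hs

/-- `‖G‖² = ∫ |F|²`  (dilation by `2π` in dimension `3`) -/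
theorem ph_br_norm (n : ℕ) {F : E2 × ℝ → ℂ} (hF : Continuous F) (hs : PhSupp (phH n) F) : ‖brV n F‖ ^ 2 = ∫ q, ‖F q‖ ^ 2 :=
  ph_br_norm' n hF hs

/-- `π/4 ≤ 2π H ρ ≤ 12 π` -/
theorem ph_br_spec (n : ℕ) {F : E2 × ℝ → ℂ} (hF : Continuous F) (hs : PhSupp (phH n) F) : (brPar n).Spec 2 (brV n F) :=
  ph_br_spec' n hF hs

/-! ### tools of BR2 -/

theorem ph_br_plat (n : ℕ) {F : E2 × ℝ → ℂ} (hs : PhSupp (phH n) F) {z : RdWvPar.Mo}
    (h : F (brVec ((2 * π)⁻¹ • z.1), (2 * π)⁻¹ * z.2) ≠ 0) : phH n * z.2 ∈ rdPlat 2 ∧ 0 < z.2 := by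
  obtain ⟨h1, h2, -⟩ := hs _ h
  simp only at h1 h2
  have hp := ph_br_two_pi_pos
  have hH := ph_br_H_pos n
  have e : phH n * z.2 = 2 * π * (phH n * ((2 * π)⁻¹ * z.2)) := by field_simp
  obtain ⟨w, hw⟩ : ∃ w : ℝ, w = phH n * ((2 * π)⁻¹ * z.2) := ⟨_, rfl⟩
  rw [← hw] at h1 h2 e
  have p1 := Real.pi_gt_three
  have p2 := Real.pi_lt_d2
  refine ⟨?_, ?_⟩
  · rw [e]
    constructor
    · norm_num
      nlinarith
    · norm_num
      nlinarith
  · have : 0 < phH n * z.2 := by rw [e]; positivity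
    exact (pos_iff_pos_of_mul_pos this).1 hH

theorem ph_br_rdD_inv (H : ℝ) (k : ℕ) : (rdD H k)⁻¹ = Real.sqrt (rdLen k / H) := by
  unfold rdD
  rw [← Real.sqrt_inv, inv_div]

/-- the packet times the state, pointwise -/
theorem ph_br_pk (n : ℕ) {F : E2 × ℝ → ℂ} (hs : PhSupp (phH n) F) (T : ℝ) (k : ℕ) (p : PhRow) (z : RdWvPar.Mo) :
    (brPar n).pk T k 2 (brRow p) z * brG F z =
      (fun q : E2 × ℝ => ((((2 * π) ^ (-(3 / 2) : ℝ)) ^ 2 : ℝ) : ℂ) *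
        (F q * brPsi ((Real.sqrt (rdLen k / phH n)) • ((2 * q.2)⁻¹ • q.1 - p.1)) * ee (phPh T p.2.1 p.2.2 q)))
        (brVec ((2 * π)⁻¹ • z.1), (2 * π)⁻¹ * z.2) := by
  by_cases h : F (brVec ((2 * π)⁻¹ • z.1), (2 * π)⁻¹ * z.2) = 0
  · simp only [brG, h, mul_zero, zero_mul]
  obtain ⟨h1, h2⟩ := ph_br_plat n hs h
  have hp := ph_br_two_pi_pos
  have hχ : rdChi 2 ((brPar n).H * z.2) = 1 := rd_chi_one h1
  have hψ : brPsi ((Real.sqrt (rdLen k / phH n)) • ((2 * ((2 * π)⁻¹ * z.2))⁻¹ • brVec ((2 * π)⁻¹ • z.1) - p.1)) =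
      ((rdPsi ((rdD (brPar n).H k)⁻¹ • ((2 * z.2)⁻¹ • z.1 - (brRow p).1)) : ℝ) : ℂ) := by
    unfold brPsi
    congr 2
    rw [ph_br_rdD_inv]
    show _ = Real.sqrt (rdLen k / phH n) • ((2 * z.2)⁻¹ • z.1 - (p.1 0, p.1 1))
    ext
    · simp only [PiLp.smul_apply, PiLp.sub_apply, ph_br_vec_zero, Prod.smul_fst, Prod.fst_sub, smul_eq_mul]
      field_simp
    · simp only [PiLp.smul_apply, PiLp.sub_apply, ph_br_vec_one, Prod.smul_snd, Prod.snd_sub, smul_eq_mul]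
      field_simp
  have hph : ee (phPh T p.2.1 p.2.2 (brVec ((2 * π)⁻¹ • z.1), (2 * π)⁻¹ * z.2)) =
      Complex.exp (Complex.I * ((rtIp z.1 (brRow p).2.1 - z.2 * (brRow p).2.2 - T * rtSq z.1 / (4 * z.2) : ℝ) : ℂ)) := by
    unfold ee
    rw [mul_comm Complex.I]
    congr 3
    unfold phPh
    simp only
    rw [ph_br_ip, ph_br_nrm, ph_br_vec_zero, ph_br_vec_one]
    show _ = rtIp z.1 (p.2.1 0, p.2.1 1) - z.2 * p.2.2 - T * rtSq z.1 / (4 * z.2)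
    unfold rtIp rtSq
    simp only [Prod.smul_fst, Prod.smul_snd, smul_eq_mul]
    field_simp
  simp only
  rw [hψ, hph]
  unfold RdWvPar.pk brG
  rw [hχ]
  push_cast
  ring

theorem ph_br_row' (n : ℕ) {F : E2 × ℝ → ℂ} (hF : Continuous F) (hs : PhSupp (phH n) F) (T : ℝ) (k : ℕ) (p : PhRow) :
    (brPar n).row T k 2 (brV n F) (brRow p) = phRow brPsi (phH n) (rdLen k) F T p := by
  unfold RdWvPar.row phRow
  have h1 : ∫ z, (brPar n).pk T k 2 (brRow p) z * (brV n F : RdWvPar.Mo → ℂ) z =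
      ∫ z : RdWvPar.Mo, (fun q : E2 × ℝ => ((((2 * π) ^ (-(3 / 2) : ℝ)) ^ 2 : ℝ) : ℂ) *
        (F q * brPsi ((Real.sqrt (rdLen k / phH n)) • ((2 * q.2)⁻¹ • q.1 - p.1)) * ee (phPh T p.2.1 p.2.2 q)))
        (brVec ((2 * π)⁻¹ • z.1), (2 * π)⁻¹ * z.2) := by
    refine integral_congr_ae ?_
    filter_upwards [ph_br_V_ae n hF hs] with z hz
    rw [hz]
    exact ph_br_pk n hs T k p z
  rw [h1, ph_br_subst fun q : E2 × ℝ => ((((2 * π) ^ (-(3 / 2) : ℝ)) ^ 2 : ℝ) : ℂ) *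
        (F q * brPsi ((Real.sqrt (rdLen k / phH n)) • ((2 * q.2)⁻¹ • q.1 - p.1)) * ee (phPh T p.2.1 p.2.2 q)),
    integral_const_mul, Complex.real_smul, ← mul_assoc, ← Complex.ofReal_mul, mul_comm ((2 * π) ^ 3), ph_br_const,
    Complex.ofReal_one, one_mul]

/-- rows as a measurable equivalence -/
noncomputable def brR : PhRow ≃ᵐ RdWvPar.Ph := brE.prodCongr (brE.prodCongr (MeasurableEquiv.refl ℝ))

theorem ph_br_R_apply (p : PhRow) : brR p = brRow p := rfl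

theorem ph_br_R_mp : MeasurePreserving brR volume volume :=
  ph_br_E_mp.prod (ph_br_E_mp.prod (MeasurePreserving.id (volume : Measure ℝ)))

theorem ph_br_row_meas : Measurable brRow := brR.measurable

theorem ph_br_ms' (hI : BrInst) (η : ℝ) (n : ℕ) {F : E2 × ℝ → ℂ} (hF : Continuous F) (hs : PhSupp (phH n) F) (T : ℝ) (k : ℕ)
    (S : Set RdWvPar.Ph) (hS : MeasurableSet S) :
    ((brPar n).sys η).ms T k 2 S (brV n F) = phMass brPsi (phH n) (rdLen k) F T (brRow ⁻¹' S) := by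
  have hl : 0 ≤ rdLen k / phH n := div_nonneg (by unfold rdLen; positivity) (ph_br_H_pos n).le
  show ∫ x, S.indicator (fun _ => (1 : ℝ)) x * ‖((brPar n).an T k 2 (brV n F) : RdWvPar.Ph → ℂ) x‖ ^ 2 ∂((brPar n).rw k) = _
  have h1 : ∫ x, S.indicator (fun _ => (1 : ℝ)) x * ‖((brPar n).an T k 2 (brV n F) : RdWvPar.Ph → ℂ) x‖ ^ 2 ∂((brPar n).rw k) =
      ∫ x, S.indicator (fun _ => (1 : ℝ)) x * ‖(brPar n).row T k 2 (brV n F) x‖ ^ 2 ∂((brPar n).rw k) := by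
    refine integral_congr_ae ?_
    filter_upwards [(hI n).1 T k 2 (brV n F)] with x hx
    rw [hx]
  rw [h1]
  unfold RdWvPar.rw phMass
  rw [integral_smul_measure, show (brPar n).H = phH n from rfl, ENNReal.toReal_ofReal hl, smul_eq_mul]
  congr 1
  rw [← ph_br_R_mp.integral_comp brR.measurableEmbedding, ← integral_indicator (ph_br_row_meas hS)]
  refine integral_congr_ae (Filter.Eventually.of_forall fun p => ?_)
  show S.indicator (fun _ => (1 : ℝ)) (brRow p) * ‖(brPar n).row T k 2 (brV n F) (brRow p)‖ ^ 2 = _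
  rw [ph_br_row' n hF hs]
  by_cases hp : brRow p ∈ S
  · rw [Set.indicator_of_mem hp, Set.indicator_of_mem (show p ∈ brRow ⁻¹' S from hp), one_mul]
  · rw [Set.indicator_of_notMem hp, Set.indicator_of_notMem (show p ∉ brRow ⁻¹' S from hp), zero_mul]

theorem ph_br_row_zero' (n : ℕ) {F : E2 × ℝ → ℂ} (hs : PhSupp (phH n) F) (T : ℝ) {l : ℝ} (hl : phH n ≤ l) {p : PhRow}
    (hp : 4 < ‖p.1‖) : phRow brPsi (phH n) l F T p = 0 := by
  unfold phRow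
  refine integral_eq_zero_of_ae (Filter.Eventually.of_forall fun q => ?_)
  show F q * brPsi ((Real.sqrt (l / phH n)) • ((2 * q.2)⁻¹ • q.1 - p.1)) * ee (phPh T p.2.1 p.2.2 q) = 0
  by_cases h : F q = 0
  · rw [h, zero_mul, zero_mul]
  obtain ⟨h1, -, h3⟩ := hs q h
  have hH := ph_br_H_pos n
  have hq : 0 < q.2 := by
    have : 0 < phH n * q.2 := by linarith
    exact (pos_iff_pos_of_mul_pos this).1 hH
  have hψ : brPsi ((Real.sqrt (l / phH n)) • ((2 * q.2)⁻¹ • q.1 - p.1)) = 0 := by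
    by_contra hc
    have h4 := ph_br_win.supp _ hc
    have h5 : 1 ≤ Real.sqrt (l / phH n) := by
      rw [Real.one_le_sqrt, one_le_div hH]
      exact hl
    have h6 : ‖(2 * q.2)⁻¹ • q.1‖ ≤ 2 := by
      rw [norm_smul, Real.norm_of_nonneg (by positivity), inv_mul_le_iff₀ (by positivity)]
      linarith
    have h7 : ‖p.1‖ - 2 ≤ ‖(2 * q.2)⁻¹ • q.1 - p.1‖ := by
      have := norm_sub_norm_le p.1 ((2 * q.2)⁻¹ • q.1)
      rw [norm_sub_rev] at this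
      linarith
    rw [norm_smul, Real.norm_of_nonneg (by positivity)] at h4
    nlinarith [norm_nonneg ((2 * q.2)⁻¹ • q.1 - p.1)]
  rw [hψ, mul_zero, zero_mul]

theorem ph_br_cube_meas (H : ℝ) (Q : Fin 3 → ℤ) : MeasurableSet (phCube H Q) := by
  unfold phCube
  have m0 : Measurable fun p : PhRow => ⌊p.2.1 0 / H⌋ := Int.measurable_floor.comp (by fun_prop)
  have m1 : Measurable fun p : PhRow => ⌊p.2.1 1 / H⌋ := Int.measurable_floor.comp (by fun_prop)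
  have m2 : Measurable fun p : PhRow => ⌊p.2.2 / H⌋ := Int.measurable_floor.comp (by fun_prop)
  exact (m0 (measurableSet_singleton (Q 0))).inter ((m1 (measurableSet_singleton (Q 1))).inter (m2 (measurableSet_singleton (Q 2))))

theorem ph_br_cell_meas (H : ℝ) (Q : Fin 3 → ℤ) : MeasurableSet (brCell H Q) := by
  unfold brCell rtSq
  have m0 : Measurable fun x : RdWvPar.Ph => ⌊x.2.1.1 / H⌋ := Int.measurable_floor.comp (by fun_prop)
  have m1 : Measurable fun x : RdWvPar.Ph => ⌊x.2.1.2 / H⌋ := Int.measurable_floor.comp (by fun_prop)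
  have m2 : Measurable fun x : RdWvPar.Ph => ⌊x.2.2 / H⌋ := Int.measurable_floor.comp (by fun_prop)
  have m3 : MeasurableSet {x : RdWvPar.Ph | x.1.1 ^ 2 + x.1.2 ^ 2 ≤ 16} := measurableSet_le (by fun_prop) measurable_const
  exact (m0 (measurableSet_singleton (Q 0))).inter ((m1 (measurableSet_singleton (Q 1))).inter
    ((m2 (measurableSet_singleton (Q 2))).inter m3))

theorem ph_br_m' (hI : BrInst) (η : ℝ) (n : ℕ) {F : E2 × ℝ → ℂ} (hF : Continuous F) (hs : PhSupp (phH n) F) (κ : ℝ)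
    (𝒬 : Finset (Fin 3 → ℤ)) (l : Fin (brLab n 𝒬).card) :
    (brXp η n F κ 𝒬).m l = phMass brPsi (phH n) (phH n) F ((brL n 𝒬 l).1 * phH n) (phCube (phH n) (brL n 𝒬 l).2) := by
  have e0 : (brXp η n F κ 𝒬).m l =
      ((brPar n).sys η).ms (tmL (0 + n) (brL n 𝒬 l).1) (0 + n) 2 (brCell (phH n) (brL n 𝒬 l).2) (brV n F) := rfl
  rw [e0, ph_br_ms' hI η n hF hs _ _ _ (ph_br_cell_meas _ _), zero_add]
  have e1 : rdLen n = phH n := by
    unfold rdLen phH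
    rw [inv_pow]
  have e2 : tmL n (brL n 𝒬 l).1 = (brL n 𝒬 l).1 * phH n := by
    unfold tmL phH
    rw [div_eq_mul_inv]
  rw [e1, e2]
  unfold phMass
  congr 1
  symm
  refine setIntegral_eq_of_subset_of_forall_sdiff_eq_zero (ph_br_cube_meas _ _) ?_ ?_
  · intro p hp
    exact ⟨hp.1, hp.2.1, hp.2.2.1⟩
  · intro p hp
    have h4 : 4 < ‖p.1‖ := by
      by_contra hc
      push Not at hc
      apply hp.2
      refine ⟨hp.1.1, hp.1.2.1, hp.1.2.2, ?_⟩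
      show rtSq (p.1 0, p.1 1) ≤ 16
      rw [← ph_br_nrm]
      nlinarith [norm_nonneg p.1]
    rw [ph_br_row_zero' n hs _ le_rfl h4]
    simp

/-! ### B2 : rows and masses -/

/-- the row formula.   PLAN: the representative of `brV n F` equals `brG F` a.e.; `rdChi 2 = 1` on the spectrum (`rd_chi_one`); substitution `q = 2π q'`
(factor `(2π)³`); `(rdD H k)⁻¹ = √(ℓ/H)`; `exp (i 2π θ) = ee θ`; `E2 × ℝ ≃ (ℝ×ℝ) × ℝ` measure preserving. -/
theorem ph_br_row (n : ℕ) {F : E2 × ℝ → ℂ} (hF : Continuous F) (hs : PhSupp (phH n) F) (T : ℝ) (k : ℕ) (p : PhRow) :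
    (brPar n).row T k 2 (brV n F) (brRow p) = phRow brPsi (phH n) (rdLen k) F T p := ph_br_row' n hF hs T k p

/-- masses of sets of rows   (`RdWvInst`, `ph_br_row`; `brRow` is a measurable equivalence which preserves `volume`; `integral_map_equiv`, `integral_indicator`) -/
theorem ph_br_ms (hI : BrInst) (η : ℝ) (n : ℕ) {F : E2 × ℝ → ℂ} (hF : Continuous F) (hs : PhSupp (phH n) F) (T : ℝ) (k : ℕ)
    (S : Set RdWvPar.Ph) (hS : MeasurableSet S) :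
    ((brPar n).sys η).ms T k 2 S (brV n F) = phMass brPsi (phH n) (rdLen k) F T (brRow ⁻¹' S) := ph_br_ms' hI η n hF hs T k S hS

/-- rows with `|A|² > 16` vanish at every length `ℓ ≥ H`   (`‖η'/(2ρ)‖ ≤ 2` on the spectrum, `rd_psi_supp`, `√(ℓ/H) ≥ 1`) -/
theorem ph_br_row_zero (n : ℕ) {F : E2 × ℝ → ℂ} (hs : PhSupp (phH n) F) (T : ℝ) {l : ℝ} (hl : phH n ≤ l) {p : PhRow}
    (hp : 4 < ‖p.1‖) : phRow brPsi (phH n) l F T p = 0 := ph_br_row_zero' n hs T hl hp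

/-- the mass of a label -/
theorem ph_br_m (hI : BrInst) (η : ℝ) (n : ℕ) {F : E2 × ℝ → ℂ} (hF : Continuous F) (hs : PhSupp (phH n) F) (κ : ℝ)
    (𝒬 : Finset (Fin 3 → ℤ)) (l : Fin (brLab n 𝒬).card) :
    (brXp η n F κ 𝒬).m l = phMass brPsi (phH n) (phH n) F ((brL n 𝒬 l).1 * phH n) (phCube (phH n) (brL n 𝒬 l).2) :=
  ph_br_m' hI η n hF hs κ 𝒬 l

/-! ### B3 : the experiment belongs to the class -/

/-- tests are closed sets of rows -/
theorem ph_br_valid_cell_meas (τ : RtTest) (T : ℝ) : MeasurableSet {x : RdWvPar.Ph | RdWvPar.co T x ∈ τ.set 1} := by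
  have cx : Continuous fun p : RdWvPar.Ph => τ.x (RdWvPar.co T p) := by
    unfold RtTest.x RdWvPar.co
    fun_prop
  have cz : Continuous fun p : RdWvPar.Ph => τ.z (RdWvPar.co T p) := by
    unfold RtTest.z RdWvPar.co rtIp
    fun_prop
  have cV : Continuous fun p : RdWvPar.Ph => τ.V (RdWvPar.co T p) := by
    unfold RtTest.V RdWvPar.co
    fun_prop
  have cF : Continuous fun p : RdWvPar.Ph => τ.Fv (RdWvPar.co T p) := by
    unfold RtTest.Fv RtPoly.F rtIp rtSq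
    fun_prop
  have cG : Continuous fun p : RdWvPar.Ph => τ.Gv (RdWvPar.co T p) := by
    unfold RtTest.Gv RtPoly.G rtIp rtSq
    fun_prop
  have cs : Continuous rtSq := by
    unfold rtSq
    fun_prop
  have e : {x : RdWvPar.Ph | RdWvPar.co T x ∈ τ.set 1} = {p | rtSq (τ.x (RdWvPar.co T p)) ≤ 1 ^ 2} ∩ {p | |τ.z (RdWvPar.co T p)| ≤ 1}
      ∩ {p | rtSq (τ.V (RdWvPar.co T p)) ≤ 1 ^ 2} ∩ {p | |τ.Fv (RdWvPar.co T p)| ≤ 1 * τ.f} ∩ {p | |τ.Gv (RdWvPar.co T p)| ≤ 1 * τ.f} := by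
    ext p
    simp only [RtTest.set, RtTest.box, Set.mem_ofPred_eq, Set.mem_inter_iff]
    tauto
  rw [e]
  exact (((((isClosed_le (cs.comp cx) continuous_const).inter (isClosed_le cz.abs continuous_const)).inter
    (isClosed_le (cs.comp cV) continuous_const)).inter (isClosed_le cF.abs continuous_const)).inter
    (isClosed_le cG.abs continuous_const)).measurableSet

theorem ph_br_valid_lab (n : ℕ) (𝒬 : Finset (Fin 3 → ℤ)) (l : Fin (brLab n 𝒬).card) : brL n 𝒬 l ∈ brLab n 𝒬 :=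
  ((brLab n 𝒬).equivFin.symm l).2

theorem ph_br_valid_inj (n : ℕ) (𝒬 : Finset (Fin 3 → ℤ)) {l l' : Fin (brLab n 𝒬).card} (h : brL n 𝒬 l = brL n 𝒬 l') : l = l' :=
  (brLab n 𝒬).equivFin.symm.injective (Subtype.ext h)

theorem ph_br_valid_len (n : ℕ) : rdLen n = phH n := by
  unfold rdLen phH
  rw [inv_pow]

/-- a point of an interval of length `H` is within `H / 2` of its midpoint -/
theorem ph_br_valid_floor {H y : ℝ} (hH : 0 < H) {q : ℤ} (h : ⌊y / H⌋ = q) : |y - ((q : ℝ) + 1 / 2) * H| ≤ H / 2 := by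
  obtain ⟨h1, h2⟩ := Int.floor_eq_iff.1 h
  rw [le_div_iff₀ hH] at h1
  rw [div_lt_iff₀ hH] at h2
  rw [abs_le]
  constructor <;> nlinarith

/-- the cube lies in the round box `r = 4` at length `H` -/
theorem ph_br_valid_supp (n : ℕ) (Q : Fin 3 → ℤ) (T : ℝ) {x : RdWvPar.Ph} (hx : x ∈ brCell (phH n) Q) :
    RdWvPar.co T x ∈ (brTst (phH n) Q).rows (0 + n) := by
  obtain ⟨h0, h1, h2, h3⟩ := hx
  have hH := ph_br_H_pos n
  have a0 := ph_br_valid_floor hH h0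
  have a1 := ph_br_valid_floor hH h1
  have a2 := ph_br_valid_floor hH h2
  obtain ⟨H, hHd⟩ : ∃ H : ℝ, H = phH n := ⟨_, rfl⟩
  rw [← hHd] at a0 a1 a2 hH
  have e : (brTst (phH n) Q).rows (0 + n)
      = (rtRound H 4 (0, 0) ((Q 0 + 1 / 2) * H, (Q 1 + 1 / 2) * H) ((Q 2 + 1 / 2) * H)).box 1 := by
    rw [← rt_round_set _ _ _ _ _ zero_le_one]
    unfold RdTst.rows RdTst.toT brTst rtRound
    rw [zero_add, ph_br_valid_len, ← hHd]
  rw [e]
  have hi : (H * 4)⁻¹ = (1 / 4) * H⁻¹ := by field_simp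
  have b0 : |H⁻¹ * (x.2.1.1 - ((Q 0 : ℝ) + 1 / 2) * H)| ≤ 1 / 2 := by
    rw [abs_mul, abs_of_pos (inv_pos.2 hH), inv_mul_le_iff₀ hH]
    linarith
  have b1 : |H⁻¹ * (x.2.1.2 - ((Q 1 : ℝ) + 1 / 2) * H)| ≤ 1 / 2 := by
    rw [abs_mul, abs_of_pos (inv_pos.2 hH), inv_mul_le_iff₀ hH]
    linarith
  have b2 : |H⁻¹ * (x.2.2 - ((Q 2 : ℝ) + 1 / 2) * H)| ≤ 1 / 2 := by
    rw [abs_mul, abs_of_pos (inv_pos.2 hH), inv_mul_le_iff₀ hH]
    linarith
  refine ⟨?_, ?_, ?_⟩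
  · show rtSq ((H * 4)⁻¹ • (x.2.1 - ((Q 0 + 1 / 2) * H, (Q 1 + 1 / 2) * H))) ≤ 1 ^ 2
    unfold rtSq
    simp only [Prod.smul_fst, Prod.smul_snd, Prod.fst_sub, Prod.snd_sub, smul_eq_mul]
    rw [hi]
    obtain ⟨c1, c2⟩ := abs_le.1 b0
    obtain ⟨c3, c4⟩ := abs_le.1 b1
    obtain ⟨u, hu⟩ : ∃ u : ℝ, u = H⁻¹ * (x.2.1.1 - ((Q 0 : ℝ) + 1 / 2) * H) := ⟨_, rfl⟩
    obtain ⟨w, hw⟩ : ∃ w : ℝ, w = H⁻¹ * (x.2.1.2 - ((Q 1 : ℝ) + 1 / 2) * H) := ⟨_, rfl⟩
    rw [← hu] at c1 c2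
    rw [← hw] at c3 c4
    rw [mul_assoc, mul_assoc, ← hu, ← hw]
    nlinarith
  · show |(x.2.2 - (Q 2 + 1 / 2) * H - 2 * rtIp (0, 0) (x.2.1 - ((Q 0 + 1 / 2) * H, (Q 1 + 1 / 2) * H))) / (H * 4 ^ 2)| ≤ 1
    have e1 : (x.2.2 - (Q 2 + 1 / 2) * H - 2 * rtIp (0, 0) (x.2.1 - ((Q 0 + 1 / 2) * H, (Q 1 + 1 / 2) * H))) / (H * 4 ^ 2)
        = (1 / 16) * (H⁻¹ * (x.2.2 - ((Q 2 : ℝ) + 1 / 2) * H)) := by
      unfold rtIp
      field_simp
      ring
    rw [e1]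
    obtain ⟨c1, c2⟩ := abs_le.1 b2
    rw [abs_le]
    constructor <;> linarith
  · show rtSq ((4 : ℝ)⁻¹ • (x.1 - (0, 0))) ≤ 1 ^ 2
    unfold rtSq at h3 ⊢
    simp only [Prod.smul_fst, Prod.smul_snd, Prod.fst_sub, Prod.snd_sub, smul_eq_mul, sub_zero]
    nlinarith

theorem ph_br_valid_wt (η H : ℝ) (Q : Fin 3 → ℤ) : (brTst H Q).wt η = 256 := by
  unfold RdTst.wt brTst
  simp only [Real.one_rpow, mul_one]
  norm_num

/-- validity.   (`reg` : `PhReg` with `τ = Q.toT 0`, `ph_br_ms`;  `plat` : `RdWvInst`, `ph_br_spec`;  `th_supp` : the cube lies in the round box `r = 4` at length `H`;  `th_sum` : the cubes are disjoint, `brL` is injective.) -/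
theorem ph_br_valid (hI : BrInst) {η : ℝ} {tl : ℕ → ℝ} {n : ℕ} {F : E2 × ℝ → ℂ} {κ : ℝ} (h : PhAdm brPsi tl η (phH n) κ F)
    (𝒬 : Finset (Fin 3 → ℤ)) : (brXp η n F κ 𝒬).Valid := by
  have hH := ph_br_H_pos n
  have hT : tmL 0 0 = 0 := by simp [tmL]
  have hl : rdLen 0 = 1 := by simp [rdLen]
  refine ⟨?_, h.kpos, ?_, ?_, ?_, ?_, List.Pairwise.nil, ?_, ?_, ?_, ?_, ?_, ?_, ?_, ?_, ?_⟩
  · exact lt_of_lt_of_le (mul_pos (pow_pos hH 12) h.kpos) h.size.1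
  · exact (ph_br_norm n h.cont h.supp).le
  · intro T k
    exact (hI n).2 2 (brV n F) (ph_br_spec n h.cont h.supp) T k
  · intro (Q : RdTst) hQ
    have e0 := ph_br_ms hI η n h.cont h.supp (tmL 0 0) 0 _ (ph_br_valid_cell_meas (Q.toT 0) (tmL 0 0))
    refine le_trans (le_of_eq e0) ?_
    rw [hT, hl]
    refine h.reg (Q.toT 0) hQ.1 hl ?_
    have h2 : rdD (phH n) 0 ≤ Q.r * Q.f := hQ.2
    unfold rdD at h2
    rwa [hl, div_one] at h2
  · intro σ hσ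
    exact absurd hσ List.not_mem_nil
  · intro σ hσ
    exact absurd hσ List.not_mem_nil
  · intro σ hσ
    exact absurd hσ List.not_mem_nil
  · intro l
    show ancI (0 + n) 0 (brL n 𝒬 l).1 = 0
    have h1 : (brL n 𝒬 l).1 < 2 ^ n := Finset.mem_range.1 (Finset.mem_product.1 (ph_br_valid_lab n 𝒬 l)).1
    unfold ancI
    rw [zero_add, Nat.sub_zero]
    exact Nat.div_eq_of_lt h1
  · intro l
    refine ⟨rt_round_adm (rdLen_pos _) (show (0 : ℝ) < 4 by norm_num) _ _ _, ?_⟩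
    show rdD (phH n) (0 + n) ≤ 4 * 1
    unfold rdD
    rw [zero_add, ph_br_valid_len, div_self hH.ne', Real.sqrt_one]
    norm_num
  · intro l
    show 0 < (brTst (phH n) (brL n 𝒬 l).2).wt η
    rw [ph_br_valid_wt]
    norm_num
  · intro l
    exact measurable_const.indicator (ph_br_cell_meas _ _)
  · intro l (x : RdWvPar.Ph)
    exact Set.indicator_nonneg (fun _ _ => zero_le_one) x
  · intro l (x : RdWvPar.Ph) hx
    have hx' : x ∈ brCell (phH n) (brL n 𝒬 l).2 := by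
      by_contra hc
      exact hx (Set.indicator_of_notMem hc (fun _ => (1 : ℝ)))
    exact ph_br_valid_supp n _ _ hx'
  · intro i (x : RdWvPar.Ph)
    show ∑ l, (if (brL n 𝒬 l).1 = i then (brCell (phH n) (brL n 𝒬 l).2).indicator (fun _ => (1 : ℝ)) x else 0) ≤ 1
    by_cases hex : ∃ l0, (brL n 𝒬 l0).1 = i ∧ x ∈ brCell (phH n) (brL n 𝒬 l0).2
    · obtain ⟨l0, h1, h2⟩ := hex
      rw [Finset.sum_eq_single l0]
      · rw [if_pos h1, Set.indicator_of_mem h2]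
      · intro l _ hne
        by_cases h3 : (brL n 𝒬 l).1 = i
        · rw [if_pos h3]
          refine Set.indicator_of_notMem (fun h4 => hne (ph_br_valid_inj n 𝒬 (Prod.ext (h3.trans h1.symm) ?_))) _
          funext t
          fin_cases t
          · exact h4.1.symm.trans h2.1
          · exact h4.2.1.symm.trans h2.2.1
          · exact h4.2.2.1.symm.trans h2.2.2.1
        · rw [if_neg h3]
      · intro hc
        exact absurd (Finset.mem_univ l0) hc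
    · push Not at hex
      refine le_trans (le_of_eq (Finset.sum_eq_zero fun l _ => ?_)) zero_le_one
      by_cases h3 : (brL n 𝒬 l).1 = i
      · rw [if_pos h3]
        exact Set.indicator_of_notMem (hex l h3) _
      · rw [if_neg h3]

/-- helper of `ph_br_adm`: row energies are subadditive on measurable sets -/
theorem ph_br_adm_ms_le (P : PkSys) (T : ℝ) (k b : ℕ) (v : P.Kc) {S S1 S2 : Set P.X} (h1 : MeasurableSet S1) (h2 : MeasurableSet S2)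
    (hsub : S ⊆ S1 ∪ S2) : P.ms T k b S v ≤ P.ms T k b S1 v + P.ms T k b S2 v := by
  unfold PkSys.ms PkSys.en
  have hg : Integrable (fun x => ‖(P.An T k b v : P.X → P.Fb) x‖ ^ 2) (P.rho k) := by
    have hm : MemLp (P.An T k b v : P.X → P.Fb) ((2 : ℕ) : ℝ≥0∞) (P.rho k) := by
      have := Lp.memLp (P.An T k b v)
      exact_mod_cast this
    exact hm.integrable_norm_pow (by norm_num)
  have hi : ∀ S' : Set P.X, MeasurableSet S' →
      Integrable (fun x => S'.indicator (fun _ => (1 : ℝ)) x * ‖(P.An T k b v : P.X → P.Fb) x‖ ^ 2) (P.rho k) := by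
    intro S' hS'
    have e : (fun x => S'.indicator (fun _ => (1 : ℝ)) x * ‖(P.An T k b v : P.X → P.Fb) x‖ ^ 2)
        = S'.indicator (fun x => ‖(P.An T k b v : P.X → P.Fb) x‖ ^ 2) := by
      funext x
      by_cases hx : x ∈ S'
      · rw [Set.indicator_of_mem hx, Set.indicator_of_mem hx, one_mul]
      · rw [Set.indicator_of_notMem hx, Set.indicator_of_notMem hx, zero_mul]
    rw [e]
    exact hg.indicator hS'
  have hnn : ∀ (S' : Set P.X) (x : P.X), 0 ≤ S'.indicator (fun _ => (1 : ℝ)) x * ‖(P.An T k b v : P.X → P.Fb) x‖ ^ 2 := fun S' x =>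
    mul_nonneg (Set.indicator_nonneg (fun _ _ => zero_le_one) x) (sq_nonneg _)
  rw [← integral_add (hi S1 h1) (hi S2 h2)]
  refine integral_mono_of_nonneg (Filter.Eventually.of_forall fun x => hnn S x) ((hi S1 h1).add (hi S2 h2))
    (Filter.Eventually.of_forall fun x => ?_)
  show S.indicator (fun _ => (1 : ℝ)) x * ‖(P.An T k b v : P.X → P.Fb) x‖ ^ 2
    ≤ S1.indicator (fun _ => (1 : ℝ)) x * ‖(P.An T k b v : P.X → P.Fb) x‖ ^ 2
      + S2.indicator (fun _ => (1 : ℝ)) x * ‖(P.An T k b v : P.X → P.Fb) x‖ ^ 2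
  by_cases hx : x ∈ S
  · rcases hsub hx with h | h
    · rw [Set.indicator_of_mem hx, Set.indicator_of_mem h]
      linarith [hnn S2 x]
    · rw [Set.indicator_of_mem hx, Set.indicator_of_mem h]
      linarith [hnn S1 x]
  · rw [Set.indicator_of_notMem hx, zero_mul]
    exact add_nonneg (hnn S1 x) (hnn S2 x)

theorem ph_br_adm_H (n : ℕ) : 0 < phH n ∧ phH n ≤ 1 ∧ (2 : ℝ)⁻¹ ^ n = phH n := by
  unfold phH
  refine ⟨by positivity, ?_, inv_pow _ _⟩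
  exact inv_le_one_of_one_le₀ (one_le_pow₀ (by norm_num))

theorem ph_br_adm_norm (u : E2) : ‖u‖ = Real.sqrt (rtSq (u 0, u 1)) := by
  rw [EuclideanSpace.norm_eq, Fin.sum_univ_two]
  unfold rtSq
  simp only [Real.norm_eq_abs, sq_abs]

/-- admissibility with the package `C = 13`, for `n` large in terms of the tail order.
(frame `⟨1, 0, 0, 0⟩`; `tail` : outside the box `s^{-13}` either `‖b‖ + |y| > H^{-12}` or `|A| > 4` (`n ≥ 1`); `tl (A+1) H^{A+1} ≤ H^A` for `n ≥ n₁`.) -/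
theorem ph_br_adm (hI : BrInst) (η : ℝ) (tl : ℕ → ℝ) (A : ℕ) : ∃ n₁ : ℕ, ∀ (n : ℕ) (F : E2 × ℝ → ℂ) (κ : ℝ), n₁ ≤ n →
    PhAdm brPsi tl η (phH n) κ F → ∀ 𝒬 : Finset (Fin 3 → ℤ), (rndWav η).Cls 13 A (brPar n) (brXp η n F κ 𝒬) := by
  refine ⟨max 1 ⌈tl (A + 1)⌉₊, fun n F κ hn h 𝒬 => ?_⟩
  have hn1 : 1 ≤ n := (le_max_left _ _).trans hn
  obtain ⟨hH0, hH1, hHs⟩ := ph_br_adm_H n
  obtain ⟨H, hH⟩ : ∃ H : ℝ, H = phH n := ⟨_, rfl⟩
  rw [← hH] at hH0 hH1 hHs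
  have hs : (brXp η n F κ 𝒬).s = H := hHs
  obtain ⟨e, he⟩ : ∃ e : ℝ, e = ∫ q, ‖F q‖ ^ 2 := ⟨_, rfl⟩
  have hsz := h.size
  rw [← hH, ← he] at hsz
  have hκ := h.kpos
  have he0 : 0 ≤ e := by
    rw [he]
    exact integral_nonneg fun q => sq_nonneg _
  have hHi : 1 ≤ H⁻¹ := (one_le_inv₀ hH0).2 hH1
  have hH2 : H ≤ 1 / 2 := by
    rw [hH]
    unfold phH
    rw [one_div]
    refine inv_anti₀ (by norm_num) ?_
    calc (2 : ℝ) = 2 ^ 1 := (pow_one _).symm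
      _ ≤ 2 ^ n := pow_le_pow_right₀ (by norm_num) hn1
  have hHi2 : 2 ≤ H⁻¹ := by
    rw [le_inv_comm₀ (by norm_num) hH0]
    linarith
  have hp13 : H ^ ((13 : ℕ) : ℝ) = H ^ 13 := Real.rpow_natCast H 13
  have hm13 : H ^ (-((13 : ℕ) : ℝ)) = H⁻¹ ^ 13 := by
    rw [Real.rpow_neg hH0.le, Real.rpow_natCast, inv_pow]
  have h1213 : H⁻¹ ^ 12 ≤ H⁻¹ ^ 13 := pow_le_pow_right₀ hHi (by norm_num)
  have htl : tl (A + 1) * H ≤ 1 := by
    have h1 : tl (A + 1) ≤ (2 : ℝ) ^ n := by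
      calc tl (A + 1) ≤ (⌈tl (A + 1)⌉₊ : ℝ) := Nat.le_ceil _
        _ ≤ (n : ℝ) := by exact_mod_cast (le_max_right _ _).trans hn
        _ ≤ (2 : ℝ) ^ n := by exact_mod_cast (Nat.lt_two_pow_self).le
    have h2 : H * (2 : ℝ) ^ n = 1 := by
      rw [hH]
      unfold phH
      exact inv_mul_cancel₀ (by positivity)
    calc tl (A + 1) * H ≤ (2 : ℝ) ^ n * H := mul_le_mul_of_nonneg_right h1 hH0.le
      _ = 1 := by rw [mul_comm]; exact h2
  refine ⟨ph_br_ok n, ph_br_valid hI h 𝒬, Nat.zero_le _, ⟨by norm_num [brXp], by norm_num [brXp], fun σ hσ => absurd hσ (List.not_mem_nil)⟩,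
    ⟨1, (0, 0), (0, 0), 0⟩, ?_, ?_, ?_⟩
  · refine ⟨one_pos, ?_, ?_, ?_, fun hf => hf.elim, fun hf => hf.elim⟩
    · show (brXp η n F κ 𝒬).s ^ ((13 : ℕ) : ℝ) * (κ * (1 : ℝ) ^ 4) ≤ ∫ q, ‖F q‖ ^ 2
      rw [hs, hp13, ← he, one_pow, mul_one]
      refine le_trans (mul_le_mul_of_nonneg_right ?_ hκ.le) hsz.1
      exact pow_le_pow_of_le_one hH0.le hH1 (by norm_num)
    · show (∫ q, ‖F q‖ ^ 2) ≤ (brXp η n F κ 𝒬).s ^ (-((13 : ℕ) : ℝ)) * (κ * (1 : ℝ) ^ 4)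
      rw [hs, hm13, ← he, one_pow, mul_one]
      exact hsz.2.trans (mul_le_mul_of_nonneg_right h1213 hκ.le)
    · -- the tail
      show ((brPar n).sys η).ms (tmL 0 0) 0 2
          {x | RdWvPar.co (tmL 0 0) x ∉ (⟨1, (0, 0), (0, 0), 0⟩ : RdFrm).box 0 ((brXp η n F κ 𝒬).s ^ (-((13 : ℕ) : ℝ)))} (brV n F)
        ≤ (brXp η n F κ 𝒬).s ^ (A : ℝ) * ∫ q, ‖F q‖ ^ 2
      rw [hs, hm13, ← he, Real.rpow_natCast]
      have hT : tmL 0 0 = 0 := by simp [tmL]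
      have hl : rdLen 0 = 1 := by simp [rdLen]
      rw [hT]
      obtain ⟨S1, hS1⟩ : ∃ S1 : Set RdWvPar.Ph, S1 = {x | H⁻¹ ^ 12 < Real.sqrt (rtSq x.2.1) + |x.2.2|} := ⟨_, rfl⟩
      obtain ⟨S2, hS2⟩ : ∃ S2 : Set RdWvPar.Ph, S2 = {x | 16 < rtSq x.1} := ⟨_, rfl⟩
      have m1 : MeasurableSet S1 := by
        rw [hS1]
        unfold rtSq
        exact measurableSet_lt measurable_const (by fun_prop)
      have m2 : MeasurableSet S2 := by
        rw [hS2]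
        unfold rtSq
        exact measurableSet_lt measurable_const (by fun_prop)
      have hsub : {x : RdWvPar.Ph | RdWvPar.co 0 x ∉ (⟨1, (0, 0), (0, 0), 0⟩ : RdFrm).box 0 (H⁻¹ ^ 13)} ⊆ S1 ∪ S2 := by
        intro x hx
        by_contra hc
        rw [Set.mem_union, not_or, hS1, hS2] at hc
        obtain ⟨c1, c2⟩ := hc
        have c1' : Real.sqrt (rtSq x.2.1) + |x.2.2| ≤ H⁻¹ ^ 12 := not_lt.1 c1
        have c2' : rtSq x.1 ≤ 16 := not_lt.1 c2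
        apply hx
        have hb0 := Real.sqrt_nonneg (rtSq x.2.1)
        have hy0 := abs_nonneg x.2.2
        have hM : (16 : ℝ) ≤ (H⁻¹ ^ 13) ^ 2 := by
          have : (2 : ℝ) ^ 13 ≤ H⁻¹ ^ 13 := pow_le_pow_left₀ (by norm_num) hHi2 13
          nlinarith
        have hM0 : 0 ≤ H⁻¹ ^ 13 := by positivity
        refine ⟨?_, ?_, ?_⟩
        · show rtSq ((rdLen 0 * 1)⁻¹ • (x.2.1 - ((0 : ℝ), (0 : ℝ)))) ≤ (H⁻¹ ^ 13) ^ 2
          have e1 : (rdLen 0 * 1)⁻¹ • (x.2.1 - ((0 : ℝ), (0 : ℝ))) = x.2.1 := by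
            rw [hl]
            ext <;> simp
          rw [e1, ← Real.sq_sqrt (rtSq_nonneg x.2.1)]
          exact pow_le_pow_left₀ hb0 (by linarith) 2
        · show |(x.2.2 - 0 - 2 * rtIp ((0 : ℝ), (0 : ℝ)) (x.2.1 - ((0 : ℝ), (0 : ℝ)))) / (rdLen 0 * 1 ^ 2)| ≤ H⁻¹ ^ 13
          have e2 : (x.2.2 - 0 - 2 * rtIp ((0 : ℝ), (0 : ℝ)) (x.2.1 - ((0 : ℝ), (0 : ℝ)))) / (rdLen 0 * 1 ^ 2) = x.2.2 := by
            rw [hl]
            simp [rtIp]
          rw [e2]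
          linarith
        · show rtSq ((1 : ℝ)⁻¹ • (x.1 - ((0 : ℝ), (0 : ℝ)))) ≤ (H⁻¹ ^ 13) ^ 2
          have e3 : (1 : ℝ)⁻¹ • (x.1 - ((0 : ℝ), (0 : ℝ))) = x.1 := by
            ext <;> simp
          rw [e3]
          linarith
      refine (ph_br_adm_ms_le ((brPar n).sys η) 0 0 2 (brV n F) (S1 := S1) (S2 := S2) m1 m2 hsub).trans ?_
      rw [ph_br_ms hI η n h.cont h.supp 0 0 S1 m1, ph_br_ms hI η n h.cont h.supp 0 0 S2 m2, hl]
      have t1 : phMass brPsi (phH n) 1 F 0 (brRow ⁻¹' S1) ≤ tl (A + 1) * H ^ (A + 1) * e := by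
        have := h.tail (A + 1)
        rw [← hH, ← he] at this
        have es : brRow ⁻¹' S1 = {p : PhRow | H⁻¹ ^ 12 < ‖p.2.1‖ + |p.2.2|} := by
          rw [hS1]
          ext p
          show H⁻¹ ^ 12 < Real.sqrt (rtSq (p.2.1 0, p.2.1 1)) + |p.2.2| ↔ H⁻¹ ^ 12 < ‖p.2.1‖ + |p.2.2|
          rw [ph_br_adm_norm]
        rw [es, ← hH]
        exact this
      have t2 : phMass brPsi (phH n) 1 F 0 (brRow ⁻¹' S2) = 0 := by
        unfold phMass
        rw [setIntegral_eq_zero_of_forall_eq_zero, mul_zero]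
        intro p hp
        have hp' : 16 < rtSq (p.1 0, p.1 1) := by
          rw [hS2] at hp
          exact hp
        have h4 : 4 < ‖p.1‖ := by
          rw [ph_br_adm_norm]
          exact Real.lt_sqrt_of_sq_lt (by linarith)
        rw [ph_br_row_zero n h.supp 0 (by rw [← hH]; exact hH1) h4]
        simp
      rw [t2, add_zero]
      refine t1.trans ?_
      refine mul_le_mul_of_nonneg_right ?_ he0
      calc tl (A + 1) * H ^ (A + 1) = (tl (A + 1) * H) * H ^ A := by ring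
        _ ≤ 1 * H ^ A := mul_le_mul_of_nonneg_right htl (by positivity)
        _ = H ^ A := one_mul _
  · show (brXp η n F κ 𝒬).s ^ ((13 : ℕ) : ℝ) ≤ phH n / (rdLen 0 * (1 : ℝ) ^ 2)
    have hl : rdLen 0 = 1 := by simp [rdLen]
    rw [hs, hp13, hl, ← hH, one_pow, mul_one, div_one]
    calc H ^ 13 ≤ H ^ 1 := pow_le_pow_of_le_one hH0.le hH1 (by norm_num)
      _ = H := pow_one _
  · show phH n / (rdLen 0 * (1 : ℝ) ^ 2) ≤ (brXp η n F κ 𝒬).s ^ (-((13 : ℕ) : ℝ))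
    have hl : rdLen 0 = 1 := by simp [rdLen]
    rw [hs, hm13, hl, ← hH, one_pow, mul_one, div_one]
    exact hH1.trans (one_le_pow₀ hHi)

/-- the value of the functional -/
theorem ph_br_val (hI : BrInst) (η : ℝ) (n : ℕ) {F : E2 × ℝ → ℂ} (hF : Continuous F) (hs : PhSupp (phH n) F) (κ : ℝ)
    (𝒬 : Finset (Fin 3 → ℤ)) :
    (brXp η n F κ 𝒬).val = 2 ^ ((n : ℝ) / 2) / ((∫ q, ‖F q‖ ^ 2) * Real.sqrt κ) *
      ∑ j ∈ Finset.range (2 ^ n), ∑ Q ∈ 𝒬, (phMass brPsi (phH n) (phH n) F (j * phH n) (phCube (phH n) Q)) ^ (3 / 2 : ℝ) / 16 := by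
  show 2 ^ ((n : ℝ) / 2) / ((∫ q, ‖F q‖ ^ 2) * Real.sqrt κ) * (brXp η n F κ 𝒬).rd = _
  congr 1
  have h16 : Real.sqrt 256 = 16 := by
    rw [show (256 : ℝ) = 16 ^ 2 by norm_num]
    exact Real.sqrt_sq (by norm_num)
  have e1 : (brXp η n F κ 𝒬).rd = ∑ l : Fin (brLab n 𝒬).card,
      (fun y : ℕ × (Fin 3 → ℤ) => (phMass brPsi (phH n) (phH n) F (y.1 * phH n) (phCube (phH n) y.2)) ^ (3 / 2 : ℝ) / 16)
        (brL n 𝒬 l) := by
    unfold Xp.rd
    refine Finset.sum_congr rfl fun l _ => ?_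
    rw [ph_br_m hI η n hF hs κ 𝒬 l]
    have hw : (brXp η n F κ 𝒬).w l = 256 := ph_br_valid_wt η _ _
    rw [hw, h16]
  rw [e1]
  have e2 := Equiv.sum_comp (brLab n 𝒬).equivFin.symm
    (fun y : ↥(brLab n 𝒬) => (phMass brPsi (phH n) (phH n) F ((y : ℕ × (Fin 3 → ℤ)).1 * phH n)
      (phCube (phH n) (y : ℕ × (Fin 3 → ℤ)).2)) ^ (3 / 2 : ℝ) / 16)
  have e3 := Finset.sum_coe_sort (brLab n 𝒬)
    (fun y : ℕ × (Fin 3 → ℤ) => (phMass brPsi (phH n) (phH n) F (y.1 * phH n) (phCube (phH n) y.2)) ^ (3 / 2 : ℝ) / 16)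
  refine (e2.trans e3).trans ?_
  unfold brLab
  rw [Finset.sum_product]

/-! ### B4 : the bridge -/

/-- helper of `ph_br_phround`: from finite sets of cubes to the series -/
theorem ph_br_phround_tsum {ι : Type*} (J : Finset ℕ) (a : ℕ → ι → ℝ) (ha : ∀ j Q, 0 ≤ a j Q) (c : ℝ)
    (h : ∀ 𝒬 : Finset ι, ∑ j ∈ J, ∑ Q ∈ 𝒬, a j Q ≤ c) : ∑ j ∈ J, ∑' Q, a j Q ≤ c := by
  have hs : ∀ j ∈ J, Summable (a j) := fun j hj => summable_of_sum_le (ha j) (c := c) fun 𝒬 =>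
    (Finset.single_le_sum (f := fun j => ∑ Q ∈ 𝒬, a j Q) (fun i _ => Finset.sum_nonneg fun Q _ => ha i Q) hj).trans (h 𝒬)
  rw [← Summable.tsum_finsetSum hs]
  refine Real.tsum_le_of_sum_le (fun Q => Finset.sum_nonneg fun j _ => ha j Q) fun 𝒬 => ?_
  rw [Finset.sum_comm]
  exact h 𝒬

/-- helper of `ph_br_phround`: `H^{-x} = 2^{x n}` -/
theorem ph_br_phround_pow (n : ℕ) (x : ℝ) : phH n ^ (-x) = 2 ^ (x * n) := by
  unfold phH
  rw [Real.rpow_neg (by positivity), Real.inv_rpow (by positivity), inv_inv, ← Real.rpow_natCast, ← Real.rpow_mul (by norm_num), mul_comm]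

/-- GLUE.   `RateF` with `C = 13`, `ε = ζ` gives `A, n0` (`(brXp ..).st = []` by `rfl`); `n₀ = max n0 n₁`; `ph_br_val`; `tsum_le_of_sum_le'` over the finite sets `𝒬` (nonnegative terms; take ONE `𝒬` for all `j`:
`∑_j ∑'_Q a_{jQ} ≤ c` follows from `∑_j ∑_{Q ∈ 𝒬} a_{jQ} ≤ c` for all `𝒬`: drop the `j` with non summable rows (`tsum = 0`), `Summable.tsum_finsetSum` for the others);
`2^{n/2} = H^{-1/2}`, `2^{(100η+ζ) n} = H^{-(100η+ζ)}`;  constant `16`. -/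
theorem ph_br_phround (hI : BrInst) {η : ℝ} (hη : 0 < η) (hR : (rndWav η).RateF (100 * η)) : PhRound brPsi η := by
  intro ζ hζ tl
  obtain ⟨A, n0, hrate⟩ := hR 13 ζ hζ
  obtain ⟨n₁, hadm⟩ := ph_br_adm hI η tl A
  refine ⟨16, max n0 n₁, fun n F κ hn h => ?_⟩
  have hn0 : n0 ≤ n := (le_max_left _ _).trans hn
  have hn1 : n₁ ≤ n := (le_max_right _ _).trans hn
  obtain ⟨e, he⟩ : ∃ e : ℝ, e = ∫ q, ‖F q‖ ^ 2 := ⟨_, rfl⟩
  have hH0 : 0 < phH n := (ph_br_adm_H n).1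
  have hepos : 0 < e := by
    have := h.size.1
    rw [← he] at this
    exact lt_of_lt_of_le (mul_pos (pow_pos hH0 12) h.kpos) this
  have hsk : 0 < Real.sqrt κ := Real.sqrt_pos.2 h.kpos
  obtain ⟨a, ha⟩ : ∃ a : ℕ → (Fin 3 → ℤ) → ℝ,
      a = fun (j : ℕ) Q => (phMass brPsi (phH n) (phH n) F ((j : ℝ) * phH n) (phCube (phH n) Q)) ^ (3 / 2 : ℝ) := ⟨_, rfl⟩
  have hann : ∀ j Q, 0 ≤ a j Q := fun j Q => by
    rw [ha]
    refine Real.rpow_nonneg ?_ _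
    unfold phMass
    exact mul_nonneg (div_nonneg hH0.le hH0.le) (integral_nonneg fun p => sq_nonneg _)
  obtain ⟨P, hP⟩ : ∃ P : ℝ, P = 2 ^ ((n : ℝ) / 2) := ⟨_, rfl⟩
  obtain ⟨R, hRR⟩ : ∃ R : ℝ, R = 2 ^ ((100 * η + ζ) * (n : ℝ)) := ⟨_, rfl⟩
  have hP0 : 0 < P := by rw [hP]; positivity
  have hfin : ∀ 𝒬 : Finset (Fin 3 → ℤ), ∑ j ∈ Finset.range (2 ^ n), ∑ Q ∈ 𝒬, a j Q ≤ R * (16 * (e * Real.sqrt κ) / P) := by
    intro 𝒬
    have h1 : (brXp η n F κ 𝒬).val ≤ 2 ^ ((100 * η + ζ) * (n : ℝ)) := hrate (brPar n) (brXp η n F κ 𝒬) hn0 (hadm n F κ hn1 h 𝒬) rfl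
    rw [ph_br_val hI η n h.cont h.supp κ 𝒬, ← he, ← hP, ← hRR] at h1
    have e1 : ∑ j ∈ Finset.range (2 ^ n), ∑ Q ∈ 𝒬, (phMass brPsi (phH n) (phH n) F (j * phH n) (phCube (phH n) Q)) ^ (3 / 2 : ℝ) / 16
        = (∑ j ∈ Finset.range (2 ^ n), ∑ Q ∈ 𝒬, a j Q) / 16 := by
      rw [ha, Finset.sum_div]
      exact Finset.sum_congr rfl fun j _ => (Finset.sum_div _ _ _).symm
    rw [e1] at h1
    have e2 : ∑ j ∈ Finset.range (2 ^ n), ∑ Q ∈ 𝒬, a j Q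
        = (P / (e * Real.sqrt κ) * ((∑ j ∈ Finset.range (2 ^ n), ∑ Q ∈ 𝒬, a j Q) / 16)) * (16 * (e * Real.sqrt κ) / P) := by
      field_simp
    rw [e2]
    exact mul_le_mul_of_nonneg_right h1 (by positivity)
  have hts := ph_br_phround_tsum (Finset.range (2 ^ n)) a hann _ hfin
  have hPH : phH n ^ (-(1 / 2) : ℝ) = P := by
    rw [ph_br_phround_pow, hP]
    congr 1
    ring
  have hRH : phH n ^ (-(100 * η + ζ)) = R := by rw [ph_br_phround_pow, hRR]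
  unfold phFun
  rw [hPH, hRH, ← he]
  have e3 : ∑ j ∈ Finset.range (2 ^ n), ∑' Q : Fin 3 → ℤ, (phMass brPsi (phH n) (phH n) F (j * phH n) (phCube (phH n) Q)) ^ (3 / 2 : ℝ)
      = ∑ j ∈ Finset.range (2 ^ n), ∑' Q, a j Q := by rw [ha]
  rw [e3]
  calc P * ∑ j ∈ Finset.range (2 ^ n), ∑' Q, a j Q ≤ P * (R * (16 * (e * Real.sqrt κ) / P)) := mul_le_mul_of_nonneg_left hts hP0.le
    _ = 16 * R * e * Real.sqrt κ := by field_simp

end Claimed.Agent.R256
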