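-- KEEP
import Claimed.Agent.R256.Phys.Defs
import Claimed.Agent.R256.Top.Tools

/-!
# Row 256, L3, BLOCK N : null coordinates, energy, Bernstein, small energy (09 l.86-150)      (chief helper73, block architect helper163; prefix `ph_`)

EXITS used by the other blocks (statements frozen; the block architect may add any intermediate lemma, in this file or in `Phys/Null*.lean`):
 `PhData.*`, `ph_null`, `ph_st`, `ph_F_cont`, `ph_F_supp`, `ph_F_add`, `ph_energy`, `ph_sh_*`, `ph_wave_sh`, `ph_row_sh`, `ph_planch`, `ph_bernstein`, `ph_small`.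
PLANS.
* `ph_null` : `ls_wk_eq`, `integral_J`, `integral_prod`; for fixed `η' ≠ 0` the map `ρ ↦ |η'|²/(4ρ) - ρ` is a decreasing bijection `(0,∞) → ℝ` with derivative `-(1 + |η'|²/(4ρ²))` (inverse `ρ = (√(η₃²+|η'|²) - η₃)/2`):
  `integral_image_eq_integral_abs_deriv_smul` on `Set.Ioi 0`; `{η' = 0}` is a null set; `‖phXi q‖ = ρ + |η'|²/(4ρ)` for `ρ > 0`; the phase identity of the header of `Defs.lean` (`inner_J`, `ring`).
* `ph_st` : `(x₃, τ) ↦ (t, y) = (-(x₃ + τ), x₃ - τ)` is linear with `|det| = 2`; `|x| ≤ 1`, `1 ≤ τ ≤ 2` gives `t ∈ [-3,0]`, `|b| ≤ 1`, `|y| ≤ 3`; `[-3,0] = ⋃ [T, T+1]`, `ph_wave_sh`.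
* `ph_energy` : the same change of variables for `‖·‖²` : `∫ ‖phSpec G‖² = ∫ (1+|A|²) ‖G‖²`, `1 + |A|² = 2|η|/(|η|-η₃) ≤ 4` where `chi (-η₃/|η|) ≠ 0`; `|pat| ≤ 1`; `ph_planch`.
* `ph_planch` : Plancherel for `L¹ ∩ L²` (Mathlib has only Schwartz functions and the abstract `L²` isometry `Lp.fourierTransformₗᵢ`).  Route A: `G := 𝓕 (h2.toLp g) ∈ L²`; for test functions `φ`, `∫ 𝓕 g φ = ∫ g 𝓕 φ`
  (`VectorFourier.integral_fourierIntegral_smul_eq_flip` / `Real.integral_fourier_...`) `= ∫ G φ` (pattern `R258.s5a_planch`), hence `𝓕 g = G` a.e. (`ae_eq_zero_of_integral_contDiff_smul_eq_zero`), `Lp.norm_fourier_eq`.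
  Route B: Schwartz `g_k → g` in `L²` (`SchwartzMap.denseRange_toLpCLM`), multiplied by a fixed cutoff also in `L¹`; `𝓕 g_k → 𝓕 g` uniformly; Fatou gives `≤`, which is all we use.
* `ph_bernstein` : Cauchy-Schwarz on the support, whose volume is `≤ π (24/H)² · 6/H`.
* `ph_small` : `|v|³ ≤ ‖v‖_∞³`, `ph_bernstein`, `volume phOm < ∞`.
-/

set_option autoImplicit false

namespace Claimed.Agent.R256

open MeasureTheory Complex Claimed.Agent.R255.BR
open scoped FourierTransform Real SchwartzMap InnerProductSpace ENNReal ContDiff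

/-- bounded data in the ball of radius `6` -/
structure PhData (g : E3 → ℂ) (B : ℝ) : Prop where
  meas : Measurable g
  bd : ∀ x, ‖g x‖ ≤ B
  supp : ∀ x, g x ≠ 0 → ‖x‖ ≤ 6

theorem PhData.integrable {g : E3 → ℂ} {B : ℝ} (h : PhData g B) : Integrable g := by
  have hs : Function.support g ⊆ Metric.closedBall 0 6 := fun x hx => by
    rw [mem_closedBall_zero_iff]; exact h.supp x hx
  rw [← integrableOn_iff_integrable_of_support_subset hs]
  exact Measure.integrableOn_of_bounded (M := B) (isCompact_closedBall _ _).measure_lt_top.ne h.meas.aestronglyMeasurable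
    (Filter.Eventually.of_forall h.bd)

theorem ph_dt_sq_int {g : E3 → ℂ} {B : ℝ} (h : PhData g B) : Integrable fun x => ‖g x‖ ^ 2 := by
  have hs : Function.support (fun x => ‖g x‖ ^ 2) ⊆ Metric.closedBall 0 6 := fun x hx => by
    rw [mem_closedBall_zero_iff]
    refine h.supp x fun h0 => hx ?_
    simp [h0]
  rw [← integrableOn_iff_integrable_of_support_subset hs]
  refine Measure.integrableOn_of_bounded (M := B ^ 2) (isCompact_closedBall _ _).measure_lt_top.ne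
    (h.meas.norm.pow_const 2).aestronglyMeasurable (Filter.Eventually.of_forall fun x => ?_)
  rw [Real.norm_of_nonneg (by positivity)]
  exact pow_le_pow_left₀ (norm_nonneg _) (h.bd x) 2

theorem PhData.memLp {g : E3 → ℂ} {B : ℝ} (h : PhData g B) : MemLp g 2 volume :=
  (memLp_two_iff_integrable_sq_norm h.meas.aestronglyMeasurable).2 (ph_dt_sq_int h)

theorem PhData.indicator {g : E3 → ℂ} {B : ℝ} (h : PhData g B) {E : Set E3} (hE : MeasurableSet E) : PhData (E.indicator g) B where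
  meas := h.meas.indicator hE
  bd x := (norm_indicator_le_norm_self g x).trans (h.bd x)
  supp x hx := h.supp x fun h0 => hx (by
    by_cases hxE : x ∈ E
    · rw [Set.indicator_of_mem hxE, h0]
    · exact Set.indicator_of_notMem hxE g)

theorem ph_dt_sq_le_vol {g : E3 → ℂ} {B : ℝ} (h : PhData g B) {E : Set E3} (hE : MeasurableSet E) {v : ℝ} (hv : 0 ≤ v)
    (hEv : volume E ≤ ENNReal.ofReal v) : ∫ x in E, ‖g x‖ ^ 2 ≤ B ^ 2 * v := by
  have hfin : volume E < ⊤ := hEv.trans_lt ENNReal.ofReal_lt_top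
  have hb := norm_setIntegral_le_of_norm_le_const (μ := volume) (s := E) (C := B ^ 2) (f := fun x => ‖g x‖ ^ 2) hfin (fun x _ => by
    rw [Real.norm_of_nonneg (by positivity)]
    exact pow_le_pow_left₀ (norm_nonneg _) (h.bd x) 2)
  refine (le_abs_self _).trans (hb.trans ?_)
  refine mul_le_mul_of_nonneg_left ?_ (by positivity)
  exact ENNReal.toReal_le_of_le_ofReal hv hEv

/-- `∫ |g|² ≤ |B(0,6)| B²` -/
theorem PhData.sq_le : ∃ V : ℝ, 1 ≤ V ∧ ∀ (g : E3 → ℂ) (B : ℝ), PhData g B → ∫ x, ‖g x‖ ^ 2 ≤ V * B ^ 2 := by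
  refine ⟨max 1 (volume (Metric.closedBall (0 : E3) 6)).toReal, le_max_left _ _, fun g B h => ?_⟩
  have hz : ∀ x, x ∉ Metric.closedBall (0 : E3) 6 → ‖g x‖ ^ 2 = 0 := by
    intro x hx
    have : g x = 0 := by
      by_contra h0
      exact hx (by rw [mem_closedBall_zero_iff]; exact h.supp x h0)
    simp [this]
  rw [← setIntegral_eq_integral_of_forall_compl_eq_zero hz]
  have := ph_dt_sq_le_vol h (E := Metric.closedBall (0 : E3) 6) measurableSet_closedBall (v := (volume (Metric.closedBall (0 : E3) 6)).toReal)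
    ENNReal.toReal_nonneg (by rw [ENNReal.ofReal_toReal (isCompact_closedBall _ _).measure_lt_top.ne])
  refine this.trans ?_
  rw [mul_comm]
  exact mul_le_mul_of_nonneg_right (le_max_right _ _) (by positivity)

/-- `∫_E |g|² ≤ B² |E|` -/
theorem PhData.sq_le_vol {g : E3 → ℂ} {B : ℝ} (h : PhData g B) {E : Set E3} (hE : MeasurableSet E) {v : ℝ} (hv : 0 ≤ v)
    (hEv : volume E ≤ ENNReal.ofReal v) : ∫ x in E, ‖g x‖ ^ 2 ≤ B ^ 2 * v := by
  exact ph_dt_sq_le_vol h hE hv hEv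

theorem ph_n2_xi_meas : Measurable phXi := by
  unfold phXi
  refine continuous_J.measurable.comp ?_
  fun_prop

theorem ph_n2_ae_ne : ∀ᵐ a : E2, a ≠ 0 := by
  have h : (volume : Measure E2) {(0 : E2)} = 0 := measure_singleton _
  have h2 : ({(0 : E2)} : Set E2)ᶜ ∈ ae (volume : Measure E2) := compl_mem_ae_iff.2 h
  filter_upwards [h2] with a ha
  exact ha

theorem ph_n2_w_meas : Measurable fun q : E2 × ℝ => ENNReal.ofReal (1 + ‖q.1‖ ^ 2 / (4 * q.2 ^ 2)) := by
  fun_prop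

theorem ph_n2_int_meas (Φ : E3 → ℝ≥0∞) (hΦ : Measurable Φ) :
    Measurable fun q : E2 × ℝ => if 0 < q.2 then ENNReal.ofReal (1 + ‖q.1‖ ^ 2 / (4 * q.2 ^ 2)) * Φ (phXi q) else 0 := by
  refine Measurable.ite (measurableSet_lt measurable_const measurable_snd) ?_ measurable_const
  exact ph_n2_w_meas.mul (hΦ.comp ph_n2_xi_meas)

/-- **N0** the change of variables `η = phXi (η', ρ)` in frequency, `lintegral` form.
PLAN: `lintegral_J`, `lintegral_prod` (Tonelli); for `η' ≠ 0` (a.e.) `ls_rho_subst_lintegral` (`Top/Tools.lean`) with `c = |η'|²/4`; `lintegral_prod` backwards; `∫⁻ ρ in Ioi 0` = integral of the `if`. -/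
theorem ph_freq_lintegral (Φ : E3 → ℝ≥0∞) (hΦ : Measurable Φ) :
    ∫⁻ η, Φ η = ∫⁻ q : E2 × ℝ, if 0 < q.2 then ENNReal.ofReal (1 + ‖q.1‖ ^ 2 / (4 * q.2 ^ 2)) * Φ (phXi q) else 0 := by
  have hm1 : Measurable fun p : E2 × ℝ => Φ (J p) := hΦ.comp continuous_J.measurable
  rw [lintegral_J, Measure.volume_eq_prod, lintegral_prod _ hm1.aemeasurable,
    lintegral_prod _ (ph_n2_int_meas Φ hΦ).aemeasurable]
  refine lintegral_congr_ae ?_
  filter_upwards [ph_n2_ae_ne] with a ha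
  have hc : 0 < ‖a‖ ^ 2 / 4 := by
    have : 0 < ‖a‖ := norm_pos_iff.2 ha
    positivity
  rw [ls_rho_subst_lintegral hc (fun s => Φ (J (a, s))), ← lintegral_indicator measurableSet_Ioi]
  refine lintegral_congr fun ρ => ?_
  by_cases hρ : 0 < ρ
  · rw [Set.indicator_of_mem (Set.mem_Ioi.2 hρ), if_pos hρ]
    unfold phXi
    simp only
    rw [div_div, div_div]
  · rw [Set.indicator_of_notMem (by simpa using hρ), if_neg hρ]

/-- `‖phXi q‖ = ρ + |η'|²/(4ρ)` for `ρ > 0` (`norm_J_sq`) -/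
theorem ph_xi_norm {q : E2 × ℝ} (hq : 0 < q.2) : ‖phXi q‖ = q.2 + ‖q.1‖ ^ 2 / (4 * q.2) := by
  have h1 : ‖phXi q‖ ^ 2 = (q.2 + ‖q.1‖ ^ 2 / (4 * q.2)) ^ 2 := by
    unfold phXi
    rw [norm_J_sq]
    simp only
    field_simp
    ring
  have h2 : 0 ≤ q.2 + ‖q.1‖ ^ 2 / (4 * q.2) := by positivity
  exact (sq_eq_sq₀ (norm_nonneg _) h2).1 h1

theorem ph_n2_enorm_w (w : ℝ) (hw : 0 ≤ w) : ‖((w : ℝ) : ℂ)‖ₑ = ENNReal.ofReal w := by
  rw [← ofReal_norm, Complex.norm_real, Real.norm_of_nonneg hw]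

theorem ph_n2_spec_meas (Φ : E3 → ℂ) (hm : Measurable Φ) : Measurable (phSpec Φ) := by
  unfold phSpec
  refine Measurable.ite (measurableSet_lt measurable_const measurable_snd) ?_ measurable_const
  refine Measurable.mul ?_ (hm.comp ph_n2_xi_meas)
  fun_prop

/-- the measurable case -/
theorem ph_n2_freq_meas (Φ : E3 → ℂ) (hm : Measurable Φ) (hΦ : Integrable Φ) :
    Integrable (phSpec Φ) ∧ ∫ η, Φ η = ∫ q, phSpec Φ q := by
  have hint : Integrable (phSpec Φ) := by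
    refine ⟨(ph_n2_spec_meas Φ hm).aestronglyMeasurable, ?_⟩
    have h1 := ph_freq_lintegral (fun η => ‖Φ η‖ₑ) hm.enorm
    have h2 : ∫⁻ q, ‖phSpec Φ q‖ₑ = ∫⁻ η, ‖Φ η‖ₑ := by
      rw [h1]
      refine lintegral_congr fun q => ?_
      unfold phSpec
      split_ifs with hq
      · rw [enorm_mul, ph_n2_enorm_w _ (by positivity)]
      · simp
    show ∫⁻ q, ‖phSpec Φ q‖ₑ < ⊤
    rw [h2]
    exact hΦ.2
  refine ⟨hint, ?_⟩
  have hJ : Integrable (fun p : E2 × ℝ => Φ (J p)) := measurePreserving_J.integrable_comp_of_integrable hΦ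
  have hint' := hint
  rw [Measure.volume_eq_prod] at hJ hint'
  rw [integral_J, Measure.volume_eq_prod, integral_prod _ hJ, integral_prod _ hint']
  refine integral_congr_ae ?_
  filter_upwards [ph_n2_ae_ne] with a ha
  have hc : 0 < ‖a‖ ^ 2 / 4 := by
    have : 0 < ‖a‖ := norm_pos_iff.2 ha
    positivity
  rw [ls_rho_subst hc (fun s => Φ (J (a, s))), ← integral_indicator measurableSet_Ioi]
  refine integral_congr_ae (Filter.Eventually.of_forall fun ρ => ?_)
  by_cases hρ : 0 < ρ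
  · simp only
    rw [Set.indicator_of_mem (Set.mem_Ioi.2 hρ)]
    unfold phSpec phXi
    simp only
    rw [if_pos hρ, div_div, div_div]
  · simp only
    rw [Set.indicator_of_notMem (by simpa using hρ)]
    unfold phSpec
    simp only
    rw [if_neg hρ]

/-- **N0'** the same for Bochner integrals: `phSpec Φ` is integrable and has the same integral (`ph_freq_lintegral` for the integrability, `integral_J`, `integral_prod`, `ls_rho_subst`). -/
theorem ph_freq (Φ : E3 → ℂ) (hΦ : Integrable Φ) : Integrable (phSpec Φ) ∧ ∫ η, Φ η = ∫ q, phSpec Φ q := by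
  obtain ⟨Φ', hm', hae⟩ : ∃ Φ' : E3 → ℂ, Measurable Φ' ∧ Φ =ᵐ[volume] Φ' :=
    ⟨hΦ.1.mk Φ, hΦ.1.stronglyMeasurable_mk.measurable, hΦ.1.ae_eq_mk⟩
  have hΦ' : Integrable Φ' := hΦ.congr hae
  obtain ⟨h1, h2⟩ := ph_n2_freq_meas Φ' hm' hΦ'
  have hspec : phSpec Φ =ᵐ[volume] phSpec Φ' := by
    obtain ⟨N, hN1, hN2, hN3⟩ : ∃ N, {η | ¬ Φ η = Φ' η} ⊆ N ∧ MeasurableSet N ∧ volume N = 0 :=
      exists_measurable_superset_of_null (ae_iff.1 hae)
    have hmi : Measurable (N.indicator (1 : E3 → ℝ≥0∞)) := measurable_one.indicator hN2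
    have h3 := ph_freq_lintegral (N.indicator 1) hmi
    rw [lintegral_indicator_one hN2, hN3] at h3
    have h4 := (lintegral_eq_zero_iff (ph_n2_int_meas _ hmi)).1 h3.symm
    filter_upwards [h4] with q hq
    unfold phSpec
    split_ifs with hq0
    · simp only [if_pos hq0, Pi.zero_apply, mul_eq_zero, ENNReal.ofReal_eq_zero] at hq
      have hw : 0 < 1 + ‖q.1‖ ^ 2 / (4 * q.2 ^ 2) := by positivity
      have hN : phXi q ∉ N := by
        intro hmem
        rcases hq with hq | hq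
        · linarith
        · rw [Set.indicator_of_mem hmem] at hq
          simp at hq
      have he : Φ (phXi q) = Φ' (phXi q) := by
        by_contra hne
        exact hN (hN1 hne)
      rw [he]
    · rfl
  exact ⟨h1.congr hspec.symm, by rw [integral_congr_ae hae, h2, integral_congr_ae hspec]⟩

/-- **N1** the physical wave is a free round-cone wave -/
theorem ph_null (G : E3 → ℂ) (hG : Integrable G) (x : E3) (τ : ℝ) :
    wk G (x, τ) = phWave (phSpec G) (-(x 2 + τ)) (Ji x).1 (x 2 - τ) := by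
  rw [ls_wk_eq]
  have hc : Continuous fun η : E3 => ee (⟪η, x⟫_ℝ + τ * ‖η‖) := by
    unfold ee
    fun_prop
  have hint : Integrable fun η : E3 => ee (⟪η, x⟫_ℝ + τ * ‖η‖) * G η :=
    hG.bdd_mul (c := 1) hc.aestronglyMeasurable (Filter.Eventually.of_forall fun η => (norm_ee _).le)
  simp only
  rw [(ph_freq _ hint).2]
  unfold phWave
  refine integral_congr_ae (Filter.Eventually.of_forall fun q => ?_)
  simp only
  unfold phSpec
  split_ifs with hq
  · have e : ⟪phXi q, x⟫_ℝ + τ * ‖phXi q‖ = phPh (-(x 2 + τ)) (Ji x).1 (x 2 - τ) q := by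
      rw [ph_xi_norm hq]
      have e1 : ⟪phXi q, x⟫_ℝ = ⟪q.1, (Ji x).1⟫_ℝ + (‖q.1‖ ^ 2 / (4 * q.2) - q.2) * x 2 := by
        conv_lhs => rw [← J_Ji x]
        unfold phXi
        rw [inner_J]
        rfl
      rw [e1]
      unfold phPh
      rw [real_inner_comm]
      ring
    simp only
    rw [e]
    ring
  · simp

theorem ph_wave_sh (T : ℝ) (F : E2 × ℝ → ℂ) (t : ℝ) (b : E2) (y : ℝ) : phWave (phSh T F) t b y = phWave F (T + t) b y := by
  unfold phWave phSh
  refine integral_congr_ae (Filter.Eventually.of_forall fun q => ?_)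
  simp only
  rw [mul_assoc, ← ee_add_eq]
  congr 2
  unfold phPh
  ring

theorem ph_row_sh (ψ : E2 → ℂ) (H l T : ℝ) (F : E2 × ℝ → ℂ) (t : ℝ) (p : PhRow) :
    phRow ψ H l (phSh T F) t p = phRow ψ H l F (T + t) p := by
  unfold phRow phSh
  refine integral_congr_ae (Filter.Eventually.of_forall fun q => ?_)
  simp only
  have e : ee (phPh (T + t) p.2.1 p.2.2 q) = ee (-(T * ‖q.1‖ ^ 2 / (4 * q.2))) * ee (phPh t p.2.1 p.2.2 q) := by
    rw [← ee_add_eq]
    congr 1
    unfold phPh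
    ring
  rw [e]
  ring

theorem ph_sh_sh (T h : ℝ) (F : E2 × ℝ → ℂ) : phSh h (phSh T F) = phSh (T + h) F := by
  funext q
  unfold phSh
  rw [mul_assoc, ← ee_add_eq]
  congr 2
  ring

theorem ph_sh_norm (T : ℝ) (F : E2 × ℝ → ℂ) (q : E2 × ℝ) : ‖phSh T F q‖ = ‖F q‖ := by
  unfold phSh
  rw [norm_mul, norm_ee, mul_one]

theorem ph_sh_supp {H : ℝ} {F : E2 × ℝ → ℂ} (h : PhSupp H F) (T : ℝ) : PhSupp H (phSh T F) := by
  intro q hq
  refine h q fun h0 => hq ?_
  unfold phSh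
  rw [h0, zero_mul]

/-- (`F` vanishes on the open set `Hρ < 1/8`, elsewhere `ρ ≠ 0`) -/
theorem ph_sh_cont {H : ℝ} (hH : 0 < H) {F : E2 × ℝ → ℂ} (hF : Continuous F) (h : PhSupp H F) (T : ℝ) : Continuous (phSh T F) := by
  rw [continuous_iff_continuousAt]
  intro q
  by_cases h0 : 0 < q.2
  · unfold phSh
    refine hF.continuousAt.mul (continuous_ee.continuousAt.comp ?_)
    exact ((continuousAt_const.mul (continuousAt_fst.norm.pow 2)).div (continuousAt_const.mul continuousAt_snd)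
      (mul_ne_zero (by norm_num) h0.ne')).neg
  · have h1 : q.2 < 1 / (8 * H) := lt_of_le_of_lt (not_lt.1 h0) (by positivity)
    have hev : (fun _ : E2 × ℝ => (0 : ℂ)) =ᶠ[nhds q] phSh T F := by
      filter_upwards [(isOpen_lt continuous_snd continuous_const).mem_nhds h1] with q' hq'
      have : F q' = 0 := by
        by_contra hne
        have h2 := (h q' hne).1
        rw [lt_div_iff₀ (by positivity)] at hq'
        nlinarith
      unfold phSh
      rw [this, zero_mul]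
    exact continuousAt_const.congr hev

theorem ph_st_ph_meas (t : ℝ) (b : E2) (y : ℝ) : Measurable (phPh t b y) := by
  unfold phPh
  have h1 : Measurable fun q : E2 × ℝ => ⟪b, q.1⟫_ℝ := (continuous_const.inner continuous_fst).measurable
  have h2 : Measurable fun q : E2 × ℝ => ‖q.1‖ ^ 2 := (continuous_fst.norm.pow 2).measurable
  exact (h1.sub (measurable_snd.const_mul y)).sub ((h2.const_mul t).div (measurable_snd.const_mul 4))

theorem ph_st_cont {F : E2 × ℝ → ℂ} (hF : Integrable F) : Continuous (fun w : ℝ × E2 × ℝ => phWave F w.1 w.2.1 w.2.2) := by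
  unfold phWave
  refine continuous_of_dominated (bound := fun q => ‖F q‖) (fun w => ?_) (fun w => Filter.Eventually.of_forall fun q => ?_)
    hF.norm (Filter.Eventually.of_forall fun q => ?_)
  · exact hF.aestronglyMeasurable.mul (continuous_ee.measurable.comp (ph_st_ph_meas _ _ _)).aestronglyMeasurable
  · rw [norm_mul, norm_ee, mul_one]
  · refine continuous_const.mul (continuous_ee.comp ?_)
    unfold phPh
    fun_prop

/-- one dimensional: `∫ f (2 x + t) dx ≤ ∫ f` -/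
theorem ph_st_scale (f : ℝ → ℝ≥0∞) (hf : Measurable f) (t : ℝ) : ∫⁻ x : ℝ, f (2 * x + t) ≤ ∫⁻ y, f y := by
  have h1 : ∫⁻ x : ℝ, f (2 * x + t) = ∫⁻ y, f (y + t) ∂(Measure.map (fun x : ℝ => 2 * x) volume) :=
    (lintegral_map (hf.comp (measurable_id.add_const t)) (measurable_const_mul 2)).symm
  rw [h1, Real.map_volume_mul_left (by norm_num : (2 : ℝ) ≠ 0), lintegral_smul_measure, lintegral_add_right_eq_self f t]
  calc ENNReal.ofReal |(2 : ℝ)⁻¹| • ∫⁻ y, f y ≤ 1 * ∫⁻ y, f y := by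
        rw [smul_eq_mul]
        refine mul_le_mul_left ?_ _
        rw [← ENNReal.ofReal_one]
        refine ENNReal.ofReal_le_ofReal ?_
        rw [abs_of_pos (by norm_num)]
        norm_num
    _ = _ := one_mul _

/-- **the space-time change of variables**, all of space -/
theorem ph_st_core (Θ : ℝ × E2 × ℝ → ℝ≥0∞) (hΘ : Measurable Θ) :
    ∫⁻ x : E3, ∫⁻ τ : ℝ, Θ (-(x 2 + τ), (Ji x).1, x 2 - τ) ≤ ∫⁻ t : ℝ, ∫⁻ X : E2 × ℝ, Θ (t, X.1, X.2) := by
  rw [lintegral_J]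
  have e1 : ∀ p : E2 × ℝ, ∫⁻ τ : ℝ, Θ (-((J p) 2 + τ), (Ji (J p)).1, (J p) 2 - τ) = ∫⁻ t : ℝ, Θ (t, p.1, 2 * p.2 + t) := by
    intro p
    have h2 : (J p) 2 = p.2 := by simp [J]
    rw [Ji_J, h2, ← lintegral_sub_left_eq_self (fun τ : ℝ => Θ (-(p.2 + τ), p.1, p.2 - τ)) (-p.2)]
    refine lintegral_congr fun t => ?_
    congr 2
    · ring
    · congr 1
      ring
  simp only [e1]
  rw [lintegral_lintegral_swap (f := fun (p : E2 × ℝ) (t : ℝ) => Θ (t, p.1, 2 * p.2 + t))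
    (hΘ.comp (by fun_prop)).aemeasurable]
  refine lintegral_mono fun t => ?_
  have m1 : Measurable fun x : E2 × ℝ => Θ (t, x.1, 2 * x.2 + t) := hΘ.comp (by fun_prop)
  have m2 : Measurable fun x : E2 × ℝ => Θ (t, x.1, x.2) := hΘ.comp (by fun_prop)
  rw [Measure.volume_eq_prod, lintegral_prod _ m1.aemeasurable, lintegral_prod _ m2.aemeasurable]
  refine lintegral_mono fun b => ?_
  exact ph_st_scale (fun y => Θ (t, b, y)) (hΘ.comp (by fun_prop)) t

theorem ph_st_locμ : locμ = ((volume : Measure E3).prod (volume : Measure ℝ)).restrict (Metric.closedBall (0 : E3) 1 ×ˢ Set.Icc (1 : ℝ) 2) := by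
  unfold locμ stμ
  have e : (volume : Measure E3).prod (volume.restrict (Set.Icc (1 : ℝ) 2))
      = ((volume : Measure E3).prod (volume : Measure ℝ)).restrict (Set.univ ×ˢ Set.Icc (1 : ℝ) 2) := by
    rw [← Measure.prod_restrict, Measure.restrict_univ]
  rw [e, Measure.restrict_restrict (measurableSet_closedBall.prod MeasurableSet.univ), Set.prod_inter_prod, Set.inter_univ, Set.univ_inter]

theorem ph_st_Om_meas : MeasurableSet phOm := by
  have : IsClosed phOm := by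
    unfold phOm
    exact (isClosed_le continuous_fst.norm continuous_const).inter (isClosed_le continuous_snd.abs continuous_const)
  exact this.measurableSet

theorem ph_st_shift (A : ℝ → ℝ≥0∞) (a : ℝ) : ∫⁻ t in Set.Icc a (a + 1), A t = ∫⁻ h in Set.Icc (0 : ℝ) 1, A (a + h) := by
  rw [(measurePreserving_add_left volume a).setLIntegral_comp_emb (measurableEmbedding_addLeft a) A (Set.Icc 0 1)]
  simp [add_comm]

theorem ph_st_split (A : ℝ → ℝ≥0∞) :
    ∫⁻ t in Set.Icc (-3 : ℝ) 0, A t ≤ ∑ k ∈ Finset.range 3, ∫⁻ t in Set.Icc (0 : ℝ) 1, A (-(k : ℝ) - 1 + t) := by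
  have hsub : Set.Icc (-3 : ℝ) 0 ⊆ (Set.Icc (-1 : ℝ) (-1 + 1) ∪ Set.Icc (-2 : ℝ) (-2 + 1)) ∪ Set.Icc (-3 : ℝ) (-3 + 1) := by
    intro t ht
    obtain ⟨h1, h2⟩ := ht
    by_cases a1 : -1 ≤ t
    · exact Or.inl (Or.inl ⟨a1, by linarith⟩)
    · by_cases a2 : -2 ≤ t
      · exact Or.inl (Or.inr ⟨a2, by linarith⟩)
      · exact Or.inr ⟨h1, by linarith⟩
  refine (lintegral_mono_set hsub).trans ?_
  refine (lintegral_union_le _ _ _).trans ?_
  refine (add_le_add_left (lintegral_union_le _ _ _) _).trans ?_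
  rw [ph_st_shift, ph_st_shift, ph_st_shift, Finset.sum_range_succ, Finset.sum_range_succ, Finset.sum_range_succ, Finset.sum_range_zero]
  norm_num

/-- **N7** space-time change of variables (Jacobian `2`) -/
theorem ph_st (G : E3 → ℂ) (hG : Integrable G) :
    ∫⁻ z, ‖wk G z‖ₑ ^ (3 : ℝ) ∂locμ
      ≤ ∑ k ∈ Finset.range 3, ∫⁻ t in Set.Icc (0 : ℝ) 1, ∫⁻ X in phOm, ‖phWave (phSh (-(k : ℝ) - 1) (phSpec G)) t X.1 X.2‖ₑ ^ (3 : ℝ) := by
  have hF : Integrable (phSpec G) := (ph_freq G hG).1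
  set Ψ : ℝ × E2 × ℝ → ℝ≥0∞ := fun w => ‖phWave (phSpec G) w.1 w.2.1 w.2.2‖ₑ ^ (3 : ℝ) with hΨd
  have hΨ : Measurable Ψ := ((ph_st_cont hF).measurable.enorm).pow_const 3
  set R : Set (ℝ × E2 × ℝ) := Set.Icc (-3 : ℝ) 0 ×ˢ phOm with hR
  have hRm : MeasurableSet R := measurableSet_Icc.prod ph_st_Om_meas
  have hΘ : Measurable (R.indicator Ψ) := hΨ.indicator hRm
  have hΛ : Measurable fun z : E3 × ℝ => ((-(z.1 2 + z.2), (Ji z.1).1, z.1 2 - z.2) : ℝ × E2 × ℝ) := by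
    have h2 : Measurable fun z : E3 × ℝ => z.1 2 := ((EuclideanSpace.proj (2 : Fin 3) : E3 →L[ℝ] ℝ).continuous.comp continuous_fst).measurable
    have h3 : Measurable fun z : E3 × ℝ => (Ji z.1).1 := (continuous_fst.comp (continuous_Ji.comp continuous_fst)).measurable
    exact (h2.add measurable_snd).neg.prodMk (h3.prodMk (h2.sub measurable_snd))
  -- Step A
  have sA : ∫⁻ z, ‖wk G z‖ₑ ^ (3 : ℝ) ∂locμ ≤ ∫⁻ x : E3, ∫⁻ τ : ℝ, R.indicator Ψ (-(x 2 + τ), (Ji x).1, x 2 - τ) := by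
    rw [ph_st_locμ, ← lintegral_indicator (measurableSet_closedBall.prod measurableSet_Icc),
      ← lintegral_prod (fun z : E3 × ℝ => R.indicator Ψ (-(z.1 2 + z.2), (Ji z.1).1, z.1 2 - z.2)) (hΘ.comp hΛ).aemeasurable]
    refine lintegral_mono fun z => ?_
    by_cases hz : z ∈ Metric.closedBall (0 : E3) 1 ×ˢ Set.Icc (1 : ℝ) 2
    · rw [Set.indicator_of_mem hz]
      obtain ⟨hz1, hz2, hz3⟩ := hz
      rw [mem_closedBall_zero_iff] at hz1
      have hn := norm_J_sq (Ji z.1)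
      rw [J_Ji] at hn
      have h22 : (Ji z.1).2 = z.1 2 := rfl
      rw [h22] at hn
      have hsq : ‖z.1‖ ^ 2 ≤ 1 := by nlinarith [norm_nonneg z.1]
      have b1 : ‖(Ji z.1).1‖ ≤ 1 := by
        refine abs_le_of_sq_le_sq' ?_ (by norm_num) |>.2
        nlinarith [sq_nonneg (z.1 2)]
      have b2 : |z.1 2| ≤ 1 := by
        refine abs_le_of_sq_le_sq ?_ (by norm_num)
        nlinarith [sq_nonneg ‖(Ji z.1).1‖]
      obtain ⟨b3, b4⟩ := abs_le.1 b2
      have hmem : ((-(z.1 2 + z.2), (Ji z.1).1, z.1 2 - z.2) : ℝ × E2 × ℝ) ∈ R :=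
        ⟨⟨by linarith, by linarith⟩, b1, abs_le.2 ⟨by simp only; linarith, by simp only; linarith⟩⟩
      rw [Set.indicator_of_mem hmem, hΨd]
      simp only
      rw [show z = (z.1, z.2) from rfl, ph_null G hG]
    · rw [Set.indicator_of_notMem hz]
      exact zero_le
  -- Step C
  have sC : ∫⁻ t : ℝ, ∫⁻ X : E2 × ℝ, R.indicator Ψ (t, X.1, X.2) = ∫⁻ t in Set.Icc (-3 : ℝ) 0, ∫⁻ X in phOm, Ψ (t, X.1, X.2) := by
    rw [← lintegral_indicator measurableSet_Icc]
    refine lintegral_congr fun t => ?_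
    by_cases ht : t ∈ Set.Icc (-3 : ℝ) 0
    · rw [Set.indicator_of_mem ht, ← lintegral_indicator ph_st_Om_meas]
      refine lintegral_congr fun X => ?_
      by_cases hX : X ∈ phOm
      · rw [Set.indicator_of_mem hX, Set.indicator_of_mem (show ((t, X.1, X.2) : ℝ × E2 × ℝ) ∈ R from ⟨ht, hX⟩)]
      · rw [Set.indicator_of_notMem hX, Set.indicator_of_notMem (show ((t, X.1, X.2) : ℝ × E2 × ℝ) ∉ R from fun h => hX h.2)]
    · rw [Set.indicator_of_notMem ht]
      have : ∀ X : E2 × ℝ, R.indicator Ψ (t, X.1, X.2) = 0 := fun X =>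
        Set.indicator_of_notMem (show ((t, X.1, X.2) : ℝ × E2 × ℝ) ∉ R from fun h => ht h.1) _
      simp only [this, lintegral_zero]
  refine sA.trans ((ph_st_core _ hΘ).trans ?_)
  rw [sC]
  refine (ph_st_split _).trans (le_of_eq ?_)
  refine Finset.sum_congr rfl fun k _ => ?_
  simp only [ph_wave_sh, hΨd]

/-- the geometry of the patch: if `pat s (phXi q) ≠ 0`, `ρ > 0` -/
theorem ph_fs_geo {s : ℝ} (hs : 0 < s) {q : E2 × ℝ} (hq : 0 < q.2) (h : pat s (phXi q) ≠ 0) :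
    s / 8 ≤ q.2 ∧ q.2 ≤ 6 * s ∧ ‖q.1‖ ^ 2 / (4 * q.2) < 3 * q.2 := by
  have hf : fat s (phXi q) ≠ 0 := fun h0 => h (by unfold pat; rw [h0, zero_mul])
  have hc : chi (-((phXi q) 2) / ‖phXi q‖) ≠ 0 := fun h0 => h (by unfold pat; rw [h0, mul_zero])
  obtain ⟨f1, f2⟩ := ls_fat_supp hs hf
  have hn := ph_xi_norm hq
  have ha : 0 ≤ ‖q.1‖ ^ 2 / (4 * q.2) := by positivity
  have h3 : (phXi q) 2 = ‖q.1‖ ^ 2 / (4 * q.2) - q.2 := by simp [phXi, J]
  have hpos : 0 < ‖phXi q‖ := by rw [hn]; linarith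
  have hc' : -(1 / 2) < -((phXi q) 2) / ‖phXi q‖ := by
    by_contra hle
    exact hc (ls_chi_zero (not_lt.1 hle))
  rw [lt_div_iff₀ hpos, h3, hn] at hc'
  rw [hn] at f1 f2
  refine ⟨by linarith, by linarith, by linarith⟩

theorem ph_fs_xi_cont {q : E2 × ℝ} (hq : q.2 ≠ 0) : ContinuousAt phXi q := by
  unfold phXi
  refine continuous_J.continuousAt.comp ?_
  refine continuousAt_fst.prodMk ?_
  exact ((continuousAt_fst.norm.pow 2).div (continuousAt_const.mul continuousAt_snd) (by simpa using hq)).sub continuousAt_snd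

/-- **N2** -/
theorem ph_F_cont (n : ℕ) {g : E3 → ℂ} (hg : Integrable g) : Continuous (phF n g) := by
  have hs : (0 : ℝ) < 2 ^ n := by positivity
  have hG : Continuous fun η : E3 => (pat (2 ^ n) η : ℂ) * 𝓕 g η := (ls_pat_ck hs).1.mul (ls_pl_cont hg)
  rw [continuous_iff_continuousAt]
  intro q
  by_cases h0 : 0 < q.2
  · have hev : (fun q : E2 × ℝ => ((1 + ‖q.1‖ ^ 2 / (4 * q.2 ^ 2) : ℝ) : ℂ) * ((pat (2 ^ n) (phXi q) : ℂ) * 𝓕 g (phXi q)))
        =ᶠ[nhds q] phF n g := by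
      filter_upwards [(isOpen_lt continuous_const continuous_snd).mem_nhds h0] with q' hq'
      unfold phF phSpec
      rw [if_pos hq']
    refine ContinuousAt.congr ?_ hev
    refine ContinuousAt.mul ?_ (hG.continuousAt.comp (ph_fs_xi_cont h0.ne'))
    refine Complex.continuous_ofReal.continuousAt.comp ?_
    exact continuousAt_const.add ((continuousAt_fst.norm.pow 2).div (continuousAt_const.mul (continuousAt_snd.pow 2))
      (by have := h0.ne'; positivity))
  · have h1 : q.2 < 2 ^ n / 8 := lt_of_le_of_lt (not_lt.1 h0) (by positivity)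
    have hev : (fun _ : E2 × ℝ => (0 : ℂ)) =ᶠ[nhds q] phF n g := by
      filter_upwards [(isOpen_lt continuous_snd continuous_const).mem_nhds h1] with q' hq'
      unfold phF phSpec
      split_ifs with h2
      · have : pat (2 ^ n) (phXi q') = 0 := by
          by_contra hne
          exact absurd (ph_fs_geo hs h2 hne).1 (not_le.2 hq')
        simp only [this]
        simp
      · rfl
    exact continuousAt_const.congr hev

/-- **N3** on the support of `pat (2^n)` : `2^n/2 ≤ |η| ≤ 6·2^n`, `η₃ < |η|/2`, so `|η|/4 < ρ ≤ |η|` and `|A|² = (|η|+η₃)/(|η|-η₃) < 3` -/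
theorem ph_F_supp (n : ℕ) (g : E3 → ℂ) : PhSupp (phH n) (phF n g) := by
  intro q hq
  unfold phF phSpec at hq
  have hs : (0 : ℝ) < 2 ^ n := by positivity
  by_cases h0 : 0 < q.2
  · rw [if_pos h0] at hq
    have hp : pat (2 ^ n) (phXi q) ≠ 0 := fun h => hq (by simp only [h]; simp)
    obtain ⟨a1, a2, a3⟩ := ph_fs_geo hs h0 hp
    unfold phH
    refine ⟨?_, ?_, ?_⟩
    · rw [inv_mul_eq_div, le_div_iff₀ hs]; linarith
    · rw [inv_mul_eq_div, div_le_iff₀ hs]; linarith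
    · rw [div_lt_iff₀ (by positivity)] at a3
      refine abs_le_of_sq_le_sq' ?_ (by positivity) |>.2
      nlinarith
  · rw [if_neg h0] at hq
    exact absurd rfl hq

theorem ph_F_add (n : ℕ) {g₁ g₂ : E3 → ℂ} (h₁ : Integrable g₁) (h₂ : Integrable g₂) (q : E2 × ℝ) :
    phF n (fun x => g₁ x + g₂ x) q = phF n g₁ q + phF n g₂ q := by
  have e : 𝓕 (fun x => g₁ x + g₂ x) = 𝓕 g₁ + 𝓕 g₂ :=
    VectorFourier.fourierIntegral_add Real.continuous_fourierChar (L := innerₗ E3) continuous_inner h₁ h₂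
  unfold phF phSpec
  rw [e]
  split_ifs
  · simp only [Pi.add_apply]
    ring
  · simp

/-- **Plancherel** for `L¹ ∩ L²` (only `≤` is used) -/
theorem ph_planch (g : E3 → ℂ) (h1 : Integrable g) (h2 : MemLp g 2 volume) :
    Integrable (fun η => ‖𝓕 g η‖ ^ 2) ∧ ∫ η, ‖𝓕 g η‖ ^ 2 = ∫ x, ‖g x‖ ^ 2 := by
  obtain ⟨a, b⟩ := ls_plancherel h1 h2
  exact ⟨(memLp_two_iff_integrable_sq_norm a.1).1 a, b⟩

/-- **N4** energy -/
theorem ph_energy (n : ℕ) {g : E3 → ℂ} (h1 : Integrable g) (h2 : MemLp g 2 volume) :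
    ∫ q, ‖phF n g q‖ ^ 2 ≤ 4 * ∫ x, ‖g x‖ ^ 2 := by
  have hs : (0 : ℝ) < 2 ^ n := by positivity
  obtain ⟨p1, p2⟩ := ph_planch g h1 h2
  have hG : Continuous fun η : E3 => (pat (2 ^ n) η : ℂ) * 𝓕 g η := (ls_pat_ck hs).1.mul (ls_pl_cont h1)
  have hΦ : Measurable fun η : E3 => ‖(pat (2 ^ n) η : ℂ) * 𝓕 g η‖ₑ ^ 2 := (hG.measurable.enorm).pow_const 2
  have hE0 : 0 ≤ ∫ x, ‖g x‖ ^ 2 := integral_nonneg fun x => by positivity
  have k1 : ∫⁻ q, ‖phF n g q‖ₑ ^ 2 ≤ 4 * ∫⁻ η, ‖(pat (2 ^ n) η : ℂ) * 𝓕 g η‖ₑ ^ 2 := by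
    rw [ph_freq_lintegral _ hΦ, ← lintegral_const_mul' _ _ (by norm_num)]
    refine lintegral_mono fun q => ?_
    unfold phF phSpec
    split_ifs with h0
    · by_cases hp : pat (2 ^ n) (phXi q) = 0
      · simp [hp]
      · obtain ⟨-, -, a3⟩ := ph_fs_geo hs h0 hp
        have hw0 : 0 ≤ 1 + ‖q.1‖ ^ 2 / (4 * q.2 ^ 2) := by positivity
        have hw : 1 + ‖q.1‖ ^ 2 / (4 * q.2 ^ 2) ≤ 4 := by
          have e : ‖q.1‖ ^ 2 / (4 * q.2 ^ 2) = ‖q.1‖ ^ 2 / (4 * q.2) / q.2 := by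
            field_simp
          rw [e]
          have : ‖q.1‖ ^ 2 / (4 * q.2) / q.2 ≤ 3 := by
            rw [div_le_iff₀ h0]; exact a3.le
          linarith
        have e1 : ‖((1 + ‖q.1‖ ^ 2 / (4 * q.2 ^ 2) : ℝ) : ℂ)‖ₑ = ENNReal.ofReal (1 + ‖q.1‖ ^ 2 / (4 * q.2 ^ 2)) := by
          rw [← ofReal_norm, Complex.norm_real, Real.norm_of_nonneg hw0]
        rw [enorm_mul, mul_pow, e1, sq (ENNReal.ofReal _), ← mul_assoc]
        refine mul_le_mul_left ?_ _
        refine mul_le_mul_left ?_ _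
        calc ENNReal.ofReal (1 + ‖q.1‖ ^ 2 / (4 * q.2 ^ 2)) ≤ ENNReal.ofReal 4 := ENNReal.ofReal_le_ofReal hw
          _ = 4 := by norm_num
    · simp
  have k2 : ∫⁻ η, ‖(pat (2 ^ n) η : ℂ) * 𝓕 g η‖ₑ ^ 2 ≤ ENNReal.ofReal (∫ x, ‖g x‖ ^ 2) := by
    rw [← p2, ofReal_integral_eq_lintegral_ofReal p1 (Filter.Eventually.of_forall fun η => by positivity)]
    refine lintegral_mono fun η => ?_
    rw [ENNReal.ofReal_pow (norm_nonneg _), ofReal_norm]
    refine pow_le_pow_left' ?_ 2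
    rw [enorm_mul]
    calc ‖(pat (2 ^ n) η : ℂ)‖ₑ * ‖𝓕 g η‖ₑ ≤ 1 * ‖𝓕 g η‖ₑ := by
          refine mul_le_mul_left ?_ _
          rw [← ofReal_norm, Complex.norm_real, Real.norm_eq_abs]
          calc ENNReal.ofReal |pat (2 ^ n) η| ≤ ENNReal.ofReal 1 := ENNReal.ofReal_le_ofReal (ls_pat_bd _ _)
            _ = 1 := ENNReal.ofReal_one
      _ = _ := one_mul _
  have hms : AEStronglyMeasurable (fun q => ‖phF n g q‖ ^ 2) volume := ((ph_F_cont n h1).norm.pow 2).aestronglyMeasurable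
  rw [integral_eq_lintegral_of_nonneg_ae (Filter.Eventually.of_forall fun q => by positivity) hms]
  have k3 : ∫⁻ q, ENNReal.ofReal (‖phF n g q‖ ^ 2) ≤ ENNReal.ofReal (4 * ∫ x, ‖g x‖ ^ 2) := by
    have e : ∀ q, ENNReal.ofReal (‖phF n g q‖ ^ 2) = ‖phF n g q‖ₑ ^ 2 := fun q => by
      rw [ENNReal.ofReal_pow (norm_nonneg _), ofReal_norm]
    simp only [e]
    refine k1.trans ?_
    rw [ENNReal.ofReal_mul (by norm_num)]
    calc 4 * ∫⁻ η, ‖(pat (2 ^ n) η : ℂ) * 𝓕 g η‖ₑ ^ 2 ≤ 4 * ENNReal.ofReal (∫ x, ‖g x‖ ^ 2) := mul_le_mul_right k2 _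
      _ = _ := by norm_num
  exact ENNReal.toReal_le_of_le_ofReal (by positivity) k3

theorem ph_bn_cs {α : Type*} [MeasurableSpace α] {μ : Measure α} [IsFiniteMeasure μ] {f : α → ℝ}
    (hm : AEStronglyMeasurable f μ) (hf : Integrable (fun x => f x ^ 2) μ) :
    ∫ x, f x ∂μ ≤ Real.sqrt (∫ x, f x ^ 2 ∂μ) * Real.sqrt (μ Set.univ).toReal := by
  have h1 : Integrable f μ := ((memLp_two_iff_integrable_sq hm).2 hf).integrable (by norm_num)
  have hq : ∀ c : ℝ, 0 ≤ (μ Set.univ).toReal * (c * c) + (-2 * ∫ x, f x ∂μ) * c + ∫ x, f x ^ 2 ∂μ := by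
    intro c
    have e : ∫ x, (f x - c) ^ 2 ∂μ = (μ Set.univ).toReal * (c * c) + (-2 * ∫ x, f x ∂μ) * c + ∫ x, f x ^ 2 ∂μ := by
      have e1 : ∀ x, (f x - c) ^ 2 = f x ^ 2 - (2 * c) * f x + c * c := fun x => by ring
      simp only [e1]
      have i2 : Integrable (fun x => (2 * c) * f x) μ := h1.const_mul _
      have i3 : Integrable (fun x => f x ^ 2 - (2 * c) * f x) μ := hf.sub i2
      rw [integral_add i3 (integrable_const _), integral_sub hf i2, integral_const_mul, integral_const]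
      simp only [Measure.real, smul_eq_mul]
      ring
    rw [← e]
    exact integral_nonneg fun x => sq_nonneg _
  have hd := discrim_le_zero hq
  unfold discrim at hd
  rw [← Real.sqrt_mul (integral_nonneg fun x => sq_nonneg _)]
  refine Real.le_sqrt_of_sq_le ?_
  nlinarith

/-- the box which carries the spectrum -/
theorem ph_bn_box {H : ℝ} (hH : 0 < H) {F : E2 × ℝ → ℂ} (h : PhSupp H F) (q : E2 × ℝ)
    (hq : q ∉ Metric.closedBall (0 : E2) (24 / H) ×ˢ Set.Icc (0 : ℝ) (6 / H)) : F q = 0 := by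
  by_contra h0
  obtain ⟨a1, a2, a3⟩ := h q h0
  have b2 : q.2 ≤ 6 / H := by rw [le_div_iff₀ hH]; linarith
  have b1 : 0 ≤ q.2 := by
    by_contra hn
    have : H * q.2 < 0 := mul_neg_of_pos_of_neg hH (not_le.1 hn)
    linarith
  refine hq ⟨?_, b1, b2⟩
  rw [mem_closedBall_zero_iff]
  have : 4 * (6 / H) = 24 / H := by ring
  linarith

theorem ph_bn_cpt {H : ℝ} (hH : 0 < H) {F : E2 × ℝ → ℂ} (h : PhSupp H F) : HasCompactSupport F :=
  HasCompactSupport.intro ((isCompact_closedBall _ _).prod isCompact_Icc) (ph_bn_box hH h)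

theorem ph_bn_vol {H : ℝ} (hH : 0 < H) :
    (volume (Metric.closedBall (0 : E2) (24 / H) ×ˢ Set.Icc (0 : ℝ) (6 / H))).toReal
      = (3456 * (volume (Metric.ball (0 : E2) 1)).toReal) * (H ^ (-(3 / 2) : ℝ)) ^ 2 := by
  rw [Measure.volume_eq_prod, Measure.prod_prod, Measure.addHaar_closedBall _ _ (by positivity), Real.volume_Icc, finrank_euclideanSpace_fin,
    ENNReal.toReal_mul, ENNReal.toReal_mul, ENNReal.toReal_ofReal (by positivity), sub_zero, ENNReal.toReal_ofReal (by positivity),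
    ← Real.rpow_natCast (H ^ (-(3 / 2) : ℝ)), ← Real.rpow_mul hH.le]
  have e : (-(3 / 2) : ℝ) * ((2 : ℕ) : ℝ) = -3 := by norm_num
  rw [e, Real.rpow_neg hH.le]
  have e3 : H ^ (3 : ℝ) = H ^ 3 := by exact_mod_cast Real.rpow_natCast H 3
  rw [e3]
  field_simp
  ring

theorem ph_bn_l1 {H : ℝ} (hH : 0 < H) {F : E2 × ℝ → ℂ} (hF : Continuous F) (h : PhSupp H F) :
    ∫ q, ‖F q‖ ≤ Real.sqrt (3456 * (volume (Metric.ball (0 : E2) 1)).toReal) * H ^ (-(3 / 2) : ℝ) * Real.sqrt (∫ q, ‖F q‖ ^ 2) := by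
  set S := Metric.closedBall (0 : E2) (24 / H) ×ˢ Set.Icc (0 : ℝ) (6 / H) with hS
  have hSc : IsCompact S := (isCompact_closedBall _ _).prod isCompact_Icc
  have : IsFiniteMeasure (volume.restrict S) := ⟨by rw [Measure.restrict_apply_univ]; exact hSc.measure_lt_top⟩
  have z1 : ∀ q, q ∉ S → ‖F q‖ = 0 := fun q hq => by rw [ph_bn_box hH h q hq, norm_zero]
  have z2 : ∀ q, q ∉ S → ‖F q‖ ^ 2 = 0 := fun q hq => by rw [z1 q hq]; norm_num
  have hi : Integrable (fun q => ‖F q‖ ^ 2) := (hF.norm.pow 2).integrable_of_hasCompactSupport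
    (HasCompactSupport.intro hSc z2)
  have hcs := ph_bn_cs (μ := volume.restrict S) (f := fun q => ‖F q‖) hF.norm.aestronglyMeasurable hi.integrableOn
  rw [setIntegral_eq_integral_of_forall_compl_eq_zero z1, setIntegral_eq_integral_of_forall_compl_eq_zero z2,
    Measure.restrict_apply_univ, ph_bn_vol hH, Real.sqrt_mul (by positivity), Real.sqrt_sq (by positivity)] at hcs
  linarith

/-- **N5** Bernstein -/
theorem ph_bernstein : ∃ C : ℝ, 0 ≤ C ∧ ∀ (H : ℝ) (F : E2 × ℝ → ℂ), 0 < H → Continuous F → PhSupp H F → ∀ (t : ℝ) (b : E2) (y : ℝ),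
    ‖phWave F t b y‖ ≤ C * H ^ (-(3 / 2) : ℝ) * Real.sqrt (∫ q, ‖F q‖ ^ 2) := by
  refine ⟨Real.sqrt (3456 * (volume (Metric.ball (0 : E2) 1)).toReal), Real.sqrt_nonneg _, fun H F hH hF h t b y => ?_⟩
  refine le_trans ?_ (ph_bn_l1 hH hF h)
  unfold phWave
  refine (norm_integral_le_integral_norm _).trans (le_of_eq ?_)
  refine integral_congr_ae (Filter.Eventually.of_forall fun q => ?_)
  simp only [norm_mul, norm_ee, mul_one]

theorem ph_bn_ph_meas (t : ℝ) (b : E2) (y : ℝ) : Measurable (phPh t b y) := by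
  unfold phPh
  have h1 : Measurable fun q : E2 × ℝ => ⟪b, q.1⟫_ℝ := (continuous_const.inner continuous_fst).measurable
  have h2 : Measurable fun q : E2 × ℝ => ‖q.1‖ ^ 2 := (continuous_fst.norm.pow 2).measurable
  exact (h1.sub (measurable_snd.const_mul y)).sub ((h2.const_mul t).div (measurable_snd.const_mul 4))

/-- joint continuity of the wave -/
theorem ph_wave_cont {H : ℝ} (hH : 0 < H) {F : E2 × ℝ → ℂ} (hF : Continuous F) (h : PhSupp H F) :
    Continuous (fun w : ℝ × E2 × ℝ => phWave F w.1 w.2.1 w.2.2) := by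
  unfold phWave
  refine continuous_of_dominated (bound := fun q => ‖F q‖) (fun w => ?_) (fun w => Filter.Eventually.of_forall fun q => ?_)
    (hF.norm.integrable_of_hasCompactSupport (ph_bn_cpt hH h).norm) (Filter.Eventually.of_forall fun q => ?_)
  · exact (hF.measurable.mul (continuous_ee.measurable.comp (ph_bn_ph_meas _ _ _))).aestronglyMeasurable
  · rw [norm_mul, norm_ee, mul_one]
  · refine continuous_const.mul (continuous_ee.comp ?_)
    unfold phPh
    fun_prop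

/-- **N8** the trivial bound (small energies) -/
theorem ph_small : ∃ C : ℝ, 0 ≤ C ∧ ∀ (H : ℝ) (F : E2 × ℝ → ℂ), 0 < H → Continuous F → PhSupp H F →
    ∫⁻ t in Set.Icc (0 : ℝ) 1, ∫⁻ X in phOm, ‖phWave F t X.1 X.2‖ₑ ^ (3 : ℝ)
      ≤ ENNReal.ofReal (C * H ^ (-(9 / 2) : ℝ) * (∫ q, ‖F q‖ ^ 2) ^ (3 / 2 : ℝ)) := by
  obtain ⟨C, hC0, hC⟩ := ph_bernstein
  have hOm : phOm ⊆ Metric.closedBall (0 : E2) 1 ×ˢ Set.Icc (-3 : ℝ) 3 := by
    intro X hX
    exact ⟨by rw [mem_closedBall_zero_iff]; exact hX.1, abs_le.1 hX.2⟩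
  have hfin : volume phOm < ⊤ := (measure_mono hOm).trans_lt ((isCompact_closedBall _ _).prod isCompact_Icc).measure_lt_top
  refine ⟨C ^ 3 * (volume phOm).toReal, by positivity, fun H F hH hF h => ?_⟩
  set E := ∫ q, ‖F q‖ ^ 2 with hE
  have hE0 : 0 ≤ E := integral_nonneg fun q => by positivity
  set M := C * H ^ (-(3 / 2) : ℝ) * Real.sqrt E with hM
  have hM0 : 0 ≤ M := by positivity
  have hpt : ∀ (t : ℝ) (X : E2 × ℝ), ‖phWave F t X.1 X.2‖ₑ ^ (3 : ℝ) ≤ ENNReal.ofReal (M ^ 3) := by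
    intro t X
    have h1 : ‖phWave F t X.1 X.2‖ₑ ≤ ENNReal.ofReal M := by
      rw [← ofReal_norm]
      exact ENNReal.ofReal_le_ofReal (hC H F hH hF h t X.1 X.2)
    calc ‖phWave F t X.1 X.2‖ₑ ^ (3 : ℝ) ≤ ENNReal.ofReal M ^ (3 : ℝ) := ENNReal.rpow_le_rpow h1 (by norm_num)
      _ = ENNReal.ofReal (M ^ 3) := by
        rw [ENNReal.ofReal_rpow_of_nonneg hM0 (by norm_num)]
        congr 1
        exact_mod_cast Real.rpow_natCast M 3
  calc ∫⁻ t in Set.Icc (0 : ℝ) 1, ∫⁻ X in phOm, ‖phWave F t X.1 X.2‖ₑ ^ (3 : ℝ)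
      ≤ ∫⁻ _t in Set.Icc (0 : ℝ) 1, ∫⁻ _X in phOm, ENNReal.ofReal (M ^ 3) :=
        lintegral_mono fun t => lintegral_mono fun X => hpt t X
    _ = ENNReal.ofReal (M ^ 3) * volume phOm := by
        simp only [lintegral_const, Measure.restrict_apply_univ, Real.volume_Icc]
        norm_num
    _ = ENNReal.ofReal (M ^ 3 * (volume phOm).toReal) := by
        rw [ENNReal.ofReal_mul (by positivity), ENNReal.ofReal_toReal hfin.ne]
    _ = ENNReal.ofReal (C ^ 3 * (volume phOm).toReal * H ^ (-(9 / 2) : ℝ) * E ^ (3 / 2 : ℝ)) := by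
        congr 1
        have e1 : (H ^ (-(3 / 2) : ℝ)) ^ 3 = H ^ (-(9 / 2) : ℝ) := by
          rw [← Real.rpow_natCast, ← Real.rpow_mul hH.le]
          norm_num
        have e2 : Real.sqrt E ^ 3 = E ^ (3 / 2 : ℝ) := by
          rw [Real.sqrt_eq_rpow, ← Real.rpow_natCast, ← Real.rpow_mul hE0]
          norm_num
        rw [hM, mul_pow, mul_pow, e1, e2]
        ring

end Claimed.Agent.R256
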