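-- KEEP
import Claimed.Agent.R256.Phys.Null

/-!
# Row 256, L3, BLOCK I : the plateau analysis is isometric (Def rt:model; 09 l.118-123, 392-400)      (chief helper73; prefix `ph_`)

`phRow ψ H l F t (A, b, y) = 𝓕⁻ (fun ζ => G_A (Ji ζ)) (J (b, -y))`,  `G_A q = F q ψ(√(l/H) (η/2ρ - A)) e(-t|η|²/4ρ)`  continuous with compact support.
`ph_planch` in `(b,y)` for every `A`, then Tonelli in `(A, q)` and `∫ |ψ(√(l/H)(a - A))|² dA = H/l` (`Measure.integral_comp_smul`, `finrank E2 = 2`, translation, reflection).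
-/

set_option autoImplicit false

namespace Claimed.Agent.R256

open MeasureTheory Complex Claimed.Agent.R255.BR
open scoped FourierTransform Real SchwartzMap InnerProductSpace ENNReal ContDiff

/-- the window has compact support -/
theorem ph_i_psi_cpt {ψ : E2 → ℂ} (hψ : PhWin ψ) : HasCompactSupport ψ :=
  HasCompactSupport.intro (isCompact_closedBall (0 : E2) 2) fun A hA => by
    by_contra h
    exact hA (by rw [mem_closedBall_zero_iff]; exact hψ.supp A h)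

/-- the window is bounded -/
theorem ph_i_psi_bd {ψ : E2 → ℂ} (hψ : PhWin ψ) : ∃ C : ℝ, 0 ≤ C ∧ ∀ A, ‖ψ A‖ ≤ C := by
  obtain ⟨C, hC⟩ := hψ.smooth.continuous.bounded_above_of_compact_support (ph_i_psi_cpt hψ)
  exact ⟨C, (norm_nonneg _).trans (hC 0), hC⟩

/-- joint measurability of the argument of the window -/
theorem ph_i_arg_meas (c : ℝ) : Measurable (fun w : E2 × (E2 × ℝ) => c • ((2 * w.2.2)⁻¹ • w.2.1 - w.1)) := by
  fun_prop

/-- joint measurability of the window factor -/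
theorem ph_i_win_meas {ψ : E2 → ℂ} (hψ : PhWin ψ) (c : ℝ) :
    Measurable (fun w : E2 × (E2 × ℝ) => ψ (c • ((2 * w.2.2)⁻¹ • w.2.1 - w.1))) :=
  hψ.smooth.continuous.measurable.comp (ph_i_arg_meas c)

/-- the integrand of a row is measurable -/
theorem ph_i_int_meas {ψ : E2 → ℂ} (hψ : PhWin ψ) (c : ℝ) {F : E2 × ℝ → ℂ} (hF : Continuous F) (t : ℝ) (p : PhRow) :
    Measurable (fun q : E2 × ℝ => F q * ψ (c • ((2 * q.2)⁻¹ • q.1 - p.1)) * ee (phPh t p.2.1 p.2.2 q)) :=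
  (hF.measurable.mul ((ph_i_win_meas hψ c).comp measurable_prodMk_left)).mul (continuous_ee.measurable.comp (ph_bn_ph_meas _ _ _))

/-- the integrand of a row is integrable -/
theorem ph_i_int_int {ψ : E2 → ℂ} (hψ : PhWin ψ) (c : ℝ) {H : ℝ} (hH : 0 < H) {F : E2 × ℝ → ℂ} (hF : Continuous F) (h : PhSupp H F)
    (t : ℝ) (p : PhRow) :
    Integrable (fun q : E2 × ℝ => F q * ψ (c • ((2 * q.2)⁻¹ • q.1 - p.1)) * ee (phPh t p.2.1 p.2.2 q)) := by
  obtain ⟨C, hC0, hC⟩ := ph_i_psi_bd hψ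
  have hi : Integrable (fun q => ‖F q‖ * C) := (hF.norm.integrable_of_hasCompactSupport (ph_bn_cpt hH h).norm).mul_const C
  refine hi.mono' (ph_i_int_meas hψ c hF t p).aestronglyMeasurable (Filter.Eventually.of_forall fun q => ?_)
  rw [norm_mul, norm_mul, norm_ee, mul_one]
  exact mul_le_mul_of_nonneg_left (hC _) (norm_nonneg _)

/-- rows are jointly continuous -/
theorem ph_row_cont {ψ : E2 → ℂ} (hψ : PhWin ψ) {H l : ℝ} (hH : 0 < H) {F : E2 × ℝ → ℂ} (hF : Continuous F) (h : PhSupp H F) (t : ℝ) :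
    Continuous (phRow ψ H l F t) := by
  obtain ⟨C, hC0, hC⟩ := ph_i_psi_bd hψ
  unfold phRow
  refine continuous_of_dominated (bound := fun q => ‖F q‖ * C) (fun p => ?_) (fun p => Filter.Eventually.of_forall fun q => ?_)
    ((hF.norm.integrable_of_hasCompactSupport (ph_bn_cpt hH h).norm).mul_const C) (Filter.Eventually.of_forall fun q => ?_)
  · exact (ph_i_int_meas hψ _ hF t p).aestronglyMeasurable
  · rw [norm_mul, norm_mul, norm_ee, mul_one]
    exact mul_le_mul_of_nonneg_left (hC _) (norm_nonneg _)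
  · refine (continuous_const.mul (hψ.smooth.continuous.comp ?_)).mul (continuous_ee.comp ?_)
    · fun_prop
    · unfold phPh
      fun_prop

/-- rows vanish for `|A| > 2 + 2√(H/l)` -/
theorem ph_row_zero {ψ : E2 → ℂ} (hψ : PhWin ψ) {H l : ℝ} (hH : 0 < H) (hl : 0 < l) {F : E2 × ℝ → ℂ} (h : PhSupp H F) (t : ℝ) {p : PhRow}
    (hp : 2 + 2 * Real.sqrt (H / l) < ‖p.1‖) : phRow ψ H l F t p = 0 := by
  unfold phRow
  refine integral_eq_zero_of_ae (Filter.Eventually.of_forall fun q => ?_)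
  show F q * ψ ((Real.sqrt (l / H)) • ((2 * q.2)⁻¹ • q.1 - p.1)) * ee (phPh t p.2.1 p.2.2 q) = 0
  by_cases hq : F q = 0
  · rw [hq, zero_mul, zero_mul]
  obtain ⟨a1, a2, a3⟩ := h q hq
  have hq2 : 0 < q.2 := by
    by_contra hn
    have : H * q.2 ≤ 0 := mul_nonpos_of_nonneg_of_nonpos hH.le (not_lt.1 hn)
    linarith
  have ha : ‖(2 * q.2)⁻¹ • q.1‖ ≤ 2 := by
    rw [norm_smul, Real.norm_of_nonneg (by positivity), inv_mul_le_iff₀ (by positivity)]
    linarith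
  have hs : Real.sqrt (l / H) * Real.sqrt (H / l) = 1 := by
    rw [← Real.sqrt_mul (by positivity)]
    have : l / H * (H / l) = 1 := by field_simp
    rw [this, Real.sqrt_one]
  have hs0 : 0 < Real.sqrt (l / H) := Real.sqrt_pos.2 (by positivity)
  have hψ0 : ψ ((Real.sqrt (l / H)) • ((2 * q.2)⁻¹ • q.1 - p.1)) = 0 := by
    by_contra hne
    have h1 := hψ.supp _ hne
    rw [norm_smul, Real.norm_of_nonneg hs0.le] at h1
    have h2 : ‖p.1‖ - 2 ≤ ‖(2 * q.2)⁻¹ • q.1 - p.1‖ := by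
      have := norm_sub_norm_le p.1 ((2 * q.2)⁻¹ • q.1)
      rw [norm_sub_rev] at this
      linarith
    have h3 : 2 * Real.sqrt (H / l) < ‖(2 * q.2)⁻¹ • q.1 - p.1‖ := by linarith
    have h4 : Real.sqrt (l / H) * (2 * Real.sqrt (H / l)) < Real.sqrt (l / H) * ‖(2 * q.2)⁻¹ • q.1 - p.1‖ :=
      mul_lt_mul_of_pos_left h3 hs0
    have h5 : Real.sqrt (l / H) * (2 * Real.sqrt (H / l)) = 2 := by
      rw [mul_left_comm, hs, mul_one]
    linarith
  rw [hψ0, mul_zero, zero_mul]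

/-- square integrals in the two languages -/
theorem ph_i_lint_sq {α : Type*} [MeasurableSpace α] {μ : Measure α} {f : α → ℂ} (hf : MemLp f 2 μ) :
    ∫⁻ x, ‖f x‖ₑ ^ 2 ∂μ = ENNReal.ofReal (∫ x, ‖f x‖ ^ 2 ∂μ) := by
  rw [ofReal_integral_eq_lintegral_ofReal ((memLp_two_iff_integrable_sq_norm hf.1).1 hf) (Filter.Eventually.of_forall fun x => by positivity)]
  refine lintegral_congr fun x => ?_
  rw [ENNReal.ofReal_pow (norm_nonneg _), ofReal_norm]

theorem ph_i_enorm_ee (θ : ℝ) : ‖ee θ‖ₑ = 1 := by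
  rw [← ofReal_norm, norm_ee, ENNReal.ofReal_one]

/-- a row is an inverse Fourier transform in `(b, y)` -/
theorem ph_i_row_fourier (ψ : E2 → ℂ) (H l : ℝ) (F : E2 × ℝ → ℂ) (t : ℝ) (A b : E2) (y : ℝ) :
    phRow ψ H l F t (A, b, y) = 𝓕⁻ (fun ζ : E3 => F (Ji ζ) * ψ ((Real.sqrt (l / H)) • ((2 * (Ji ζ).2)⁻¹ • (Ji ζ).1 - A)) *
      ee (-(t * ‖(Ji ζ).1‖ ^ 2 / (4 * (Ji ζ).2)))) (J (b, -y)) := by
  rw [fourierInv_ee, integral_J]
  unfold phRow
  refine integral_congr_ae (Filter.Eventually.of_forall fun q => ?_)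
  simp only [Ji_J, inner_J]
  have e : phPh t b y q = (⟪q.1, b⟫_ℝ + q.2 * -y) + -(t * ‖q.1‖ ^ 2 / (4 * q.2)) := by
    unfold phPh
    rw [real_inner_comm]
    ring
  rw [e, ee_add_eq]
  ring

/-- Plancherel on a slice `A = const` -/
theorem ph_i_slice {ψ : E2 → ℂ} (hψ : PhWin ψ) {H l : ℝ} (hH : 0 < H) {F : E2 × ℝ → ℂ} (hF : Continuous F) (h : PhSupp H F) (t : ℝ) (A : E2) :
    ∫⁻ X : E2 × ℝ, ‖phRow ψ H l F t (A, X)‖ₑ ^ 2
      = ∫⁻ q : E2 × ℝ, ‖F q‖ₑ ^ 2 * ‖ψ ((Real.sqrt (l / H)) • ((2 * q.2)⁻¹ • q.1 - A))‖ₑ ^ 2 := by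
  obtain ⟨C, hC0, hC⟩ := ph_i_psi_bd hψ
  obtain ⟨G, hG⟩ : ∃ G : E2 × ℝ → ℂ, G = fun q => F q * ψ ((Real.sqrt (l / H)) • ((2 * q.2)⁻¹ • q.1 - A)) *
      ee (-(t * ‖q.1‖ ^ 2 / (4 * q.2))) := ⟨_, rfl⟩
  have hGm : Measurable G := by
    rw [hG]
    refine (hF.measurable.mul ((ph_i_win_meas hψ _).comp measurable_prodMk_left)).mul (continuous_ee.measurable.comp ?_)
    have h2 : Measurable fun q : E2 × ℝ => ‖q.1‖ ^ 2 := (continuous_fst.norm.pow 2).measurable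
    exact ((h2.const_mul t).div (measurable_snd.const_mul 4)).neg
  have hGn : ∀ q, ‖G q‖ ≤ C * ‖F q‖ := by
    intro q
    rw [hG]
    simp only [norm_mul, norm_ee, mul_one]
    rw [mul_comm]
    exact mul_le_mul_of_nonneg_right (hC _) (norm_nonneg _)
  have hG1 : Integrable G :=
    ((hF.integrable_of_hasCompactSupport (ph_bn_cpt hH h)).norm.const_mul C).mono' hGm.aestronglyMeasurable (Filter.Eventually.of_forall hGn)
  have hG2 : MemLp G 2 volume :=
    (hF.memLp_of_hasCompactSupport (ph_bn_cpt hH h)).of_le_mul hGm.aestronglyMeasurable (Filter.Eventually.of_forall hGn)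
  have hg1 : Integrable (fun ζ : E3 => G (Ji ζ)) := measurePreserving_Ji.integrable_comp_of_integrable hG1
  have hg2 : MemLp (fun ζ : E3 => G (Ji ζ)) 2 volume := hG2.comp_measurePreserving measurePreserving_Ji
  obtain ⟨p1, p2⟩ := ls_plancherel_inv hg1 hg2
  have e1 : ∀ X : E2 × ℝ, ‖phRow ψ H l F t (A, X)‖ₑ ^ 2 = (fun Y : E2 × ℝ => ‖𝓕⁻ (fun ζ : E3 => G (Ji ζ)) (J Y)‖ₑ ^ 2) (X.1, -X.2) := by
    intro X
    have := ph_i_row_fourier ψ H l F t A X.1 X.2
    rw [show (A, X) = (A, X.1, X.2) from rfl, this, hG]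
  have hrefl : MeasurePreserving (fun X : E2 × ℝ => (X.1, -X.2)) volume volume :=
    (MeasurePreserving.id (volume : Measure E2)).prod (Measure.measurePreserving_neg (volume : Measure ℝ))
  have hemb : MeasurableEmbedding (fun X : E2 × ℝ => (X.1, -X.2)) :=
    ((MeasurableEquiv.refl E2).prodCongr (MeasurableEquiv.neg ℝ)).measurableEmbedding
  rw [lintegral_congr e1, hrefl.lintegral_comp_emb hemb (fun Y : E2 × ℝ => ‖𝓕⁻ (fun ζ : E3 => G (Ji ζ)) (J Y)‖ₑ ^ 2),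
    ← lintegral_J (fun x => ‖𝓕⁻ (fun ζ : E3 => G (Ji ζ)) x‖ₑ ^ 2), ph_i_lint_sq p1, p2, ← ph_i_lint_sq hg2, lintegral_J]
  refine lintegral_congr fun q => ?_
  rw [Ji_J, hG]
  simp only [enorm_mul, ph_i_enorm_ee, mul_one, mul_pow]

/-- the mass of the rescaled window -/
theorem ph_i_win_int {ψ : E2 → ℂ} (hψ : PhWin ψ) {c : ℝ} (hc : 0 < c) (a : E2) :
    ∫⁻ A : E2, ‖ψ (c • (a - A))‖ₑ ^ 2 = ENNReal.ofReal ((c ^ 2)⁻¹) := by
  have hm : Measurable fun x : E2 => ‖ψ x‖ₑ ^ 2 := (hψ.smooth.continuous.measurable.enorm).pow_const 2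
  have h1 : ∫⁻ A : E2, ‖ψ (c • (a - A))‖ₑ ^ 2 = ∫⁻ A : E2, ‖ψ (c • A)‖ₑ ^ 2 :=
    (Measure.measurePreserving_sub_left (volume : Measure E2) a).lintegral_comp (f := fun A : E2 => ‖ψ (c • A)‖ₑ ^ 2)
      (hm.comp (measurable_const_smul c))
  have h2 : ∫⁻ A : E2, ‖ψ (c • A)‖ₑ ^ 2 = ∫⁻ x, ‖ψ x‖ₑ ^ 2 ∂(Measure.map (c • ·) (volume : Measure E2)) :=
    (lintegral_map hm (measurable_const_smul c)).symm
  have h3 : ∫⁻ x : E2, ‖ψ x‖ₑ ^ 2 = 1 := by
    rw [ph_i_lint_sq (hψ.smooth.continuous.memLp_of_hasCompactSupport (ph_i_psi_cpt hψ)), hψ.nrm, ENNReal.ofReal_one]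
  rw [h1, h2, Measure.map_addHaar_smul _ hc.ne', lintegral_smul_measure, h3, finrank_euclideanSpace_fin, smul_eq_mul, mul_one,
    abs_of_pos (by positivity)]

/-- the isometry in `ℝ≥0∞` -/
theorem ph_i_iso_lint {ψ : E2 → ℂ} (hψ : PhWin ψ) {H l : ℝ} (hH : 0 < H) (hl : 0 < l) {F : E2 × ℝ → ℂ} (hF : Continuous F) (h : PhSupp H F)
    (t : ℝ) : ∫⁻ p : PhRow, ‖phRow ψ H l F t p‖ₑ ^ 2 = ENNReal.ofReal (H / l) * ∫⁻ q, ‖F q‖ₑ ^ 2 := by
  have hc : 0 < Real.sqrt (l / H) := Real.sqrt_pos.2 (by positivity)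
  have hc2 : (Real.sqrt (l / H) ^ 2)⁻¹ = H / l := by
    rw [Real.sq_sqrt (by positivity), inv_div]
  have hm : Measurable fun p : PhRow => ‖phRow ψ H l F t p‖ₑ ^ 2 := ((ph_row_cont hψ hH hF h t).measurable.enorm).pow_const 2
  have hm2 : Measurable (Function.uncurry fun (A : E2) (q : E2 × ℝ) =>
      ‖F q‖ₑ ^ 2 * ‖ψ ((Real.sqrt (l / H)) • ((2 * q.2)⁻¹ • q.1 - A))‖ₑ ^ 2) :=
    (((hF.measurable.comp measurable_snd).enorm).pow_const 2).mul (((ph_i_win_meas hψ _).enorm).pow_const 2)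
  rw [Measure.volume_eq_prod, lintegral_prod _ hm.aemeasurable]
  simp_rw [ph_i_slice hψ hH hF h t]
  rw [lintegral_lintegral_swap hm2.aemeasurable]
  have e : ∀ q : E2 × ℝ, ∫⁻ A : E2, ‖F q‖ₑ ^ 2 * ‖ψ ((Real.sqrt (l / H)) • ((2 * q.2)⁻¹ • q.1 - A))‖ₑ ^ 2
      = ENNReal.ofReal (H / l) * ‖F q‖ₑ ^ 2 := by
    intro q
    rw [lintegral_const_mul' _ _ (by simp), ph_i_win_int hψ hc, hc2, mul_comm]
  simp_rw [e]
  rw [lintegral_const_mul' _ _ ENNReal.ofReal_ne_top]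

/-- **I3** the isometry -/
theorem ph_iso {ψ : E2 → ℂ} (hψ : PhWin ψ) {H l : ℝ} (hH : 0 < H) (hl : 0 < l) {F : E2 × ℝ → ℂ} (hF : Continuous F) (h : PhSupp H F) (t : ℝ) :
    Integrable (fun p : PhRow => ‖phRow ψ H l F t p‖ ^ 2) ∧ phMass ψ H l F t Set.univ = ∫ q, ‖F q‖ ^ 2 := by
  have hL := ph_i_iso_lint hψ hH hl hF h t
  rw [ph_i_lint_sq (hF.memLp_of_hasCompactSupport (ph_bn_cpt hH h)), ← ENNReal.ofReal_mul (by positivity)] at hL
  have hcont := ph_row_cont (l := l) hψ hH hF h t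
  have hE0 : 0 ≤ ∫ q, ‖F q‖ ^ 2 := integral_nonneg fun q => by positivity
  have hen : ∀ p : PhRow, ENNReal.ofReal (‖phRow ψ H l F t p‖ ^ 2) = ‖phRow ψ H l F t p‖ₑ ^ 2 := by
    intro p
    rw [ENNReal.ofReal_pow (norm_nonneg _), ofReal_norm]
  have hint : Integrable (fun p : PhRow => ‖phRow ψ H l F t p‖ ^ 2) := by
    refine ⟨(hcont.norm.pow 2).aestronglyMeasurable, ?_⟩
    rw [hasFiniteIntegral_iff_ofReal (Filter.Eventually.of_forall fun p => by positivity)]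
    simp_rw [hen]
    rw [hL]
    exact ENNReal.ofReal_lt_top
  refine ⟨hint, ?_⟩
  unfold phMass
  rw [setIntegral_univ, integral_eq_lintegral_of_nonneg_ae (Filter.Eventually.of_forall fun p => by positivity) hint.1]
  simp_rw [hen]
  rw [hL, ENNReal.toReal_ofReal (by positivity)]
  field_simp

theorem ph_mass_nonneg (ψ : E2 → ℂ) {H l : ℝ} (hH : 0 < H) (hl : 0 < l) (F : E2 × ℝ → ℂ) (t : ℝ) (S : Set PhRow) : 0 ≤ phMass ψ H l F t S := by
  unfold phMass
  exact mul_nonneg (div_pos hl hH).le (integral_nonneg fun _ => by positivity)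

/-- monotonicity (`setIntegral_mono_set`) -/
theorem ph_mass_mono {ψ : E2 → ℂ} (hψ : PhWin ψ) {H l : ℝ} (hH : 0 < H) (hl : 0 < l) {F : E2 × ℝ → ℂ} (hF : Continuous F) (h : PhSupp H F) (t : ℝ)
    {S S' : Set PhRow} (hS : S ⊆ S') : phMass ψ H l F t S ≤ phMass ψ H l F t S' := by
  unfold phMass
  refine mul_le_mul_of_nonneg_left ?_ (div_pos hl hH).le
  exact setIntegral_mono_set (ph_iso hψ hH hl hF h t).1.integrableOn (Filter.Eventually.of_forall fun p => by positivity)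
    (Filter.Eventually.of_forall hS)

theorem ph_mass_le {ψ : E2 → ℂ} (hψ : PhWin ψ) {H l : ℝ} (hH : 0 < H) (hl : 0 < l) {F : E2 × ℝ → ℂ} (hF : Continuous F) (h : PhSupp H F) (t : ℝ)
    (S : Set PhRow) : phMass ψ H l F t S ≤ ∫ q, ‖F q‖ ^ 2 :=
  (ph_mass_mono hψ hH hl hF h t (Set.subset_univ S)).trans (ph_iso hψ hH hl hF h t).2.le

theorem ph_cube_meas (H : ℝ) (Q : Fin 3 → ℤ) : MeasurableSet (phCube H Q) := by
  have h0 : Measurable fun p : PhRow => ⌊p.2.1 0 / H⌋ := Int.measurable_floor.comp (by fun_prop)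
  have h1 : Measurable fun p : PhRow => ⌊p.2.1 1 / H⌋ := Int.measurable_floor.comp (by fun_prop)
  have h2 : Measurable fun p : PhRow => ⌊p.2.2 / H⌋ := Int.measurable_floor.comp (by fun_prop)
  exact ((h0 (measurableSet_singleton (Q 0))).inter ((h1 (measurableSet_singleton (Q 1))).inter (h2 (measurableSet_singleton (Q 2)))))

/-- tests are closed sets of rows -/
theorem ph_set_meas (τ : RtTest) (M : ℝ) : MeasurableSet (phRt ⁻¹' τ.set M) := by
  have cx : Continuous fun p : PhRow => τ.x (phRt p) := by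
    unfold RtTest.x phRt
    fun_prop
  have cz : Continuous fun p : PhRow => τ.z (phRt p) := by
    unfold RtTest.z phRt rtIp
    fun_prop
  have cV : Continuous fun p : PhRow => τ.V (phRt p) := by
    unfold RtTest.V phRt
    fun_prop
  have cF : Continuous fun p : PhRow => τ.Fv (phRt p) := by
    unfold RtTest.Fv RtPoly.F rtIp rtSq
    fun_prop
  have cG : Continuous fun p : PhRow => τ.Gv (phRt p) := by
    unfold RtTest.Gv RtPoly.G rtIp rtSq
    fun_prop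
  have cs : Continuous rtSq := by
    unfold rtSq
    fun_prop
  have e : phRt ⁻¹' τ.set M = {p | rtSq (τ.x (phRt p)) ≤ M ^ 2} ∩ {p | |τ.z (phRt p)| ≤ M} ∩ {p | rtSq (τ.V (phRt p)) ≤ M ^ 2} ∩
      {p | |τ.Fv (phRt p)| ≤ M * τ.f} ∩ {p | |τ.Gv (phRt p)| ≤ M * τ.f} := by
    ext p
    simp only [RtTest.set, RtTest.box, Set.mem_preimage, Set.mem_ofPred_eq, Set.mem_inter_iff]
    tauto
  rw [e]
  exact (((((isClosed_le (cs.comp cx) continuous_const).inter (isClosed_le cz.abs continuous_const)).inter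
    (isClosed_le (cs.comp cV) continuous_const)).inter (isClosed_le cF.abs continuous_const)).inter
    (isClosed_le cG.abs continuous_const)).measurableSet

theorem ph_far_meas (R : ℝ) : MeasurableSet {p : PhRow | R < ‖p.2.1‖ + |p.2.2|} := by
  refine (isOpen_lt continuous_const ?_).measurableSet
  fun_prop

/-- the cubes partition the rows (`hasSum_integral_iUnion`) -/
theorem ph_cubes {ψ : E2 → ℂ} (hψ : PhWin ψ) {H l : ℝ} (hH : 0 < H) (hl : 0 < l) {F : E2 × ℝ → ℂ} (hF : Continuous F) (h : PhSupp H F) (t : ℝ) :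
    HasSum (fun Q : Fin 3 → ℤ => phMass ψ H l F t (phCube H Q)) (∫ q, ‖F q‖ ^ 2) := by
  obtain ⟨hi, hm⟩ := ph_iso hψ hH hl hF h t
  have hU : ⋃ Q : Fin 3 → ℤ, phCube H Q = Set.univ := by
    refine Set.eq_univ_of_forall fun p => Set.mem_iUnion.2 ⟨![⌊p.2.1 0 / H⌋, ⌊p.2.1 1 / H⌋, ⌊p.2.2 / H⌋], ?_⟩
    exact ⟨rfl, rfl, rfl⟩
  have hd : Pairwise (Function.onFun Disjoint fun Q : Fin 3 → ℤ => phCube H Q) := by
    intro Q Q' hne
    refine Set.disjoint_left.2 fun p hp hp' => hne ?_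
    funext i
    fin_cases i
    · exact hp.1.symm.trans hp'.1
    · exact hp.2.1.symm.trans hp'.2.1
    · exact hp.2.2.symm.trans hp'.2.2
  have hs := hasSum_integral_iUnion (μ := (volume : Measure PhRow)) (f := fun p : PhRow => ‖phRow ψ H l F t p‖ ^ 2)
    (fun Q : Fin 3 → ℤ => ph_cube_meas H Q) hd hi.integrableOn
  rw [hU] at hs
  have := hs.mul_left (l / H)
  rw [← hm]
  exact this

/-- summability of the `3/2` powers (`m^{3/2} ≤ √e · m`) -/
theorem ph_cubes_pow {ψ : E2 → ℂ} (hψ : PhWin ψ) {H l : ℝ} (hH : 0 < H) (hl : 0 < l) {F : E2 × ℝ → ℂ} (hF : Continuous F) (h : PhSupp H F) (t : ℝ) :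
    Summable (fun Q : Fin 3 → ℤ => (phMass ψ H l F t (phCube H Q)) ^ (3 / 2 : ℝ)) := by
  have hs := (ph_cubes hψ hH hl hF h t).summable.mul_right ((∫ q, ‖F q‖ ^ 2) ^ (1 / 2 : ℝ))
  refine Summable.of_nonneg_of_le (fun Q => Real.rpow_nonneg (ph_mass_nonneg ψ hH hl F t _) _) (fun Q => ?_) hs
  have h0 := ph_mass_nonneg ψ hH hl F t (phCube H Q)
  have h1 := ph_mass_le hψ hH hl hF h t (phCube H Q)
  rcases h0.eq_or_lt with h0' | h0'
  · rw [← h0', Real.zero_rpow (by norm_num), zero_mul]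
  · rw [show (3 / 2 : ℝ) = 1 + 1 / 2 by norm_num, Real.rpow_add h0', Real.rpow_one]
    exact mul_le_mul_of_nonneg_left (Real.rpow_le_rpow h0 h1 (by norm_num)) h0

/-- additivity of the rows in the spectrum -/
theorem ph_row_add {ψ : E2 → ℂ} (hψ : PhWin ψ) {H l : ℝ} (hH : 0 < H) {F₁ F₂ : E2 × ℝ → ℂ} (h₁ : Continuous F₁) (h₂ : Continuous F₂)
    (s₁ : PhSupp H F₁) (s₂ : PhSupp H F₂) (t : ℝ) (p : PhRow) :
    phRow ψ H l (fun q => F₁ q + F₂ q) t p = phRow ψ H l F₁ t p + phRow ψ H l F₂ t p := by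
  unfold phRow
  rw [← integral_add (ph_i_int_int hψ _ hH h₁ s₁ t p) (ph_i_int_int hψ _ hH h₂ s₂ t p)]
  refine integral_congr_ae (Filter.Eventually.of_forall fun q => ?_)
  simp only []
  ring

/-- existence of a window (not needed for `ph_level`; for the suppliers) -/
theorem ph_win_exists : ∃ ψ : E2 → ℂ, PhWin ψ := by
  let φ : ContDiffBump (0 : E2) := ⟨1, 2, by norm_num, by norm_num⟩
  have hφc : Continuous (φ : E2 → ℝ) := φ.continuous
  have hcpt : HasCompactSupport (fun x : E2 => (φ x) ^ 2) := by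
    refine HasCompactSupport.intro (isCompact_closedBall (0 : E2) 2) fun x hx => ?_
    have : φ x = 0 := by
      apply φ.zero_of_le_dist
      rw [dist_zero_right]
      rw [mem_closedBall_zero_iff, not_le] at hx
      exact hx.le
    rw [this]; norm_num
  have hint : Integrable (fun x : E2 => (φ x) ^ 2) := (hφc.pow 2).integrable_of_hasCompactSupport hcpt
  have hpos : 0 < ∫ x : E2, (φ x) ^ 2 := by
    rw [integral_pos_iff_support_of_nonneg (fun x => by positivity) hint]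
    have hsub : Metric.ball (0 : E2) 1 ⊆ Function.support fun x : E2 => (φ x) ^ 2 := by
      intro x hx
      have : φ x = 1 := φ.one_of_mem_closedBall (Metric.ball_subset_closedBall hx)
      simp [this]
    exact lt_of_lt_of_le (Metric.measure_ball_pos volume _ (by norm_num)) (measure_mono hsub)
  obtain ⟨I, hI⟩ : ∃ I : ℝ, I = ∫ x : E2, (φ x) ^ 2 := ⟨_, rfl⟩
  rw [← hI] at hpos
  refine ⟨fun x => (((Real.sqrt I)⁻¹ * φ x : ℝ) : ℂ), ?_, ?_, ?_⟩
  · exact Complex.ofRealCLM.contDiff.comp (contDiff_const.mul φ.contDiff)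
  · intro A hA
    by_contra hcon
    apply hA
    have : φ A = 0 := by
      apply φ.zero_of_le_dist
      rw [dist_zero_right]
      exact (not_le.1 hcon).le
    rw [this]; simp
  · have e : ∀ A : E2, ‖(((Real.sqrt I)⁻¹ * φ A : ℝ) : ℂ)‖ ^ 2 = I⁻¹ * (φ A) ^ 2 := by
      intro A
      rw [Complex.norm_real, Real.norm_eq_abs, sq_abs, mul_pow, inv_pow, Real.sq_sqrt hpos.le]
    simp_rw [e]
    rw [integral_const_mul, ← hI]
    field_simp

end Claimed.Agent.R256
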