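-- KEEP
import Claimed.Agent.R256.Phys.Iso
import Claimed.Agent.R256.Base.RndCut
import Claimed.Agent.R256.Phys.Bridge
import Claimed.Agent.R256.Rt.Wv1Core

/-!
# Row 256, L3, BLOCK E : from the abstract rate of the round wave model to the concrete estimate `Round`      (chief helper73; prefix `ph_`, block prefix `phe_`)

ENTRY OF THE WHOLE LAYER = `RoundRate` : `(rndWav η).RateF (100 η)` for all small `η` (`Base/Sys.lean`, `Base/RndGeo.lean`, `Base/RndWav.lean`; supplier: hub R1+R2 of helper207, owners helper223, helper38).      EXIT = `ph_entry`.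
DICTIONARY (paper normalisation `e^{iθ}`, Lean of this layer `ee θ = e^{2π i θ}`; the phase is homogeneous of degree one):
* parameters `phPar n` : (SCALAR model) `H = phH n = 2^{-n}`.      window `phPsi A = rdPsi (A 0, A 1)`  (`PhWin` : `rd_psi_contDiff`, `rd_psi_supp` (`|A|² < 2`), `rd_psi_norm`).
* state of the spectrum `F` : `G(ξ, ρ) = (2π)^{-3/2} F(ξ/2π, ρ/2π)`.  Then `‖G‖² = ∫ |F|²` and, for every generation `β ≥ 2` (`2π [1/8, 6] ⊆ [2^{-6}, 2^6]`, so `rdChi β = 1` on the spectrum),
      `(phPar n).row T k β G (A, b, y) = phRow phPsi H 2^{-k} F T (A, b, y)`      (substitution `(ξ,ρ) = 2π (q,ρ')`, Jacobian `(2π)³`;  `rdD H k = √(H/2^{-k})`, `(rdD)⁻¹ = √(2^{-k}/H)`).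
* row measure `(2^{-k}/H) dA db dy` : `P.ms T k β S G = phMass phPsi H 2^{-k} F T S'`   (`ℝ × ℝ ≃ E2` preserves the volume: `EuclideanSpace.volume_preserving_measurableEquiv`, `MeasurableEquiv.finTwoArrow`).
* `ph_ent_an` : the formula `row` defines a bounded operator, so `an` is not the junk value.  ONE LINE from W1 of folder Rt when it lands (ask helper216); otherwise: for fixed `A` Plancherel (`ls_plancherel_inv`), then Tonelli, as in `ph_iso`.
* the experiment: `k0 = 0, i0 = 0, n, v = G, e = ∫|F|², ka = κ, b0 = bT = 2, st = []`; labels = `(j, Q)`, `j < 2^n`, `Q` in a FINITE set of cubes; `iv = j`; `ts` = round test `r = 4, f = 1, As = 0`, centre of the cube, `n = rtLin`;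
      `th` = indicator of `cube ∩ {|A| ≤ 4}` (`ph_row_zero` : the rows vanish for `|A| > 4` at length `H`).   `w = 256`.   `val = 2^{n/2} / (e √κ) ∑ m^{3/2} / 16`.
* `Valid` : `reg` = `PhReg` (`Q.toT 0`, `rdLen 0 = 1`, `rdD H 0 = √H`);  `adm C A` with `C = 12`, frame `r = 1`, centre `0` : `ek_*` = `PhAdm.size`; `tail` : complement of the box `⊆ {H^{-12} < |b| + |y|} ∪ {|A| > 4}`,
      `tl (A+1) H^{A+1} e ≤ H^A e` for `n ≥ n₁`;   Planck parameter of the frame `= H = s`.
* conclusion for finite sets of cubes, then `tsum_le_of_sum_le'` / `Real.tsum_le_of_sum_le`.     `C = 16`, `ζ = ε`.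
-/

set_option autoImplicit false

namespace Claimed.Agent.R256

open MeasureTheory Complex Claimed.Agent.R255.BR
open scoped FourierTransform Real InnerProductSpace ENNReal ContDiff

/-- **ENTRY OF THE LAYER** -/
def RoundRate : Prop := ∃ η₀ : ℝ, 0 < η₀ ∧ ∀ η : ℝ, 0 < η → η < η₀ → (rndWav η).RateF (100 * η)

/-- the window of `Base/RndWav.lean` on `E2` -/
noncomputable def phPsi (A : E2) : ℂ := (rdPsi (A 0, A 1) : ℂ)

/-- the parameters of the physical experiment at scale `2^{-n}` -/
noncomputable def phPar (n : ℕ) : RdWvPar where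
  H := phH n
  H_pos := inv_pos.2 (pow_pos two_pos n)

theorem ph_ent_eqns_cite : True := by
  have := @RoundRate.eq_1
  have := @phPsi.eq_1
  have := @phPar.eq_1
  trivial

theorem ph_psi_win : PhWin phPsi := ph_br_win

/-- the analysis operator of the scalar model is given by the formula -/
theorem ph_ent_an (n : ℕ) (T : ℝ) (k β : ℕ) (G : Lp ℂ 2 (volume : Measure RdWvPar.Mo)) :
    ((phPar n).an T k β G : RdWvPar.Ph → ℂ) =ᵐ[(phPar n).rw k] (phPar n).row T k β G :=
  rt_w1c_an (phPar n) T k β G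

/-- the analysis operator is isometric on the plateau class (`ph_ent_an`; for fixed `A` Plancherel `ls_plancherel_inv`, Tonelli, `∫ ψ² = 1`, `rd_chi_one`; as in `ph_iso`; ONE LINE from W1 of folder Rt when it lands) -/
theorem ph_ent_iso (n : ℕ) (β : ℕ) (G : Lp ℂ 2 (volume : Measure RdWvPar.Mo)) (hG : (phPar n).Spec β G)
    (T : ℝ) (k : ℕ) : ‖(phPar n).an T k β G‖ = ‖G‖ :=
  rt_w1c_an_iso (phPar n) β G hG T k

/-- the instance facts in the form consumed by `Phys/Bridge.lean` (`phPar n` and `brPar n` are the same term) -/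
theorem ph_ent_inst : BrInst := fun n => ⟨fun T k β G => ph_ent_an n T k β G, fun β G hG T k => ph_ent_iso n β G hG T k⟩

/-- one value of `η`  (cut in `Phys/Bridge.lean`, leaves L-256-PHYS-BR1..4) -/
theorem ph_ent_one {η : ℝ} (hη : 0 < η) (h : (rndWav η).RateF (100 * η)) : PhRound phPsi η :=
  ph_br_phround ph_ent_inst hη h

/-- **EXIT OF BLOCK E** -/
theorem ph_entry (h : RoundRate) : Round := by
  obtain ⟨η₀, h0, h1⟩ := h
  exact ⟨phPsi, ph_psi_win, η₀, h0, fun η hη hη' => ph_ent_one hη (h1 η hη hη')⟩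

end Claimed.Agent.R256
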