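-- KEEP
import Claimed.Agent.R255.BR.Split

/-!
# Row 256 (LS paper), PHYS : lem:phys-predecessor-volume (09 l.197-330)      (architect helper163; prefix `ph_pv_`)

PAPER-FREE (real algebra + Lebesgue measure).  Raw data `PvT` of a round regularity test at length `1` (centre `As bs ys`, width `r`, thickness `f`, polynomial `c d al be k`).
A physical input point is `ζ = (z_⊥, z₃) : E2 × ℝ`; it is the space-time point `(t,b,y) = (z₃, z_⊥, -z₃)` of the plane `y = -t`.   Rows `p = (A,b,y)`.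
RESULT:  `|E| ≤ C Λ³ r⁴` (round tests), `|E| ≤ C Λ⁵ r⁴ f` (hyperquadric tests)  for the set `E` of input points related to some row of the test with `|A| ≤ A1`.

ROUTE (constants for `|T| ≤ 4`, `|z₃| ≤ 6`, so `|u| ≤ 10`, `u = z₃ - T`):
 1. `p' = (A, b^p, y^p)` = exact prediction at time `T` from `ζ` with velocity `A`;  `|δx| ≤ Λ f`, `|δw| ≤ 3 Λ f`;  the normalised ray of `p'` passes through `ζ` at time `u`:
    `X(ζ) = x(p') + u V`, `W(ζ) = w(p') + u |V|²`;  `FF` is affine along rays with slope `GG`, `GG` is constant along rays  ⟹  `|FF|, |GG| ≤ q := 6000 Λ² f` at `ζ`   (`ph_pv_transport`).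
 2. `ζ ↦ (X, W)` has Jacobian `(1+|As|²)/r⁴`  (`ph_pv_vol1`);  crude bound (`ph_pv_crude`): enough if `q ≥ q0`.
 3. thin case `q ≤ q0`:  `|F_x + 2 V F_w|² = 1 + 4 (be + k u) GG - 4 k FF ≥ 1/4`  (`ph_pv_disc`);  `h` = restriction of `FF` to the plane;
    `r ≤ R0`:  `(1+r)|h_X| + (2+r)|h_W| ≥ 1/4`   (`ph_pv_grad1`;  key: `|a + 2 V c_*|/κ_V = 2 r |A|/(1+|A|²) ≤ r`);
    `r ≥ R0 = 8800 A1 + 1`:  recentre at `As = 0`:  `|∂_{X'} h'| ≥ 1/4`   (`ph_pv_grad2`).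
 4. sublevel sets of quadratic polynomials: `|{s : |φ s| ≤ q, |φ' s| ≥ c}| ≤ 4q/c`  (`ph_pv_sub1`), Tonelli (`ph_pv_slice`).
Every `sorry` is a leaf.  EDIT IN PLACE, statements are frozen.   Hint for the identities: expand `E2` in coordinates (`EuclideanSpace.norm_eq`, `real_inner_eq...`, `Fin.sum_univ_two`) and use `ring`/`nlinarith`.
-/

set_option autoImplicit false

namespace Claimed.Agent.R256

open MeasureTheory Claimed.Agent.R255.BR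
open scoped InnerProductSpace ENNReal

/-- rows `(A, b, y)` -/
abbrev Rw : Type := E2 × E2 × ℝ

/-- raw data of a test -/
structure PvT where
  As : E2
  bs : E2
  ys : ℝ
  r : ℝ
  f : ℝ
  c : ℝ
  d : ℝ
  al : E2
  be : ℝ
  k : ℝ

namespace PvT

variable (τ : PvT)

/-- the hypotheses of Def. rt:regularity -/
structure Ok : Prop where
  hr : 0 < τ.r
  hf0 : 0 < τ.f
  hf1 : τ.f ≤ 1
  disc : ‖τ.al‖ ^ 2 - 4 * τ.be * τ.d + 4 * τ.k * τ.c = 1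
  hc : |τ.c| ≤ 100
  hd : |τ.d| ≤ 100
  hal : ‖τ.al‖ ≤ 100
  hbe : |τ.be| ≤ 100
  hk : |τ.k| ≤ 100

/-- the polynomial `F = c + d u + α·x + β w + k (u w - |x|²)` -/
noncomputable def FF (u : ℝ) (x : E2) (w : ℝ) : ℝ := τ.c + τ.d * u + ⟪τ.al, x⟫_ℝ + τ.be * w + τ.k * (u * w - ‖x‖ ^ 2)

/-- `G = L_V F = F_u + V·F_x + |V|² F_w` -/
noncomputable def GG (u : ℝ) (x : E2) (w : ℝ) (V : E2) : ℝ :=
  τ.d + τ.k * w + ⟪V, τ.al - (2 * τ.k) • x⟫_ℝ + ‖V‖ ^ 2 * (τ.be + τ.k * u)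

/-- normalised coordinates of a row (time `u = 0`, length `1`) -/
noncomputable def rx (p : Rw) : E2 := τ.r⁻¹ • (p.2.1 - τ.bs)
noncomputable def rz (p : Rw) : ℝ := (p.2.2 - τ.ys - 2 * ⟪τ.As, p.2.1 - τ.bs⟫_ℝ) / τ.r ^ 2
noncomputable def rV (p : Rw) : E2 := τ.r⁻¹ • (p.1 - τ.As)

/-- the round test -/
def inBox (p : Rw) : Prop := ‖τ.rx p‖ ≤ 1 ∧ |τ.rz p| ≤ 1 ∧ ‖τ.rV p‖ ≤ 1

/-- the hyperquadric test -/
def inQuad (p : Rw) : Prop :=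
  τ.inBox p ∧ |τ.FF 0 (τ.rx p) (τ.rz p)| ≤ τ.f ∧ |τ.GG 0 (τ.rx p) (τ.rz p) (τ.rV p)| ≤ τ.f

/-- normalised coordinates of the physical input point `ζ` -/
noncomputable def pX (T : ℝ) (ζ : E2 × ℝ) : E2 := τ.r⁻¹ • (ζ.1 - τ.bs - (ζ.2 - T) • τ.As)
noncomputable def pW (T : ℝ) (ζ : E2 × ℝ) : ℝ :=
  (-ζ.2 - τ.ys - 2 * ⟪τ.As, ζ.1 - τ.bs⟫_ℝ + (ζ.2 - T) * ‖τ.As‖ ^ 2) / τ.r ^ 2

/-- the same with the angular centre `0` -/
noncomputable def pX' (ζ : E2 × ℝ) : E2 := τ.r⁻¹ • (ζ.1 - τ.bs)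
noncomputable def pW' (ζ : E2 × ℝ) : ℝ := (-ζ.2 - τ.ys) / τ.r ^ 2

/-- `u` on the input plane as a function of `(X, W)`  (phys-input-plane) -/
noncomputable def uu (T : ℝ) (X : E2) (W : ℝ) : ℝ :=
  (-T - τ.ys - 2 * τ.r * ⟪τ.As, X⟫_ℝ - τ.r ^ 2 * W) / (1 + ‖τ.As‖ ^ 2)

/-- the gradient of `h (X, W) = FF (uu X W) X W`, as a function of `(u, X, W)` -/
noncomputable def hX (X : E2) (W : ℝ) : E2 :=
  τ.al - (2 * τ.k) • X - ((2 * τ.r / (1 + ‖τ.As‖ ^ 2)) * (τ.d + τ.k * W)) • τ.As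
noncomputable def hW (u : ℝ) (W : ℝ) : ℝ := τ.be + τ.k * u - τ.r ^ 2 / (1 + ‖τ.As‖ ^ 2) * (τ.d + τ.k * W)

end PvT

/-- the predecessor relation (phys-predecessor-relation) -/
def pvRel (Λ H T : ℝ) (ζ : E2 × ℝ) (p : Rw) : Prop :=
  ‖p.2.1 - ζ.1 - (T - ζ.2) • p.1‖ ≤ Λ * Real.sqrt H ∧
  |p.2.2 + ζ.2 - (T - ζ.2) * ‖p.1‖ ^ 2 - 2 * ⟪p.1, p.2.1 - ζ.1 - (T - ζ.2) • p.1⟫_ℝ| ≤ Λ * H

/-- predecessors of a round test -/
def pvE0 (τ : PvT) (Λ H T A1 : ℝ) : Set (E2 × ℝ) :=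
  {ζ | ‖ζ.1‖ ≤ 6 ∧ |ζ.2| ≤ 6 ∧ ∃ p : Rw, τ.inBox p ∧ ‖p.1‖ ≤ A1 ∧ pvRel Λ H T ζ p}

/-- predecessors of a hyperquadric test -/
def pvE (τ : PvT) (Λ H T A1 : ℝ) : Set (E2 × ℝ) :=
  {ζ | ‖ζ.1‖ ≤ 6 ∧ |ζ.2| ≤ 6 ∧ ∃ p : Rw, τ.inQuad p ∧ ‖p.1‖ ≤ A1 ∧ pvRel Λ H T ζ p}

theorem ph_pv_eqns_cite : True := by
  have := @PvT.FF.eq_1
  have := @PvT.GG.eq_1
  have := @PvT.rx.eq_1
  have := @PvT.rz.eq_1
  have := @PvT.rV.eq_1
  have := @PvT.inBox.eq_1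
  have := @PvT.inQuad.eq_1
  have := @PvT.pX.eq_1
  have := @PvT.pW.eq_1
  have := @PvT.pX'.eq_1
  have := @PvT.pW'.eq_1
  have := @PvT.uu.eq_1
  have := @PvT.hX.eq_1
  have := @PvT.hW.eq_1
  have := @pvRel.eq_1
  have := @pvE0.eq_1
  have := @pvE.eq_1
  trivial

/-! ### PV1 : identities -/

/-- `F` is affine along rays with slope `G` -/
theorem ph_pv_ray_F (τ : PvT) (u : ℝ) (x : E2) (w : ℝ) (V : E2) :
    τ.FF u (x + u • V) (w + u * ‖V‖ ^ 2) = τ.FF 0 x w + u * τ.GG 0 x w V := by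
  simp only [PvT.FF, PvT.GG, EuclideanSpace.norm_sq_eq, PiLp.inner_apply, Fin.sum_univ_two, PiLp.add_apply, PiLp.sub_apply,
    PiLp.smul_apply, smul_eq_mul, Real.norm_eq_abs, sq_abs, RCLike.inner_apply, conj_trivial]
  ring

/-- `G` is constant along rays -/
theorem ph_pv_ray_G (τ : PvT) (u : ℝ) (x : E2) (w : ℝ) (V : E2) :
    τ.GG u (x + u • V) (w + u * ‖V‖ ^ 2) V = τ.GG 0 x w V := by
  simp only [PvT.GG, EuclideanSpace.norm_sq_eq, PiLp.inner_apply, Fin.sum_univ_two, PiLp.add_apply, PiLp.sub_apply,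
    PiLp.smul_apply, smul_eq_mul, Real.norm_eq_abs, sq_abs, RCLike.inner_apply, conj_trivial]
  ring

/-- the discriminant identity (phys-gradient-identity) -/
theorem ph_pv_disc (τ : PvT) (h : ‖τ.al‖ ^ 2 - 4 * τ.be * τ.d + 4 * τ.k * τ.c = 1) (u : ℝ) (x : E2) (w : ℝ) (V : E2) :
    ‖τ.al - (2 * τ.k) • x + (2 * (τ.be + τ.k * u)) • V‖ ^ 2 = 1 + 4 * (τ.be + τ.k * u) * τ.GG u x w V - 4 * τ.k * τ.FF u x w := by
  rw [← h]
  simp only [PvT.FF, PvT.GG, EuclideanSpace.norm_sq_eq, PiLp.inner_apply, Fin.sum_univ_two, PiLp.add_apply, PiLp.sub_apply,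
    PiLp.smul_apply, smul_eq_mul, Real.norm_eq_abs, sq_abs, RCLike.inner_apply, conj_trivial]
  ring

/-- the ray of the exact prediction passes through `ζ` -/
theorem ph_pv_pred (τ : PvT) (hr : 0 < τ.r) (T : ℝ) (ζ : E2 × ℝ) (A : E2) :
    τ.pX T ζ = τ.rx (A, ζ.1 + (T - ζ.2) • A, -ζ.2 + (T - ζ.2) * ‖A‖ ^ 2) + (ζ.2 - T) • (τ.r⁻¹ • (A - τ.As)) ∧
    τ.pW T ζ = τ.rz (A, ζ.1 + (T - ζ.2) • A, -ζ.2 + (T - ζ.2) * ‖A‖ ^ 2) + (ζ.2 - T) * ‖τ.r⁻¹ • (A - τ.As)‖ ^ 2 := by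
  constructor
  · ext i
    simp only [PvT.pX, PvT.rx, PiLp.add_apply, PiLp.sub_apply, PiLp.smul_apply, smul_eq_mul]
    ring
  · simp only [PvT.pW, PvT.rz, EuclideanSpace.norm_sq_eq, PiLp.inner_apply, Fin.sum_univ_two, PiLp.add_apply, PiLp.sub_apply,
      PiLp.smul_apply, smul_eq_mul, Real.norm_eq_abs, sq_abs, RCLike.inner_apply, conj_trivial]
    field_simp
    ring

/-- (phys-input-plane) -/
theorem ph_pv_plane (τ : PvT) (hr : 0 < τ.r) (T : ℝ) (ζ : E2 × ℝ) : τ.uu T (τ.pX T ζ) (τ.pW T ζ) = ζ.2 - T := by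
  have hκ : (1 + ‖τ.As‖ ^ 2) ≠ 0 := by positivity
  rw [PvT.uu, div_eq_iff hκ]
  simp only [PvT.pX, PvT.pW, EuclideanSpace.norm_sq_eq, PiLp.inner_apply, Fin.sum_univ_two, PiLp.sub_apply,
    PiLp.smul_apply, smul_eq_mul, Real.norm_eq_abs, sq_abs, RCLike.inner_apply, conj_trivial]
  field_simp
  ring

/-- change of the angular centre: `B = As / r` -/
theorem ph_pv_recentre (τ : PvT) (hr : 0 < τ.r) (T : ℝ) (ζ : E2 × ℝ) :
    τ.pX T ζ = τ.pX' ζ - (ζ.2 - T) • (τ.r⁻¹ • τ.As) ∧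
    τ.pW T ζ = τ.pW' ζ - 2 * ⟪τ.r⁻¹ • τ.As, τ.pX' ζ⟫_ℝ + (ζ.2 - T) * ‖τ.r⁻¹ • τ.As‖ ^ 2 ∧
    ζ.2 - T = -(τ.r ^ 2 * τ.pW' ζ) - τ.ys - T := by
  refine ⟨?_, ?_, ?_⟩
  · ext i
    simp only [PvT.pX, PvT.pX', PiLp.sub_apply, PiLp.smul_apply, smul_eq_mul]
    ring
  · simp only [PvT.pW, PvT.pW', PvT.pX', EuclideanSpace.norm_sq_eq, PiLp.inner_apply, Fin.sum_univ_two, PiLp.sub_apply,
      PiLp.smul_apply, smul_eq_mul, Real.norm_eq_abs, sq_abs, RCLike.inner_apply, conj_trivial]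
    field_simp
  · simp only [PvT.pW']
    field_simp
    ring

/-! ### PV2 : transport of the test to the input plane -/

/-- products of bounded reals -/
theorem ph_pv_abs_mul_le {a b A B : ℝ} (ha : |a| ≤ A) (hb : |b| ≤ B) : |a * b| ≤ A * B := by
  rw [abs_mul]
  exact mul_le_mul ha hb (abs_nonneg _) ((abs_nonneg _).trans ha)

/-- inner products of bounded vectors -/
theorem ph_pv_abs_inner_le {a b : E2} {A B : ℝ} (ha : ‖a‖ ≤ A) (hb : ‖b‖ ≤ B) : |⟪a, b⟫_ℝ| ≤ A * B :=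
  (abs_real_inner_le_norm a b).trans (mul_le_mul ha hb (norm_nonneg _) ((norm_nonneg _).trans ha))

/-- the exact prediction differs from the row by the two errors of the predecessor relation -/
theorem ph_pv_pred_err (τ : PvT) (hr : 0 < τ.r) (T : ℝ) (ζ : E2 × ℝ) (p : Rw) :
    τ.rx (p.1, ζ.1 + (T - ζ.2) • p.1, -ζ.2 + (T - ζ.2) * ‖p.1‖ ^ 2)
      = τ.rx p - τ.r⁻¹ • (p.2.1 - ζ.1 - (T - ζ.2) • p.1) ∧
    τ.rz (p.1, ζ.1 + (T - ζ.2) • p.1, -ζ.2 + (T - ζ.2) * ‖p.1‖ ^ 2)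
      = τ.rz p - ((p.2.2 + ζ.2 - (T - ζ.2) * ‖p.1‖ ^ 2 - 2 * ⟪p.1, p.2.1 - ζ.1 - (T - ζ.2) • p.1⟫_ℝ) / τ.r ^ 2
          + 2 * ⟪τ.rV p, τ.r⁻¹ • (p.2.1 - ζ.1 - (T - ζ.2) • p.1)⟫_ℝ) := by
  constructor
  · ext i
    simp only [PvT.rx, PiLp.add_apply, PiLp.sub_apply, PiLp.smul_apply, smul_eq_mul]
    ring
  · simp only [PvT.rz, PvT.rV, EuclideanSpace.norm_sq_eq, PiLp.inner_apply, Fin.sum_univ_two, PiLp.add_apply, PiLp.sub_apply,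
      PiLp.smul_apply, smul_eq_mul, Real.norm_eq_abs, sq_abs, RCLike.inner_apply, conj_trivial]
    field_simp
    ring

/-- size of the two errors, `√H ≤ r s`, `s ≤ 1` -/
theorem ph_pv_err_le (τ : PvT) (hr : 0 < τ.r) {Λ H T s : ℝ} (hH : 0 < H) (hΛ : 1 ≤ Λ) (hs0 : 0 < s) (hs1 : s ≤ 1)
    (hu : Real.sqrt H ≤ τ.r * s) {ζ : E2 × ℝ} {p : Rw} (hV : ‖τ.rV p‖ ≤ 1) (hrel : pvRel Λ H T ζ p) :
    ‖τ.r⁻¹ • (p.2.1 - ζ.1 - (T - ζ.2) • p.1)‖ ≤ Λ * s ∧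
    |(p.2.2 + ζ.2 - (T - ζ.2) * ‖p.1‖ ^ 2 - 2 * ⟪p.1, p.2.1 - ζ.1 - (T - ζ.2) • p.1⟫_ℝ) / τ.r ^ 2
          + 2 * ⟪τ.rV p, τ.r⁻¹ • (p.2.1 - ζ.1 - (T - ζ.2) • p.1)⟫_ℝ| ≤ 3 * (Λ * s) := by
  obtain ⟨h1, h2⟩ := hrel
  have hΛ0 : 0 < Λ := by linarith
  have e1 : ‖τ.r⁻¹ • (p.2.1 - ζ.1 - (T - ζ.2) • p.1)‖ ≤ Λ * s := by
    rw [norm_smul, norm_inv, Real.norm_of_nonneg hr.le, inv_mul_le_iff₀ hr]
    calc _ ≤ Λ * Real.sqrt H := h1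
      _ ≤ Λ * (τ.r * s) := mul_le_mul_of_nonneg_left hu hΛ0.le
      _ = τ.r * (Λ * s) := by ring
  refine ⟨e1, ?_⟩
  have hHs : H ≤ (τ.r * s) ^ 2 := by
    calc H = Real.sqrt H ^ 2 := (Real.sq_sqrt hH.le).symm
      _ ≤ (τ.r * s) ^ 2 := pow_le_pow_left₀ (Real.sqrt_nonneg _) hu 2
  have e2 : |(p.2.2 + ζ.2 - (T - ζ.2) * ‖p.1‖ ^ 2 - 2 * ⟪p.1, p.2.1 - ζ.1 - (T - ζ.2) • p.1⟫_ℝ) / τ.r ^ 2| ≤ Λ * s := by
    rw [abs_div, abs_of_pos (by positivity : (0 : ℝ) < τ.r ^ 2), div_le_iff₀ (by positivity)]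
    calc _ ≤ Λ * H := h2
      _ ≤ Λ * (τ.r * s) ^ 2 := mul_le_mul_of_nonneg_left hHs hΛ0.le
      _ = Λ * s * τ.r ^ 2 * s := by ring
      _ ≤ Λ * s * τ.r ^ 2 * 1 := mul_le_mul_of_nonneg_left hs1 (by positivity)
      _ = Λ * s * τ.r ^ 2 := mul_one _
  have e3 := ph_pv_abs_inner_le hV e1
  refine (abs_add_le _ _).trans ?_
  rw [abs_mul, abs_two]
  linarith

/-- position of the transported point -/
theorem ph_pv_pos_le {x δx V : E2} {w δw u D : ℝ} (hx : ‖x‖ ≤ 1) (hw : |w| ≤ 1) (hV : ‖V‖ ≤ 1) (hδx : ‖δx‖ ≤ D)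
    (hδw : |δw| ≤ 3 * D) (hu : |u| ≤ 10) :
    ‖x - δx + u • V‖ ≤ 11 + D ∧ |w - δw + u * ‖V‖ ^ 2| ≤ 11 + 3 * D := by
  have hV2 : ‖V‖ ^ 2 ≤ 1 := pow_le_one₀ (norm_nonneg _) hV
  constructor
  · refine (norm_add_le _ _).trans ?_
    have h1 := norm_sub_le x δx
    have h2 : ‖u • V‖ ≤ 10 * 1 := by
      rw [norm_smul, Real.norm_eq_abs]
      exact mul_le_mul hu hV (norm_nonneg _) (by norm_num)
    linarith
  · refine (abs_add_le _ _).trans ?_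
    have h1 := abs_sub w δw
    have h2 : |u * ‖V‖ ^ 2| ≤ 10 * 1 := ph_pv_abs_mul_le hu (by rwa [abs_of_nonneg (by positivity)])
    linarith

theorem ph_pv_u_le {T z : ℝ} (hT : |T| ≤ 4) (hz : |z| ≤ 6) : |z - T| ≤ 10 :=
  (abs_sub _ _).trans (by linarith)

/-- round tests.   (`|δx| ≤ Λ √H / r ≤ Λ`, `|δw| ≤ Λ H / r² + 2 |V| Λ √H / r ≤ 3 Λ`, `ph_pv_pred`, `|u| ≤ 10`.) -/
theorem ph_pv_transport0 (τ : PvT) (hτ : τ.Ok) {Λ H T : ℝ} (hH : 0 < H) (hΛ : 1 ≤ Λ) (hT : |T| ≤ 4) (hu : Real.sqrt H ≤ τ.r)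
    {ζ : E2 × ℝ} (hζ : |ζ.2| ≤ 6) {p : Rw} (hp : τ.inBox p) (hrel : pvRel Λ H T ζ p) :
    ‖τ.pX T ζ‖ ≤ 11 + Λ ∧ |τ.pW T ζ| ≤ 11 + 3 * Λ := by
  obtain ⟨hx, hw, hV⟩ := hp
  obtain ⟨a1, a2⟩ := ph_pv_pred τ hτ.hr T ζ p.1
  obtain ⟨b1, b2⟩ := ph_pv_pred_err τ hτ.hr T ζ p
  obtain ⟨c1, c2⟩ := ph_pv_err_le τ hτ.hr hH hΛ one_pos le_rfl (by rwa [mul_one]) hV hrel
  rw [mul_one] at c1 c2
  have := ph_pv_pos_le hx hw hV c1 c2 (ph_pv_u_le hT hζ)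
  rw [a1, a2, b1, b2]
  exact this

/-- perturbation of `FF 0` and `GG 0` -/
theorem ph_pv_pert (τ : PvT) (x δx V : E2) (w δw : ℝ) :
    τ.FF 0 (x - δx) (w - δw) = τ.FF 0 x w - ⟪τ.al, δx⟫_ℝ - τ.be * δw + τ.k * (2 * ⟪x, δx⟫_ℝ - ‖δx‖ ^ 2) ∧
    τ.GG 0 (x - δx) (w - δw) V = τ.GG 0 x w V - τ.k * δw + τ.k * (2 * ⟪V, δx⟫_ℝ) := by
  constructor
  · simp only [PvT.FF, EuclideanSpace.norm_sq_eq, PiLp.inner_apply, Fin.sum_univ_two, PiLp.sub_apply,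
      Real.norm_eq_abs, sq_abs, RCLike.inner_apply, conj_trivial]
    ring
  · simp only [PvT.GG, EuclideanSpace.norm_sq_eq, PiLp.inner_apply, Fin.sum_univ_two, PiLp.sub_apply,
      PiLp.smul_apply, smul_eq_mul, Real.norm_eq_abs, sq_abs, RCLike.inner_apply, conj_trivial]
    ring

/-- hyperquadric tests.   (`|δx| ≤ Λ f`, `|δw| ≤ 3 Λ f`; `|FF 0 (p')| ≤ 701 Λ² f`, `|GG 0 (p')| ≤ 501 Λ f`; `ph_pv_ray_F`, `ph_pv_ray_G`, `ph_pv_pred`.) -/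
theorem ph_pv_transport (τ : PvT) (hτ : τ.Ok) {Λ H T : ℝ} (hH : 0 < H) (hΛ : 1 ≤ Λ) (hT : |T| ≤ 4) (hu : Real.sqrt H ≤ τ.r * τ.f)
    {ζ : E2 × ℝ} (hζ : |ζ.2| ≤ 6) {p : Rw} (hp : τ.inQuad p) (hrel : pvRel Λ H T ζ p) :
    ‖τ.pX T ζ‖ ≤ 11 + Λ * τ.f ∧ |τ.pW T ζ| ≤ 11 + 3 * (Λ * τ.f) ∧
    |τ.FF (ζ.2 - T) (τ.pX T ζ) (τ.pW T ζ)| ≤ 6000 * Λ ^ 2 * τ.f ∧
    |τ.GG (ζ.2 - T) (τ.pX T ζ) (τ.pW T ζ) (τ.rV p)| ≤ 6000 * Λ ^ 2 * τ.f := by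
  obtain ⟨⟨hx, hw, hV⟩, hF, hG⟩ := hp
  obtain ⟨a1, a2⟩ := ph_pv_pred τ hτ.hr T ζ p.1
  obtain ⟨b1, b2⟩ := ph_pv_pred_err τ hτ.hr T ζ p
  obtain ⟨c1, c2⟩ := ph_pv_err_le τ hτ.hr hH hΛ hτ.hf0 hτ.hf1 hu hV hrel
  have hu10 := ph_pv_u_le hT hζ
  obtain ⟨d1, d2⟩ := ph_pv_pos_le hx hw hV c1 c2 hu10
  rw [b1] at a1
  rw [b2] at a2
  have a1' : τ.pX T ζ = τ.rx p - τ.r⁻¹ • (p.2.1 - ζ.1 - (T - ζ.2) • p.1) + (ζ.2 - T) • τ.rV p := a1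
  have a2' : τ.pW T ζ = τ.rz p - ((p.2.2 + ζ.2 - (T - ζ.2) * ‖p.1‖ ^ 2 - 2 * ⟪p.1, p.2.1 - ζ.1 - (T - ζ.2) • p.1⟫_ℝ) / τ.r ^ 2
          + 2 * ⟪τ.rV p, τ.r⁻¹ • (p.2.1 - ζ.1 - (T - ζ.2) • p.1)⟫_ℝ) + (ζ.2 - T) * ‖τ.rV p‖ ^ 2 := a2
  rw [a1', a2']
  refine ⟨d1, d2, ?_⟩
  obtain ⟨δx, hδx⟩ : ∃ δx, δx = τ.r⁻¹ • (p.2.1 - ζ.1 - (T - ζ.2) • p.1) := ⟨_, rfl⟩
  obtain ⟨δw, hδw⟩ : ∃ δw, δw = (p.2.2 + ζ.2 - (T - ζ.2) * ‖p.1‖ ^ 2 - 2 * ⟪p.1, p.2.1 - ζ.1 - (T - ζ.2) • p.1⟫_ℝ) / τ.r ^ 2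
          + 2 * ⟪τ.rV p, τ.r⁻¹ • (p.2.1 - ζ.1 - (T - ζ.2) • p.1)⟫_ℝ := ⟨_, rfl⟩
  rw [← hδw] at c2 ⊢
  rw [← hδx] at c1 ⊢
  rw [ph_pv_ray_F, ph_pv_ray_G]
  obtain ⟨e1, e2⟩ := ph_pv_pert τ (τ.rx p) δx (τ.rV p) (τ.rz p) δw
  have hf0 := hτ.hf0
  have hf1 := hτ.hf1
  have hΛ0 : 0 < Λ := by linarith
  obtain ⟨D, hD⟩ : ∃ D, D = Λ * τ.f := ⟨_, rfl⟩
  obtain ⟨Q, hQ⟩ : ∃ Q, Q = Λ ^ 2 * τ.f := ⟨_, rfl⟩
  rw [← hD] at c1 c2
  have hD0 : 0 ≤ D := by rw [hD]; positivity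
  have hDQ : D ≤ Q := by
    rw [hD, hQ]
    exact mul_le_mul_of_nonneg_right (by nlinarith) hf0.le
  have hD2Q : D ^ 2 ≤ Q := by
    rw [hD, hQ]
    calc (Λ * τ.f) ^ 2 = Λ ^ 2 * τ.f * τ.f := by ring
      _ ≤ Λ ^ 2 * τ.f * 1 := mul_le_mul_of_nonneg_left hf1 (by positivity)
      _ = Λ ^ 2 * τ.f := mul_one _
  have hfQ : τ.f ≤ Q := by
    rw [hQ]
    have : 1 ≤ Λ ^ 2 := one_le_pow₀ hΛ
    nlinarith
  have t1 := abs_le.mp (ph_pv_abs_inner_le hτ.hal c1)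
  have t2 := abs_le.mp (ph_pv_abs_mul_le hτ.hbe c2)
  have t3i := abs_le.mp (ph_pv_abs_inner_le hx c1)
  have t3n : ‖δx‖ ^ 2 ≤ D ^ 2 := pow_le_pow_left₀ (norm_nonneg _) c1 2
  have t3n0 : 0 ≤ ‖δx‖ ^ 2 := by positivity
  have t3 : |2 * ⟪τ.rx p, δx⟫_ℝ - ‖δx‖ ^ 2| ≤ 2 * D + D ^ 2 := by
    rw [abs_le]
    constructor <;> linarith [t3i.1, t3i.2]
  have t4 := abs_le.mp (ph_pv_abs_mul_le hτ.hk t3)
  have t5 := abs_le.mp (ph_pv_abs_mul_le hτ.hk c2)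
  have t6i := abs_le.mp (ph_pv_abs_inner_le hV c1)
  have t6 : |2 * ⟪τ.rV p, δx⟫_ℝ| ≤ 2 * D := by
    rw [abs_le]
    constructor <;> linarith [t6i.1, t6i.2]
  have t7 := abs_le.mp (ph_pv_abs_mul_le hτ.hk t6)
  have hF' := abs_le.mp hF
  have hG' := abs_le.mp hG
  have f1 : |τ.FF 0 (τ.rx p - δx) (τ.rz p - δw)| ≤ 701 * Q := by
    rw [e1, abs_le]
    constructor <;> linarith [t1.1, t1.2, t2.1, t2.2, t4.1, t4.2, hF'.1, hF'.2]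
  have g1 : |τ.GG 0 (τ.rx p - δx) (τ.rz p - δw) (τ.rV p)| ≤ 501 * Q := by
    rw [e2, abs_le]
    constructor <;> linarith [t5.1, t5.2, t7.1, t7.2, hG'.1, hG'.2]
  have hQ0 : 0 ≤ Q := hD0.trans hDQ
  have e6 : 6000 * Λ ^ 2 * τ.f = 6000 * Q := by rw [hQ]; ring
  rw [e6]
  constructor
  · have h1 := ph_pv_abs_mul_le hu10 g1
    refine (abs_add_le _ _).trans ?_
    linarith
  · linarith

/-! ### PV3 : Jacobians -/

/-- first substitution: an affine map of the plane depending measurably on the last coordinate -/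
theorem ph_pv_shear1 (ρ : ℝ) (hρ : 0 < ρ) (b : ℝ → E2) (hb : Measurable b) (S : Set (E2 × ℝ)) (hS : MeasurableSet S) :
    MeasurableSet {ζ : E2 × ℝ | (ρ⁻¹ • (ζ.1 - b ζ.2), ζ.2) ∈ S} ∧
    volume {ζ : E2 × ℝ | (ρ⁻¹ • (ζ.1 - b ζ.2), ζ.2) ∈ S} = ENNReal.ofReal (ρ ^ 2) * volume S := by
  have hΦ : Measurable fun ζ : E2 × ℝ => (ρ⁻¹ • (ζ.1 - b ζ.2), ζ.2) :=
    ((measurable_fst.sub (hb.comp measurable_snd)).const_smul ρ⁻¹).prodMk measurable_snd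
  have hm : MeasurableSet {ζ : E2 × ℝ | (ρ⁻¹ • (ζ.1 - b ζ.2), ζ.2) ∈ S} := hΦ hS
  refine ⟨hm, ?_⟩
  rw [Measure.volume_eq_prod, Measure.prod_apply_symm hm, Measure.prod_apply_symm hS,
    ← lintegral_const_mul' _ _ ENNReal.ofReal_ne_top]
  refine lintegral_congr fun t => ?_
  have e1 : (fun x : E2 => (x, t)) ⁻¹' {ζ : E2 × ℝ | (ρ⁻¹ • (ζ.1 - b ζ.2), ζ.2) ∈ S}
      = (fun z : E2 => z + -b t) ⁻¹' ((fun z : E2 => ρ⁻¹ • z) ⁻¹' ((fun x : E2 => (x, t)) ⁻¹' S)) := by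
    ext z
    simp only [Set.mem_preimage, Set.mem_ofPred_eq, sub_eq_add_neg]
  rw [e1, measure_preimage_add_right, Measure.addHaar_preimage_smul _ (inv_ne_zero hρ.ne'), finrank_euclideanSpace_fin]
  congr 2
  rw [inv_pow, inv_inv, abs_of_pos (by positivity)]

/-- second substitution: an affine map of the last coordinate depending measurably on the plane -/
theorem ph_pv_shear2 (lam : ℝ) (hlam : lam ≠ 0) (c : E2 → ℝ) (hc : Measurable c) (S : Set (E2 × ℝ)) (hS : MeasurableSet S) :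
    MeasurableSet {ζ : E2 × ℝ | (ζ.1, lam * ζ.2 + c ζ.1) ∈ S} ∧
    volume {ζ : E2 × ℝ | (ζ.1, lam * ζ.2 + c ζ.1) ∈ S} = ENNReal.ofReal |lam⁻¹| * volume S := by
  have hΦ : Measurable fun ζ : E2 × ℝ => (ζ.1, lam * ζ.2 + c ζ.1) :=
    measurable_fst.prodMk ((measurable_snd.const_mul lam).add (hc.comp measurable_fst))
  have hm : MeasurableSet {ζ : E2 × ℝ | (ζ.1, lam * ζ.2 + c ζ.1) ∈ S} := hΦ hS
  refine ⟨hm, ?_⟩
  rw [Measure.volume_eq_prod, Measure.prod_apply hm, Measure.prod_apply hS,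
    ← lintegral_const_mul' _ _ ENNReal.ofReal_ne_top]
  refine lintegral_congr fun X => ?_
  have e1 : Prod.mk X ⁻¹' {ζ : E2 × ℝ | (ζ.1, lam * ζ.2 + c ζ.1) ∈ S}
      = (fun t : ℝ => lam * t) ⁻¹' ((fun t : ℝ => t + c X) ⁻¹' (Prod.mk X ⁻¹' S)) := by
    ext t
    simp only [Set.mem_preimage, Set.mem_ofPred_eq]
  rw [e1, Real.volume_preimage_mul_left hlam, measure_preimage_add_right]

/-- (phys-slice-jacobian), as an inequality.   PLAN: Tonelli on `E2 × ℝ`; for fixed `z₃` the substitution `z_⊥ = r X + bs + u As` (`Measure.addHaar_preimage_smul`/`lintegral_comp_smul`-type, factor `r²`),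
swap, for fixed `X` the affine substitution `z₃ ↦ W` (factor `r²/(1+|As|²) ≤ r²`). -/
theorem ph_pv_vol1 (τ : PvT) (hr : 0 < τ.r) (T : ℝ) (S : Set (E2 × ℝ)) (hS : MeasurableSet S) :
    volume {ζ : E2 × ℝ | (τ.pX T ζ, τ.pW T ζ) ∈ S} ≤ ENNReal.ofReal (τ.r ^ 4) * volume S := by
  set κ : ℝ := 1 + ‖τ.As‖ ^ 2 with hκ
  have hκ1 : 1 ≤ κ := by
    have : 0 ≤ ‖τ.As‖ ^ 2 := by positivity
    linarith
  set lam : ℝ := -κ / τ.r ^ 2 with hlam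
  have hlam0 : lam ≠ 0 := by
    rw [hlam]
    have : 0 < κ := by linarith
    have h2 : 0 < τ.r ^ 2 := by positivity
    exact div_ne_zero (neg_ne_zero.mpr this.ne') h2.ne'
  set c : E2 → ℝ := fun X => (-τ.ys - 2 * τ.r * ⟪τ.As, X⟫_ℝ + T * ‖τ.As‖ ^ 2) / τ.r ^ 2 with hc
  have hcm : Measurable c := by
    have : Continuous c := by
      rw [hc]
      fun_prop
    exact this.measurable
  set b : ℝ → E2 := fun t => τ.bs + (t - T) • τ.As with hb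
  have hbm : Measurable b := by
    have : Continuous b := by
      rw [hb]
      fun_prop
    exact this.measurable
  obtain ⟨hm2, hv2⟩ := ph_pv_shear2 lam hlam0 c hcm S hS
  obtain ⟨-, hv1⟩ := ph_pv_shear1 τ.r hr b hbm _ hm2
  have hset : {ζ : E2 × ℝ | (τ.pX T ζ, τ.pW T ζ) ∈ S}
      = {ζ : E2 × ℝ | (τ.r⁻¹ • (ζ.1 - b ζ.2), ζ.2) ∈ {ξ : E2 × ℝ | (ξ.1, lam * ξ.2 + c ξ.1) ∈ S}} := by
    ext ζ
    simp only [Set.mem_ofPred_eq]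
    have e1 : τ.pX T ζ = τ.r⁻¹ • (ζ.1 - b ζ.2) := by
      rw [PvT.pX, hb]
      simp only
      rw [sub_sub]
    have e2 : τ.pW T ζ = lam * ζ.2 + c (τ.r⁻¹ • (ζ.1 - b ζ.2)) := by
      rw [PvT.pW, hc, hlam, hb, hκ]
      simp only
      simp only [inner_smul_right, ← sub_sub, inner_sub_right, real_inner_self_eq_norm_sq]
      field_simp
      ring
    rw [e1, e2]
  rw [hset, hv1, hv2, ← mul_assoc]
  gcongr
  rw [← ENNReal.ofReal_mul (by positivity)]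
  apply ENNReal.ofReal_le_ofReal
  have h1 : |lam⁻¹| = τ.r ^ 2 / κ := by
    rw [hlam, inv_div, abs_div, abs_neg, abs_of_pos (by positivity : (0 : ℝ) < τ.r ^ 2), abs_of_pos (by linarith : (0 : ℝ) < κ)]
  rw [h1]
  have h2 : τ.r ^ 2 / κ ≤ τ.r ^ 2 := div_le_self (by positivity) hκ1
  calc τ.r ^ 2 * (τ.r ^ 2 / κ) ≤ τ.r ^ 2 * τ.r ^ 2 := by gcongr
    _ = τ.r ^ 4 := by ring

theorem ph_pv_vol2 (τ : PvT) (hr : 0 < τ.r) (S : Set (E2 × ℝ)) (hS : MeasurableSet S) :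
    volume {ζ : E2 × ℝ | (τ.pX' ζ, τ.pW' ζ) ∈ S} ≤ ENNReal.ofReal (τ.r ^ 4) * volume S := by
  set lam : ℝ := -1 / τ.r ^ 2 with hlam
  have hlam0 : lam ≠ 0 := by
    rw [hlam]
    have h2 : 0 < τ.r ^ 2 := by positivity
    exact div_ne_zero (by norm_num) h2.ne'
  obtain ⟨hm2, hv2⟩ := ph_pv_shear2 lam hlam0 (fun _ => -τ.ys / τ.r ^ 2) measurable_const S hS
  obtain ⟨-, hv1⟩ := ph_pv_shear1 τ.r hr (fun _ => τ.bs) measurable_const _ hm2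
  have hset : {ζ : E2 × ℝ | (τ.pX' ζ, τ.pW' ζ) ∈ S}
      = {ζ : E2 × ℝ | (τ.r⁻¹ • (ζ.1 - τ.bs), ζ.2) ∈ {ξ : E2 × ℝ | (ξ.1, lam * ξ.2 + -τ.ys / τ.r ^ 2) ∈ S}} := by
    ext ζ
    simp only [Set.mem_ofPred_eq]
    have e2 : τ.pW' ζ = lam * ζ.2 + -τ.ys / τ.r ^ 2 := by
      rw [PvT.pW', hlam]
      field_simp
      ring
    rw [e2, PvT.pX']
  rw [hset, hv1, hv2, ← mul_assoc]
  gcongr
  rw [← ENNReal.ofReal_mul (by positivity)]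
  apply ENNReal.ofReal_le_ofReal
  have h1 : |lam⁻¹| = τ.r ^ 2 := by
    rw [hlam, inv_div, abs_div, abs_neg, abs_one, div_one, abs_of_pos (by positivity : (0 : ℝ) < τ.r ^ 2)]
  rw [h1]
  apply le_of_eq
  ring

/-- volume of a box in `E2 × ℝ` -/
theorem ph_pv_box_vol (R₁ R₂ : ℝ) (h₁ : 0 ≤ R₁) (h₂ : 0 ≤ R₂) :
    volume {v : E2 × ℝ | ‖v.1‖ ≤ R₁ ∧ |v.2| ≤ R₂} ≤ ENNReal.ofReal (8 * R₁ ^ 2 * R₂) := by
  have hset : {v : E2 × ℝ | ‖v.1‖ ≤ R₁ ∧ |v.2| ≤ R₂} = Metric.closedBall (0 : E2) R₁ ×ˢ Set.Icc (-R₂) R₂ := by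
    ext v
    simp only [Set.mem_ofPred_eq, Set.mem_prod, mem_closedBall_zero_iff, Set.mem_Icc, abs_le]
  rw [hset, Measure.volume_eq_prod, Measure.prod_prod, EuclideanSpace.volume_closedBall_fin_two, Real.volume_Icc,
    ← ENNReal.ofReal_pow h₁, ← ENNReal.ofReal_mul (by positivity), ← ENNReal.ofReal_mul (by positivity)]
  apply ENNReal.ofReal_le_ofReal
  have hpi : Real.pi ≤ 4 := Real.pi_le_four
  have h3 : 0 ≤ R₁ ^ 2 * R₂ := by positivity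
  nlinarith

/-! ### PV4 : the crude bounds -/

/-- the common end of the two crude bounds -/
theorem ph_pv_crude_aux (τ : PvT) (hr : 0 < τ.r) {Λ T : ℝ} (hΛ : 1 ≤ Λ) (E : Set (E2 × ℝ))
    (hE : ∀ ζ ∈ E, ‖τ.pX T ζ‖ ≤ 11 + Λ ∧ |τ.pW T ζ| ≤ 11 + 3 * Λ) :
    volume E ≤ ENNReal.ofReal (20000 * Λ ^ 3 * τ.r ^ 4) := by
  have hSm : MeasurableSet {v : E2 × ℝ | ‖v.1‖ ≤ 11 + Λ ∧ |v.2| ≤ 11 + 3 * Λ} := by
    have m1 : MeasurableSet {v : E2 × ℝ | ‖v.1‖ ≤ 11 + Λ} := measurableSet_le (by fun_prop) measurable_const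
    have m2 : MeasurableSet {v : E2 × ℝ | |v.2| ≤ 11 + 3 * Λ} := measurableSet_le (by fun_prop) measurable_const
    exact m1.inter m2
  calc volume E ≤ volume {ζ : E2 × ℝ | (τ.pX T ζ, τ.pW T ζ) ∈ {v : E2 × ℝ | ‖v.1‖ ≤ 11 + Λ ∧ |v.2| ≤ 11 + 3 * Λ}} :=
        measure_mono fun ζ hζ => hE ζ hζ
    _ ≤ ENNReal.ofReal (τ.r ^ 4) * volume {v : E2 × ℝ | ‖v.1‖ ≤ 11 + Λ ∧ |v.2| ≤ 11 + 3 * Λ} := ph_pv_vol1 τ hr T _ hSm
    _ ≤ ENNReal.ofReal (τ.r ^ 4) * ENNReal.ofReal (8 * (11 + Λ) ^ 2 * (11 + 3 * Λ)) := by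
        gcongr
        exact ph_pv_box_vol _ _ (by linarith) (by linarith)
    _ ≤ ENNReal.ofReal (20000 * Λ ^ 3 * τ.r ^ 4) := by
        rw [← ENNReal.ofReal_mul (by positivity)]
        apply ENNReal.ofReal_le_ofReal
        have h1 : (11 + Λ) ^ 2 ≤ (12 * Λ) ^ 2 := by
          apply pow_le_pow_left₀ (by linarith)
          linarith
        have h2 : 11 + 3 * Λ ≤ 14 * Λ := by linarith
        have h3 : 8 * (11 + Λ) ^ 2 * (11 + 3 * Λ) ≤ 8 * (12 * Λ) ^ 2 * (14 * Λ) := by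
          gcongr
        have h4 : 8 * (12 * Λ) ^ 2 * (14 * Λ) ≤ 20000 * Λ ^ 3 := by
          have : 0 ≤ Λ ^ 3 := by positivity
          nlinarith
        have h5 : 0 ≤ τ.r ^ 4 := by positivity
        calc τ.r ^ 4 * (8 * (11 + Λ) ^ 2 * (11 + 3 * Λ)) ≤ τ.r ^ 4 * (20000 * Λ ^ 3) :=
              mul_le_mul_of_nonneg_left (h3.trans h4) h5
          _ = 20000 * Λ ^ 3 * τ.r ^ 4 := by ring

/-- **round tests** -/
theorem ph_pv_round (τ : PvT) (hτ : τ.Ok) {Λ H T A1 : ℝ} (hH : 0 < H) (hΛ : 1 ≤ Λ) (hT : |T| ≤ 4) (hu : Real.sqrt H ≤ τ.r) :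
    volume (pvE0 τ Λ H T A1) ≤ ENNReal.ofReal (20000 * Λ ^ 3 * τ.r ^ 4) := by
  refine ph_pv_crude_aux τ hτ.hr (T := T) hΛ _ ?_
  rintro ζ ⟨-, hζ2, p, hp, -, hrel⟩
  exact ph_pv_transport0 τ hτ hH hΛ hT hu hζ2 hp hrel

theorem ph_pv_crude (τ : PvT) (hτ : τ.Ok) {Λ H T A1 : ℝ} (hH : 0 < H) (hΛ : 1 ≤ Λ) (hT : |T| ≤ 4) (hu : Real.sqrt H ≤ τ.r * τ.f) :
    volume (pvE τ Λ H T A1) ≤ ENNReal.ofReal (20000 * Λ ^ 3 * τ.r ^ 4) := by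
  refine ph_pv_crude_aux τ hτ.hr (T := T) hΛ _ ?_
  rintro ζ ⟨-, hζ2, p, hp, -, hrel⟩
  obtain ⟨h1, h2, -, -⟩ := ph_pv_transport τ hτ hH hΛ hT hu hζ2 hp hrel
  have hf : Λ * τ.f ≤ Λ := by
    have := hτ.hf1
    nlinarith
  exact ⟨by linarith, by linarith⟩

/-! ### PV5 : the gradient bounds -/

/-- the full gradient is bounded below on the thin set -/
theorem ph_pv_g_low (τ : PvT) (hτ : τ.Ok) {u q : ℝ} {X V : E2} {W : ℝ} (hu : |u| ≤ 10)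
    (hF : |τ.FF u X W| ≤ q) (hG : |τ.GG u X W V| ≤ q) (hq : q ≤ 1 / 6400) :
    |τ.be + τ.k * u| ≤ 1100 ∧ 1 / 2 ≤ ‖τ.al - (2 * τ.k) • X + (2 * (τ.be + τ.k * u)) • V‖ := by
  have h1 : |τ.be + τ.k * u| ≤ 1100 := by
    refine (abs_add_le _ _).trans ?_
    have := ph_pv_abs_mul_le hτ.hk hu
    linarith [hτ.hbe]
  refine ⟨h1, ?_⟩
  have h2 := ph_pv_disc τ hτ.disc u X W V
  have h3 := abs_le.mp (ph_pv_abs_mul_le h1 hG)
  have h4 := abs_le.mp (ph_pv_abs_mul_le hτ.hk hF)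
  by_contra hcon
  rw [not_le] at hcon
  have h5 : ‖τ.al - (2 * τ.k) • X + (2 * (τ.be + τ.k * u)) • V‖ ^ 2 < 1 / 4 := by
    nlinarith [norm_nonneg (τ.al - (2 * τ.k) • X + (2 * (τ.be + τ.k * u)) • V)]
  rw [h2] at h5
  linarith [h3.1, h4.2]

/-- bounded widths.   PLAN: `g = F_x + 2 V F_w`, `‖g‖² ≥ 1 - 4800 q ≥ 1/4` (`ph_pv_disc`, `|be + k u| ≤ 1100`).   With `A = As + r V`, `κ = (1+|A|²)/(1+|As|²)`:
`GG = κ F_u + <V, hX> + |V|² hW`, `g = hX + 2 hW V + (2 r F_u/(1+|As|²)) A`, `F_u = d + k W`; hence `g = hX + 2 hW V + (2 r/(1+|A|²)) (GG - <V,hX> - |V|² hW) A` and `2|A| ≤ 1+|A|²`. -/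
theorem ph_pv_grad1 (τ : PvT) (hτ : τ.Ok) {u q : ℝ} {X V : E2} {W : ℝ} (hu : |u| ≤ 10) (hV : ‖V‖ ≤ 1)
    (hF : |τ.FF u X W| ≤ q) (hG : |τ.GG u X W V| ≤ q) (hq : q ≤ 1 / 6400) (hrq : τ.r * q ≤ 1 / 4) :
    1 / 4 ≤ (1 + τ.r) * ‖τ.hX X W‖ + (2 + τ.r) * |τ.hW u W| := by
  obtain ⟨-, hg⟩ := ph_pv_g_low τ hτ hu hF hG hq
  have hr := hτ.hr
  have hκ : (1 + ‖τ.As‖ ^ 2) ≠ 0 := by positivity
  obtain ⟨m, hm⟩ : ∃ m, m = (τ.d + τ.k * W) / (1 + ‖τ.As‖ ^ 2) := ⟨_, rfl⟩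
  have i1 : τ.al - (2 * τ.k) • X + (2 * (τ.be + τ.k * u)) • V
      = τ.hX X W + (2 * τ.hW u W) • V + (2 * τ.r * m) • (τ.As + τ.r • V) := by
    rw [hm]
    ext i
    simp only [PvT.hX, PvT.hW, PiLp.add_apply, PiLp.sub_apply, PiLp.smul_apply, smul_eq_mul]
    field_simp
    ring
  have i2 : τ.GG u X W V - ⟪V, τ.hX X W⟫_ℝ - ‖V‖ ^ 2 * τ.hW u W = m * (1 + ‖τ.As + τ.r • V‖ ^ 2) := by
    rw [hm, norm_add_sq_real, inner_smul_right, norm_smul, mul_pow, Real.norm_eq_abs, sq_abs]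
    simp only [PvT.GG, PvT.hX, PvT.hW, inner_sub_right, inner_smul_right]
    rw [real_inner_comm V τ.As]
    field_simp
    ring
  have hV2 : ‖V‖ ^ 2 ≤ 1 := pow_le_one₀ (norm_nonneg _) hV
  have j1 : |⟪V, τ.hX X W⟫_ℝ| ≤ 1 * ‖τ.hX X W‖ := ph_pv_abs_inner_le hV le_rfl
  have j2 : |‖V‖ ^ 2 * τ.hW u W| ≤ 1 * |τ.hW u W| := ph_pv_abs_mul_le (by rwa [abs_of_nonneg (by positivity)]) le_rfl
  have j3 : |m| * (1 + ‖τ.As + τ.r • V‖ ^ 2) ≤ q + ‖τ.hX X W‖ + |τ.hW u W| := by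
    have : |m * (1 + ‖τ.As + τ.r • V‖ ^ 2)| = |m| * (1 + ‖τ.As + τ.r • V‖ ^ 2) := by
      rw [abs_mul, abs_of_pos (by positivity : (0 : ℝ) < 1 + ‖τ.As + τ.r • V‖ ^ 2)]
    rw [← this, ← i2]
    have k1 := abs_sub (τ.GG u X W V - ⟪V, τ.hX X W⟫_ℝ) (‖V‖ ^ 2 * τ.hW u W)
    have k2 := abs_sub (τ.GG u X W V) (⟪V, τ.hX X W⟫_ℝ)
    linarith
  have j4 : |m| * (2 * ‖τ.As + τ.r • V‖) ≤ |m| * (1 + ‖τ.As + τ.r • V‖ ^ 2) := by
    refine mul_le_mul_of_nonneg_left ?_ (abs_nonneg _)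
    nlinarith [sq_nonneg (‖τ.As + τ.r • V‖ - 1)]
  have j5 : ‖(2 * τ.r * m) • (τ.As + τ.r • V)‖ ≤ τ.r * (q + ‖τ.hX X W‖ + |τ.hW u W|) := by
    rw [norm_smul, Real.norm_eq_abs, abs_mul, abs_mul, abs_two, abs_of_pos hr]
    calc 2 * τ.r * |m| * ‖τ.As + τ.r • V‖ = τ.r * (|m| * (2 * ‖τ.As + τ.r • V‖)) := by ring
      _ ≤ _ := mul_le_mul_of_nonneg_left (j4.trans j3) hr.le
  have j6 : ‖(2 * τ.hW u W) • V‖ ≤ 2 * |τ.hW u W| := by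
    rw [norm_smul, Real.norm_eq_abs, abs_mul, abs_two]
    calc 2 * |τ.hW u W| * ‖V‖ ≤ 2 * |τ.hW u W| * 1 := mul_le_mul_of_nonneg_left hV (by positivity)
      _ = _ := mul_one _
  rw [i1] at hg
  have k1 := norm_add_le (τ.hX X W + (2 * τ.hW u W) • V) ((2 * τ.r * m) • (τ.As + τ.r • V))
  have k2 := norm_add_le (τ.hX X W) ((2 * τ.hW u W) • V)
  nlinarith

/-- large widths.   PLAN: `F_x - 2 F_w B = g - 2 F_w (V + B) = g - (2 F_w / r) A`, `B = As/r`, `A = As + r V`, `|F_w| ≤ 1100`, `|A| ≤ A1`, `r ≥ 8800 A1 + 1`. -/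
theorem ph_pv_grad2 (τ : PvT) (hτ : τ.Ok) {u q A1 : ℝ} {X V : E2} {W : ℝ} (hu : |u| ≤ 10)
    (hF : |τ.FF u X W| ≤ q) (hG : |τ.GG u X W V| ≤ q) (hq : q ≤ 1 / 6400) (hA : ‖τ.As + τ.r • V‖ ≤ A1) (hr : 8800 * A1 + 1 ≤ τ.r) :
    1 / 4 ≤ ‖τ.al - (2 * τ.k) • X - (2 * (τ.be + τ.k * u)) • (τ.r⁻¹ • τ.As)‖ := by
  obtain ⟨hw, hg⟩ := ph_pv_g_low τ hτ hu hF hG hq
  have hr0 := hτ.hr
  have hA0 : 0 ≤ A1 := (norm_nonneg _).trans hA
  have i1 : τ.al - (2 * τ.k) • X - (2 * (τ.be + τ.k * u)) • (τ.r⁻¹ • τ.As)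
      = (τ.al - (2 * τ.k) • X + (2 * (τ.be + τ.k * u)) • V) - (2 * (τ.be + τ.k * u) / τ.r) • (τ.As + τ.r • V) := by
    ext i
    simp only [PiLp.add_apply, PiLp.sub_apply, PiLp.smul_apply, smul_eq_mul]
    field_simp
    ring
  have j1 : ‖(2 * (τ.be + τ.k * u) / τ.r) • (τ.As + τ.r • V)‖ ≤ 1 / 4 := by
    rw [norm_smul, Real.norm_eq_abs, abs_div, abs_mul, abs_two, abs_of_pos hr0, div_mul_eq_mul_div, div_le_iff₀ hr0]
    calc 2 * |τ.be + τ.k * u| * ‖τ.As + τ.r • V‖ ≤ 2 * 1100 * A1 :=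
          mul_le_mul (by linarith) hA (norm_nonneg _) (by norm_num)
      _ ≤ 1 / 4 * τ.r := by linarith
  rw [i1]
  have k1 := norm_sub_norm_le (τ.al - (2 * τ.k) • X + (2 * (τ.be + τ.k * u)) • V) ((2 * (τ.be + τ.k * u) / τ.r) • (τ.As + τ.r • V))
  linarith

/-! ### PV6 : sublevel sets -/

/-- one monotone branch: on a measurable set where `φ` is injective and `|φ| ≤ q`, the integral of `|φ'|` is at most `2q` -/
theorem ph_pv_sub1_branch (a0 a1 a2 q : ℝ) (s : Set ℝ) (hs : MeasurableSet s) (hinj : Set.InjOn (fun t : ℝ => a0 + a1 * t + a2 * t ^ 2) s)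
    (hse : ∀ t ∈ s, |a0 + a1 * t + a2 * t ^ 2| ≤ q) : ∫⁻ t in s, ENNReal.ofReal |a1 + 2 * a2 * t| ≤ ENNReal.ofReal (2 * q) := by
  have hd : ∀ t ∈ s, HasDerivWithinAt (fun t : ℝ => a0 + a1 * t + a2 * t ^ 2) (a1 + 2 * a2 * t) s t := by
    intro t _
    have h1 : HasDerivAt (fun t : ℝ => a0 + a1 * t + a2 * t ^ 2) (a1 * 1 + a2 * (2 * t)) t := by
      have h2 : HasDerivAt (fun t : ℝ => t ^ 2) (2 * t) t := by simpa using hasDerivAt_pow 2 t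
      exact (((hasDerivAt_id t).const_mul a1).const_add a0).add (h2.const_mul a2)
    have e1 : a1 * 1 + a2 * (2 * t) = a1 + 2 * a2 * t := by ring
    rw [e1] at h1
    exact h1.hasDerivWithinAt
  have h := lintegral_image_eq_lintegral_abs_deriv_mul hs hd hinj (fun _ => 1)
  simp only [mul_one, lintegral_const, Measure.restrict_apply MeasurableSet.univ, Set.univ_inter, one_mul] at h
  rw [← h]
  calc volume ((fun t : ℝ => a0 + a1 * t + a2 * t ^ 2) '' s) ≤ volume (Set.Icc (-q) q) := by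
        apply measure_mono
        rintro _ ⟨t, ht, rfl⟩
        exact abs_le.mp (hse t ht)
    _ = ENNReal.ofReal (2 * q) := by
        rw [Real.volume_Icc]
        congr 1
        ring

/-- one variable.   PLAN: `{φ' ≥ c}` and `{φ' ≤ -c}` are intervals (`φ'` is affine); on each, two points `s < s'` of the set satisfy `c (s' - s) ≤ |φ s' - φ s| ≤ 2 q`
(`φ s' - φ s = (s' - s)(φ' s + φ' s')/2`), so the set lies in an interval of length `2q/c`. -/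
theorem ph_pv_sub1 (a0 a1 a2 : ℝ) {c q : ℝ} (hc : 0 < c) (hq : 0 ≤ q) :
    volume {s : ℝ | |a0 + a1 * s + a2 * s ^ 2| ≤ q ∧ c ≤ |a1 + 2 * a2 * s|} ≤ ENNReal.ofReal (4 * q / c) := by
  have hcφ : Continuous fun t : ℝ => |a0 + a1 * t + a2 * t ^ 2| := by fun_prop
  have hcd : Continuous fun t : ℝ => a1 + 2 * a2 * t := by fun_prop
  set P : Set ℝ := {s : ℝ | |a0 + a1 * s + a2 * s ^ 2| ≤ q ∧ c ≤ a1 + 2 * a2 * s} with hP
  set N : Set ℝ := {s : ℝ | |a0 + a1 * s + a2 * s ^ 2| ≤ q ∧ a1 + 2 * a2 * s ≤ -c} with hN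
  have hPm : MeasurableSet P :=
    (isClosed_le hcφ continuous_const).measurableSet.inter (isClosed_le continuous_const hcd).measurableSet
  have hNm : MeasurableSet N :=
    (isClosed_le hcφ continuous_const).measurableSet.inter (isClosed_le hcd continuous_const).measurableSet
  have hfac : ∀ x y : ℝ, (a0 + a1 * x + a2 * x ^ 2) - (a0 + a1 * y + a2 * y ^ 2)
      = (x - y) * (((a1 + 2 * a2 * x) + (a1 + 2 * a2 * y)) / 2) := by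
    intro x y; ring
  have hPi := ph_pv_sub1_branch a0 a1 a2 q P hPm (by
    intro x hx y hy hxy
    have h1 : c ≤ a1 + 2 * a2 * x := hx.2
    have h2 : c ≤ a1 + 2 * a2 * y := hy.2
    have h3 := hfac x y
    simp only at hxy
    rw [hxy, sub_self] at h3
    have h4 : ((a1 + 2 * a2 * x) + (a1 + 2 * a2 * y)) / 2 ≠ 0 := by
      have : 0 < ((a1 + 2 * a2 * x) + (a1 + 2 * a2 * y)) / 2 := by linarith
      exact this.ne'
    rcases mul_eq_zero.mp h3.symm with h5 | h5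
    · linarith
    · exact absurd h5 h4) (fun t ht => ht.1)
  have hNi := ph_pv_sub1_branch a0 a1 a2 q N hNm (by
    intro x hx y hy hxy
    have h1 : a1 + 2 * a2 * x ≤ -c := hx.2
    have h2 : a1 + 2 * a2 * y ≤ -c := hy.2
    have h3 := hfac x y
    simp only at hxy
    rw [hxy, sub_self] at h3
    have h4 : ((a1 + 2 * a2 * x) + (a1 + 2 * a2 * y)) / 2 ≠ 0 := by
      have : ((a1 + 2 * a2 * x) + (a1 + 2 * a2 * y)) / 2 < 0 := by linarith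
      exact this.ne
    rcases mul_eq_zero.mp h3.symm with h5 | h5
    · linarith
    · exact absurd h5 h4) (fun t ht => ht.1)
  have hmk : ∀ (Q : Set ℝ), MeasurableSet Q → (∀ t ∈ Q, c ≤ |a1 + 2 * a2 * t|) →
      ∫⁻ t in Q, ENNReal.ofReal |a1 + 2 * a2 * t| ≤ ENNReal.ofReal (2 * q) → volume Q ≤ ENNReal.ofReal (2 * q / c) := by
    intro Q hQm hQ hI
    rw [ENNReal.ofReal_div_of_pos hc, ENNReal.le_div_iff_mul_le (Or.inl (by simpa using hc)) (Or.inl ENNReal.ofReal_ne_top)]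
    calc volume Q * ENNReal.ofReal c = ∫⁻ _t in Q, ENNReal.ofReal c := by rw [setLIntegral_const, mul_comm]
      _ ≤ ∫⁻ t in Q, ENNReal.ofReal |a1 + 2 * a2 * t| := setLIntegral_mono' hQm fun t ht => ENNReal.ofReal_le_ofReal (hQ t ht)
      _ ≤ _ := hI
  have hPv := hmk P hPm (fun t ht => le_trans ht.2 (le_abs_self _)) hPi
  have hNv := hmk N hNm (fun t ht => by
    have : a1 + 2 * a2 * t ≤ -c := ht.2
    have h2 := neg_abs_le (a1 + 2 * a2 * t)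
    linarith) hNi
  calc volume {s : ℝ | |a0 + a1 * s + a2 * s ^ 2| ≤ q ∧ c ≤ |a1 + 2 * a2 * s|} ≤ volume (P ∪ N) := by
        apply measure_mono
        intro t ht
        rcases le_abs.mp ht.2 with h | h
        · exact Or.inl ⟨ht.1, h⟩
        · exact Or.inr ⟨ht.1, by linarith⟩
    _ ≤ volume P + volume N := measure_union_le _ _
    _ ≤ ENNReal.ofReal (2 * q / c) + ENNReal.ofReal (2 * q / c) := add_le_add hPv hNv
    _ = ENNReal.ofReal (4 * q / c) := by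
        rw [← ENNReal.ofReal_add (by positivity) (by positivity)]
        congr 1
        ring

/-- Tonelli.   (`Measure.prod_apply`, `lintegral_mono`, `ph_pv_sub1`.) -/
theorem ph_pv_slice {α : Type*} [MeasurableSpace α] (μ : Measure α) [SFinite μ] (B : Set α) (hB : MeasurableSet B) (h g : α × ℝ → ℝ)
    (hh : Measurable h) (hg : Measurable g)
    (hquad : ∀ a, ∃ a0 a1 a2 : ℝ, ∀ s, h (a, s) = a0 + a1 * s + a2 * s ^ 2 ∧ g (a, s) = a1 + 2 * a2 * s)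
    {c q : ℝ} (hc : 0 < c) (hq : 0 ≤ q) :
    (μ.prod volume) {v : α × ℝ | v.1 ∈ B ∧ |h v| ≤ q ∧ c ≤ |g v|} ≤ μ B * ENNReal.ofReal (4 * q / c) := by
  have hE : MeasurableSet {v : α × ℝ | v.1 ∈ B ∧ |h v| ≤ q ∧ c ≤ |g v|} :=
    (measurable_fst hB).inter ((measurableSet_le hh.abs measurable_const).inter (measurableSet_le measurable_const hg.abs))
  rw [Measure.prod_apply hE]
  calc ∫⁻ a, volume (Prod.mk a ⁻¹' {v : α × ℝ | v.1 ∈ B ∧ |h v| ≤ q ∧ c ≤ |g v|}) ∂μ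
      ≤ ∫⁻ a, B.indicator (fun _ => ENNReal.ofReal (4 * q / c)) a ∂μ := by
        refine lintegral_mono fun a => ?_
        by_cases ha : a ∈ B
        · rw [Set.indicator_of_mem ha]
          obtain ⟨a0, a1, a2, hs⟩ := hquad a
          refine le_trans (measure_mono ?_) (ph_pv_sub1 a0 a1 a2 hc hq)
          intro s hs'
          have h1 : |h (a, s)| ≤ q := hs'.2.1
          have h2 : c ≤ |g (a, s)| := hs'.2.2
          rw [(hs s).1] at h1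
          rw [(hs s).2] at h2
          exact ⟨h1, h2⟩
        · rw [Set.indicator_of_notMem ha]
          have : Prod.mk a ⁻¹' {v : α × ℝ | v.1 ∈ B ∧ |h v| ≤ q ∧ c ≤ |g v|} = ∅ := by
            ext s
            simp only [Set.mem_preimage, Set.mem_ofPred_eq, Set.mem_empty_iff_false, iff_false]
            exact fun hh' => ha hh'.1
          rw [this]
          simp
    _ = μ B * ENNReal.ofReal (4 * q / c) := by
        rw [lintegral_indicator_const hB, mul_comm]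

/-- the plane as a product -/
noncomputable def phPvE (p : ℝ × ℝ) : E2 := WithLp.toLp 2 ![p.1, p.2]

theorem ph_pv_E_mp : MeasurePreserving phPvE volume volume :=
  (PiLp.volume_preserving_toLp (Fin 2)).comp (volume_preserving_finTwoArrow ℝ).symm

/-- slicing along a measure preserving parametrisation -/
theorem ph_pv_sliceX_aux (Ψ : (ℝ × ℝ) × ℝ → E2 × ℝ) (hΨ : MeasurePreserving Ψ volume volume) (i : Fin 2) {R : ℝ}
    (hshift : ∀ a s, Ψ (a, s) = ((Ψ (a, 0)).1 + s • EuclideanSpace.single i (1 : ℝ), (Ψ (a, 0)).2))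
    (hbd : ∀ a s, ‖(Ψ (a, s)).1‖ ≤ R → |(Ψ (a, s)).2| ≤ R → a ∈ Set.Icc (-R) R ×ˢ Set.Icc (-R) R)
    (h g : E2 × ℝ → ℝ) (hh : Measurable h) (hg : Measurable g)
    (hquad : ∀ v : E2 × ℝ, ∃ a0 a1 a2 : ℝ, ∀ s, h (v.1 + s • EuclideanSpace.single i (1 : ℝ), v.2) = a0 + a1 * s + a2 * s ^ 2 ∧
      g (v.1 + s • EuclideanSpace.single i (1 : ℝ), v.2) = a1 + 2 * a2 * s)
    {c q : ℝ} (hR : 0 ≤ R) (hc : 0 < c) (hq : 0 ≤ q) :
    volume {v : E2 × ℝ | ‖v.1‖ ≤ R ∧ |v.2| ≤ R ∧ |h v| ≤ q ∧ c ≤ |g v|} ≤ ENNReal.ofReal ((2 * R) ^ 2 * (4 * q / c)) := by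
  have hE : MeasurableSet {v : E2 × ℝ | ‖v.1‖ ≤ R ∧ |v.2| ≤ R ∧ |h v| ≤ q ∧ c ≤ |g v|} := by
    have m1 : MeasurableSet {v : E2 × ℝ | ‖v.1‖ ≤ R} := measurableSet_le (by fun_prop) measurable_const
    have m2 : MeasurableSet {v : E2 × ℝ | |v.2| ≤ R} := measurableSet_le (by fun_prop) measurable_const
    exact m1.inter (m2.inter ((measurableSet_le hh.abs measurable_const).inter (measurableSet_le measurable_const hg.abs)))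
  rw [← hΨ.measure_preimage hE.nullMeasurableSet]
  have hsl := ph_pv_slice (volume : Measure (ℝ × ℝ)) (Set.Icc (-R) R ×ˢ Set.Icc (-R) R) (measurableSet_Icc.prod measurableSet_Icc)
    (h ∘ Ψ) (g ∘ Ψ) (hh.comp hΨ.measurable) (hg.comp hΨ.measurable) (by
      intro a
      obtain ⟨a0, a1, a2, hs⟩ := hquad (Ψ (a, 0))
      refine ⟨a0, a1, a2, fun s => ?_⟩
      simp only [Function.comp_apply]
      rw [hshift a s]
      exact hs s) hc hq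
  refine le_trans (measure_mono ?_) (hsl.trans (le_of_eq ?_))
  · intro v hv
    obtain ⟨h1, h2, h3, h4⟩ := hv
    exact ⟨hbd v.1 v.2 h1 h2, h3, h4⟩
  · rw [Measure.volume_eq_prod, Measure.prod_prod, Real.volume_Icc, ← ENNReal.ofReal_mul (by linarith),
      ← ENNReal.ofReal_mul (by nlinarith)]
    congr 1
    ring

/-- slicing `E2 × ℝ` along the `i`-th coordinate of `E2`.   (`ph_pv_slice` with `α = ℝ × ℝ` after the measure preserving reordering `((x_j, W), x_i) ↦ (X, W)`: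
`EuclideanSpace.volume_preserving_measurableEquiv`, `volume_preserving_finTwoArrow`, `MeasurePreserving.prod`, `measurePreserving_swap`, `prodAssoc`.) -/
theorem ph_pv_sliceX (i : Fin 2) (h g : E2 × ℝ → ℝ) (hh : Measurable h) (hg : Measurable g)
    (hquad : ∀ v : E2 × ℝ, ∃ a0 a1 a2 : ℝ, ∀ s, h (v.1 + s • EuclideanSpace.single i (1 : ℝ), v.2) = a0 + a1 * s + a2 * s ^ 2 ∧
      g (v.1 + s • EuclideanSpace.single i (1 : ℝ), v.2) = a1 + 2 * a2 * s)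
    {R c q : ℝ} (hR : 0 ≤ R) (hc : 0 < c) (hq : 0 ≤ q) :
    volume {v : E2 × ℝ | ‖v.1‖ ≤ R ∧ |v.2| ≤ R ∧ |h v| ≤ q ∧ c ≤ |g v|} ≤ ENNReal.ofReal ((2 * R) ^ 2 * (4 * q / c)) := by
  have hcoord : ∀ (X : E2) (j : Fin 2), |X j| ≤ ‖X‖ := fun X j => by
    simpa using PiLp.norm_apply_le X j
  have hA := measurePreserving_prodAssoc (volume : Measure ℝ) (volume : Measure ℝ) (volume : Measure ℝ)
  have hEid : MeasurePreserving (Prod.map phPvE (id : ℝ → ℝ)) (volume : Measure ((ℝ × ℝ) × ℝ)) volume :=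
    ph_pv_E_mp.prod (MeasurePreserving.id volume)
  fin_cases i
  · -- `i = 0` : `((x₁, W), x₀) ↦ ((x₀, x₁), W)`
    have hsw : MeasurePreserving (Prod.swap : (ℝ × ℝ) × ℝ → ℝ × (ℝ × ℝ)) volume volume := Measure.measurePreserving_swap
    have hΨ : MeasurePreserving (fun v : (ℝ × ℝ) × ℝ => (phPvE (v.2, v.1.1), v.1.2)) volume volume :=
      hEid.comp (hA.symm.comp hsw)
    refine ph_pv_sliceX_aux _ hΨ 0 ?_ ?_ h g hh hg hquad hR hc hq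
    · intro a s
      ext j
      · fin_cases j <;> simp [phPvE]
      · rfl
    · intro a s h1 h2
      have := hcoord (phPvE (s, a.1)) 1
      simp only [phPvE] at this h1
      exact ⟨abs_le.mp (le_trans (by simpa using this) h1), abs_le.mp h2⟩
  · -- `i = 1` : `((x₀, W), x₁) ↦ ((x₀, x₁), W)`
    have hsw : MeasurePreserving (Prod.map (id : ℝ → ℝ) (Prod.swap : ℝ × ℝ → ℝ × ℝ)) (volume : Measure (ℝ × ℝ × ℝ)) volume :=
      (MeasurePreserving.id volume).prod Measure.measurePreserving_swap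
    have hΨ : MeasurePreserving (fun v : (ℝ × ℝ) × ℝ => (phPvE (v.1.1, v.2), v.1.2)) volume volume :=
      hEid.comp (hA.symm.comp (hsw.comp hA))
    refine ph_pv_sliceX_aux _ hΨ 1 ?_ ?_ h g hh hg hquad hR hc hq
    · intro a s
      ext j
      · fin_cases j <;> simp [phPvE]
      · rfl
    · intro a s h1 h2
      have := hcoord (phPvE (a.1, s)) 0
      simp only [phPvE] at this h1
      exact ⟨abs_le.mp (le_trans (by simpa using this) h1), abs_le.mp h2⟩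

/-! ### PV7 : the thin cases and the result -/

/-- the euclidean norm of the plane is at most the sum of the two coordinates (written with inner products) -/
theorem ph_pv_norm_le_coord (Y : E2) :
    ‖Y‖ ≤ |⟪EuclideanSpace.single (0 : Fin 2) (1 : ℝ), Y⟫_ℝ| + |⟪EuclideanSpace.single (1 : Fin 2) (1 : ℝ), Y⟫_ℝ| := by
  have e0 : ⟪EuclideanSpace.single (0 : Fin 2) (1 : ℝ), Y⟫_ℝ = Y 0 := by simp [EuclideanSpace.inner_single_left]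
  have e1 : ⟪EuclideanSpace.single (1 : Fin 2) (1 : ℝ), Y⟫_ℝ = Y 1 := by simp [EuclideanSpace.inner_single_left]
  rw [e0, e1, EuclideanSpace.norm_eq, Fin.sum_univ_two]
  apply Real.sqrt_le_iff.mpr
  refine ⟨by positivity, ?_⟩
  simp only [Real.norm_eq_abs, sq_abs]
  nlinarith [abs_nonneg (Y 0), abs_nonneg (Y 1), sq_abs (Y 0), sq_abs (Y 1)]

/-- the restriction of `FF` to the input plane -/
noncomputable def phPvH (τ : PvT) (T : ℝ) (v : E2 × ℝ) : ℝ := τ.FF (τ.uu T v.1 v.2) v.1 v.2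

theorem ph_pv_H_cont (τ : PvT) (T : ℝ) : Continuous (phPvH τ T) := by
  unfold phPvH PvT.FF PvT.uu
  fun_prop

theorem ph_pv_hX_cont (τ : PvT) (e : E2) : Continuous fun v : E2 × ℝ => ⟪e, τ.hX v.1 v.2⟫_ℝ := by
  unfold PvT.hX
  fun_prop

theorem ph_pv_hW_cont (τ : PvT) (T : ℝ) : Continuous fun v : E2 × ℝ => τ.hW (τ.uu T v.1 v.2) v.2 := by
  unfold PvT.hW PvT.uu
  fun_prop

/-- `phPvH` is quadratic along a unit direction of the plane, with derivative `⟪e, hX⟫` -/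
theorem ph_pv_H_quadX (τ : PvT) (T : ℝ) (e : E2) (he : ‖e‖ = 1) (v : E2 × ℝ) :
    ∃ a0 a1 a2 : ℝ, ∀ s, phPvH τ T (v.1 + s • e, v.2) = a0 + a1 * s + a2 * s ^ 2 ∧
      ⟪e, τ.hX (v.1 + s • e) v.2⟫_ℝ = a1 + 2 * a2 * s := by
  refine ⟨phPvH τ T v, ⟪e, τ.hX v.1 v.2⟫_ℝ, -τ.k, fun s => ?_⟩
  have hκ : (1 + ‖τ.As‖ ^ 2) ≠ 0 := by positivity
  have hee : ⟪e, e⟫_ℝ = 1 := by rw [real_inner_self_eq_norm_sq, he]; norm_num
  have hn : ‖v.1 + s • e‖ ^ 2 = ‖v.1‖ ^ 2 + 2 * (s * ⟪v.1, e⟫_ℝ) + s ^ 2 := by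
    rw [norm_add_sq_real, inner_smul_right, norm_smul, mul_pow, he, Real.norm_eq_abs, sq_abs]
    ring
  constructor
  · simp only [phPvH, PvT.FF, PvT.uu, PvT.hX, hn, inner_add_right, inner_smul_right, inner_sub_right]
    rw [real_inner_comm e v.1, real_inner_comm e τ.al, real_inner_comm e τ.As]
    field_simp
    ring
  · simp only [PvT.hX, inner_add_right, inner_smul_right, inner_sub_right, smul_add, hee]
    ring

/-- `phPvH` is quadratic in the last variable, with derivative `hW` -/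
theorem ph_pv_H_quadW (τ : PvT) (T : ℝ) (X : E2) :
    ∃ a0 a1 a2 : ℝ, ∀ s, phPvH τ T (X, s) = a0 + a1 * s + a2 * s ^ 2 ∧
      τ.hW (τ.uu T X s) s = a1 + 2 * a2 * s := by
  have hκ : (1 + ‖τ.As‖ ^ 2) ≠ 0 := by positivity
  refine ⟨phPvH τ T (X, 0), τ.hW (τ.uu T X 0) 0, -(τ.k * (τ.r ^ 2 / (1 + ‖τ.As‖ ^ 2))), fun s => ?_⟩
  constructor
  · simp only [phPvH, PvT.FF, PvT.uu, PvT.hW]
    field_simp
    ring
  · simp only [PvT.uu, PvT.hW]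
    field_simp
    ring

/-- thin tests of bounded width.
PLAN: `q = 6000 Λ² f`.  By `ph_pv_transport`, `ph_pv_plane`, `ph_pv_grad1` every `ζ ∈ E` has `(X,W) = (pX ζ, pW ζ)` in
`S = {‖X‖ ≤ 14, |W| ≤ 14, |h| ≤ q, c0 ≤ |∂₁h| ∨ c0 ≤ |∂₂h| ∨ c0 ≤ |∂_W h|}`, `h (X,W) = FF (uu X W) X W`, `∂_X h = hX X W`, `∂_W h = hW (uu X W) W`, `c0 = 1/(16 (3 + 2 R0))`
(`‖hX‖ ≤ |hX 0| + |hX 1|`);  `h` is a polynomial of degree `≤ 2`;  `ph_pv_sliceX` (`i = 0, 1`), `ph_pv_slice` (`α = E2`), `ph_pv_vol1`. -/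
theorem ph_pv_thin1 (R0 : ℝ) (hR0 : 1 ≤ R0) : ∃ C : ℝ, 0 ≤ C ∧ ∀ (τ : PvT), τ.Ok → ∀ {Λ H T A1 : ℝ}, 0 < H → 1 ≤ Λ → |T| ≤ 4 →
    Real.sqrt H ≤ τ.r * τ.f → τ.r ≤ R0 → 6000 * Λ ^ 2 * τ.f ≤ 1 / 6400 → R0 * (6000 * Λ ^ 2 * τ.f) ≤ 1 / 4 →
    volume (pvE τ Λ H T A1) ≤ ENNReal.ofReal (C * Λ ^ 2 * τ.r ^ 4 * τ.f) := by
  set c0 : ℝ := 1 / (16 * (3 + 2 * R0)) with hc0
  have hc0pos : 0 < c0 := by positivity
  refine ⟨3 * (28 ^ 2 * (4 * 6000 / c0)), by positivity, ?_⟩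
  intro τ hτ Λ H T A1 hH hΛ hT hu hrR hq1 hq2
  set q : ℝ := 6000 * Λ ^ 2 * τ.f with hq
  have hf0 := hτ.hf0
  have hr := hτ.hr
  have hq0 : 0 ≤ q := by positivity
  set e0 : E2 := EuclideanSpace.single (0 : Fin 2) (1 : ℝ) with he0
  set e1 : E2 := EuclideanSpace.single (1 : Fin 2) (1 : ℝ) with he1
  have hne0 : ‖e0‖ = 1 := by simp [he0]
  have hne1 : ‖e1‖ = 1 := by simp [he1]
  -- the three pieces
  set S0 : Set (E2 × ℝ) := {v | ‖v.1‖ ≤ 14 ∧ |v.2| ≤ 14 ∧ |phPvH τ T v| ≤ q ∧ c0 ≤ |⟪e0, τ.hX v.1 v.2⟫_ℝ|} with hS0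
  set S1 : Set (E2 × ℝ) := {v | ‖v.1‖ ≤ 14 ∧ |v.2| ≤ 14 ∧ |phPvH τ T v| ≤ q ∧ c0 ≤ |⟪e1, τ.hX v.1 v.2⟫_ℝ|} with hS1
  set S2 : Set (E2 × ℝ) := {v | v.1 ∈ Metric.closedBall (0 : E2) 14 ∧ |phPvH τ T v| ≤ q ∧ c0 ≤ |τ.hW (τ.uu T v.1 v.2) v.2|} with hS2
  have hHm := (ph_pv_H_cont τ T).measurable
  have hm0 := (ph_pv_hX_cont τ e0).measurable
  have hm1 := (ph_pv_hX_cont τ e1).measurable
  have hm2 := (ph_pv_hW_cont τ T).measurable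
  have mN : MeasurableSet {v : E2 × ℝ | ‖v.1‖ ≤ 14} := measurableSet_le (by fun_prop) measurable_const
  have mW : MeasurableSet {v : E2 × ℝ | |v.2| ≤ 14} := measurableSet_le (by fun_prop) measurable_const
  have mH : MeasurableSet {v : E2 × ℝ | |phPvH τ T v| ≤ q} := measurableSet_le hHm.abs measurable_const
  have hS0m : MeasurableSet S0 := mN.inter (mW.inter (mH.inter (measurableSet_le measurable_const hm0.abs)))
  have hS1m : MeasurableSet S1 := mN.inter (mW.inter (mH.inter (measurableSet_le measurable_const hm1.abs)))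
  have hS2m : MeasurableSet S2 :=
    (measurable_fst Metric.isClosed_closedBall.measurableSet).inter (mH.inter (measurableSet_le measurable_const hm2.abs))
  have hv0 : volume S0 ≤ ENNReal.ofReal (28 ^ 2 * (4 * q / c0)) := by
    have := ph_pv_sliceX 0 (phPvH τ T) (fun v => ⟪e0, τ.hX v.1 v.2⟫_ℝ) hHm hm0
      (fun v => ph_pv_H_quadX τ T e0 hne0 v) (R := 14) (by norm_num) hc0pos hq0
    refine this.trans (le_of_eq ?_)
    norm_num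
  have hv1 : volume S1 ≤ ENNReal.ofReal (28 ^ 2 * (4 * q / c0)) := by
    have := ph_pv_sliceX 1 (phPvH τ T) (fun v => ⟪e1, τ.hX v.1 v.2⟫_ℝ) hHm hm1
      (fun v => ph_pv_H_quadX τ T e1 hne1 v) (R := 14) (by norm_num) hc0pos hq0
    refine this.trans (le_of_eq ?_)
    norm_num
  have hv2 : volume S2 ≤ ENNReal.ofReal (28 ^ 2 * (4 * q / c0)) := by
    have := ph_pv_slice (volume : Measure E2) (Metric.closedBall (0 : E2) 14) Metric.isClosed_closedBall.measurableSet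
      (phPvH τ T) (fun v => τ.hW (τ.uu T v.1 v.2) v.2) hHm hm2 (fun X => ph_pv_H_quadW τ T X) hc0pos hq0
    refine this.trans ?_
    rw [EuclideanSpace.volume_closedBall_fin_two, ← ENNReal.ofReal_pow (by norm_num), ← ENNReal.ofReal_mul (by positivity),
      ← ENNReal.ofReal_mul (by positivity)]
    apply ENNReal.ofReal_le_ofReal
    have hpi : Real.pi ≤ 4 := Real.pi_le_four
    have h3 : 0 ≤ 4 * q / c0 := by positivity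
    nlinarith
  -- the inclusion
  have hincl : pvE τ Λ H T A1 ⊆ {ζ : E2 × ℝ | (τ.pX T ζ, τ.pW T ζ) ∈ S0 ∪ S1 ∪ S2} := by
    rintro ζ ⟨-, hζ2, p, hp, -, hrel⟩
    obtain ⟨h1, h2, h3, h4⟩ := ph_pv_transport τ hτ hH hΛ hT hu hζ2 hp hrel
    have hpl := ph_pv_plane τ hr T ζ
    have hΛf : Λ * τ.f ≤ 1 := by
      have h5 : Λ * τ.f ≤ Λ ^ 2 * τ.f := by
        have : Λ ≤ Λ ^ 2 := by nlinarith
        exact mul_le_mul_of_nonneg_right this hf0.le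
      nlinarith
    have hX14 : ‖τ.pX T ζ‖ ≤ 14 := by linarith
    have hW14 : |τ.pW T ζ| ≤ 14 := by linarith
    have hu10 : |ζ.2 - T| ≤ 10 := by
      calc |ζ.2 - T| ≤ |ζ.2| + |T| := abs_sub _ _
        _ ≤ 10 := by linarith
    have hV : ‖τ.rV p‖ ≤ 1 := hp.1.2.2
    have hrq : τ.r * q ≤ 1 / 4 := le_trans (mul_le_mul_of_nonneg_right hrR hq0) hq2
    have hg := ph_pv_grad1 τ hτ hu10 hV h3 h4 hq1 hrq
    have hH' : |phPvH τ T (τ.pX T ζ, τ.pW T ζ)| ≤ q := by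
      simp only [phPvH]
      rw [hpl]
      exact h3
    have hnc := ph_pv_norm_le_coord (τ.hX (τ.pX T ζ) (τ.pW T ζ))
    by_contra hcon
    simp only [Set.mem_ofPred_eq, Set.mem_union, not_or] at hcon
    obtain ⟨⟨hn0, hn1⟩, hn2⟩ := hcon
    have l0 : |⟪e0, τ.hX (τ.pX T ζ) (τ.pW T ζ)⟫_ℝ| < c0 := by
      by_contra hh
      exact hn0 ⟨hX14, hW14, hH', not_lt.mp hh⟩
    have l1 : |⟪e1, τ.hX (τ.pX T ζ) (τ.pW T ζ)⟫_ℝ| < c0 := by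
      by_contra hh
      exact hn1 ⟨hX14, hW14, hH', not_lt.mp hh⟩
    have l2 : |τ.hW (ζ.2 - T) (τ.pW T ζ)| < c0 := by
      by_contra hh
      refine hn2 ⟨mem_closedBall_zero_iff.mpr hX14, hH', ?_⟩
      simp only
      rw [hpl]
      exact not_lt.mp hh
    have hb1 : (1 + τ.r) * ‖τ.hX (τ.pX T ζ) (τ.pW T ζ)‖ ≤ (1 + R0) * (2 * c0) := by
      apply mul_le_mul (by linarith) (by linarith) (norm_nonneg _) (by linarith)
    have hb2 : (2 + τ.r) * |τ.hW (ζ.2 - T) (τ.pW T ζ)| ≤ (2 + R0) * c0 := by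
      apply mul_le_mul (by linarith) l2.le (abs_nonneg _) (by linarith)
    have hfin : (1 + R0) * (2 * c0) + (2 + R0) * c0 < 1 / 4 := by
      have : (1 + R0) * (2 * c0) + (2 + R0) * c0 = (4 + 3 * R0) / (16 * (3 + 2 * R0)) := by
        rw [hc0]; field_simp; ring
      rw [this, div_lt_div_iff₀ (by positivity) (by norm_num)]
      linarith
    linarith
  calc volume (pvE τ Λ H T A1) ≤ volume {ζ : E2 × ℝ | (τ.pX T ζ, τ.pW T ζ) ∈ S0 ∪ S1 ∪ S2} := measure_mono hincl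
    _ ≤ ENNReal.ofReal (τ.r ^ 4) * volume (S0 ∪ S1 ∪ S2) := ph_pv_vol1 τ hr T _ ((hS0m.union hS1m).union hS2m)
    _ ≤ ENNReal.ofReal (τ.r ^ 4) * (ENNReal.ofReal (28 ^ 2 * (4 * q / c0)) + ENNReal.ofReal (28 ^ 2 * (4 * q / c0))
          + ENNReal.ofReal (28 ^ 2 * (4 * q / c0))) := by
        gcongr
        exact (measure_union_le _ _).trans (add_le_add ((measure_union_le _ _).trans (add_le_add hv0 hv1)) hv2)
    _ = ENNReal.ofReal (3 * (28 ^ 2 * (4 * 6000 / c0)) * Λ ^ 2 * τ.r ^ 4 * τ.f) := by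
        rw [← ENNReal.ofReal_add (by positivity) (by positivity), ← ENNReal.ofReal_add (by positivity) (by positivity),
          ← ENNReal.ofReal_mul (by positivity)]
        congr 1
        rw [hq]
        field_simp
        ring

/-- the time on the input plane in the recentred coordinates -/
noncomputable def phPvU2 (τ : PvT) (T : ℝ) (W : ℝ) : ℝ := -(τ.r ^ 2 * W) - τ.ys - T

/-- the restriction of `FF` to the input plane in the recentred coordinates -/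
noncomputable def phPvH2 (τ : PvT) (T : ℝ) (v : E2 × ℝ) : ℝ :=
  τ.FF (phPvU2 τ T v.2) (v.1 - phPvU2 τ T v.2 • (τ.r⁻¹ • τ.As))
    (v.2 - 2 * ⟪τ.r⁻¹ • τ.As, v.1⟫_ℝ + phPvU2 τ T v.2 * ‖τ.r⁻¹ • τ.As‖ ^ 2)

/-- its gradient in the plane directions -/
noncomputable def phPvG2 (τ : PvT) (T : ℝ) (v : E2 × ℝ) : E2 :=
  τ.al - (2 * τ.k) • (v.1 - phPvU2 τ T v.2 • (τ.r⁻¹ • τ.As)) - (2 * (τ.be + τ.k * phPvU2 τ T v.2)) • (τ.r⁻¹ • τ.As)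

theorem ph_pv_H2_cont (τ : PvT) (T : ℝ) : Continuous (phPvH2 τ T) := by
  unfold phPvH2 PvT.FF phPvU2
  fun_prop

theorem ph_pv_G2_cont (τ : PvT) (T : ℝ) (e : E2) : Continuous fun v : E2 × ℝ => ⟪e, phPvG2 τ T v⟫_ℝ := by
  unfold phPvG2 phPvU2
  fun_prop

theorem ph_pv_H2_quadX (τ : PvT) (T : ℝ) (e : E2) (he : ‖e‖ = 1) (v : E2 × ℝ) :
    ∃ a0 a1 a2 : ℝ, ∀ s, phPvH2 τ T (v.1 + s • e, v.2) = a0 + a1 * s + a2 * s ^ 2 ∧
      ⟪e, phPvG2 τ T (v.1 + s • e, v.2)⟫_ℝ = a1 + 2 * a2 * s := by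
  refine ⟨phPvH2 τ T v, ⟪e, phPvG2 τ T v⟫_ℝ, -τ.k, fun s => ?_⟩
  set B : E2 := τ.r⁻¹ • τ.As with hB
  set u : ℝ := phPvU2 τ T v.2 with hu
  have hee : ⟪e, e⟫_ℝ = 1 := by rw [real_inner_self_eq_norm_sq, he]; norm_num
  have hre : v.1 + s • e - u • B = (v.1 - u • B) + s • e := by abel
  have hn : ‖(v.1 - u • B) + s • e‖ ^ 2 = ‖v.1 - u • B‖ ^ 2 + 2 * (s * ⟪v.1 - u • B, e⟫_ℝ) + s ^ 2 := by
    rw [norm_add_sq_real, inner_smul_right, norm_smul, mul_pow, he, Real.norm_eq_abs, sq_abs]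
    ring
  constructor
  · simp only [phPvH2, phPvG2, PvT.FF, ← hB, ← hu, hre, hn, inner_add_right, inner_smul_right, inner_sub_right]
    rw [real_inner_comm e (v.1 - u • B), real_inner_comm e τ.al, real_inner_comm e B]
    simp only [inner_sub_right, inner_smul_right]
    ring
  · simp only [phPvG2, ← hB, ← hu, hre, inner_add_right, inner_smul_right, inner_sub_right, smul_add, hee]
    ring

/-- thin tests of large width.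
PLAN: `B = As/r`, `‖B‖ ≤ 2` (`‖As‖ ≤ A1 + r`).  `(X',W') = (pX' ζ, pW' ζ)`, `u' = -r² W' - ys - T`, `h' (X',W') = FF u' (X' - u' B) (W' - 2<B,X'> + u' |B|²)` (`ph_pv_recentre`), quadratic in `X'` for fixed `W'`,
`∂_{X'} h' = F_x - 2 F_w B`, norm `≥ 1/4` (`ph_pv_grad2`);  `‖X'‖ ≤ 40`, `|W'| ≤ 200`;  `ph_pv_sliceX` (`i = 0,1`, `c = 1/8`), `ph_pv_vol2`. -/
theorem ph_pv_thin2 (A1 : ℝ) (hA1 : 0 ≤ A1) : ∃ C : ℝ, 0 ≤ C ∧ ∀ (τ : PvT), τ.Ok → ∀ {Λ H T : ℝ}, 0 < H → 1 ≤ Λ → |T| ≤ 4 →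
    Real.sqrt H ≤ τ.r * τ.f → 8800 * A1 + 1 ≤ τ.r → 6000 * Λ ^ 2 * τ.f ≤ 1 / 6400 →
    volume (pvE τ Λ H T A1) ≤ ENNReal.ofReal (C * Λ ^ 2 * τ.r ^ 4 * τ.f) := by
  refine ⟨2 * (400 ^ 2 * (4 * 6000 / (1 / 8))), by positivity, ?_⟩
  intro τ hτ Λ H T hH hΛ hT hu hrA hq1
  set q : ℝ := 6000 * Λ ^ 2 * τ.f with hq
  have hf0 := hτ.hf0
  have hr := hτ.hr
  have hq0 : 0 ≤ q := by positivity
  set e0 : E2 := EuclideanSpace.single (0 : Fin 2) (1 : ℝ) with he0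
  set e1 : E2 := EuclideanSpace.single (1 : Fin 2) (1 : ℝ) with he1
  have hne0 : ‖e0‖ = 1 := by simp [he0]
  have hne1 : ‖e1‖ = 1 := by simp [he1]
  set S0 : Set (E2 × ℝ) := {v | ‖v.1‖ ≤ 200 ∧ |v.2| ≤ 200 ∧ |phPvH2 τ T v| ≤ q ∧ 1 / 8 ≤ |⟪e0, phPvG2 τ T v⟫_ℝ|} with hS0
  set S1 : Set (E2 × ℝ) := {v | ‖v.1‖ ≤ 200 ∧ |v.2| ≤ 200 ∧ |phPvH2 τ T v| ≤ q ∧ 1 / 8 ≤ |⟪e1, phPvG2 τ T v⟫_ℝ|} with hS1
  have hHm := (ph_pv_H2_cont τ T).measurable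
  have hm0 := (ph_pv_G2_cont τ T e0).measurable
  have hm1 := (ph_pv_G2_cont τ T e1).measurable
  have mN : MeasurableSet {v : E2 × ℝ | ‖v.1‖ ≤ 200} := measurableSet_le (by fun_prop) measurable_const
  have mW : MeasurableSet {v : E2 × ℝ | |v.2| ≤ 200} := measurableSet_le (by fun_prop) measurable_const
  have mH : MeasurableSet {v : E2 × ℝ | |phPvH2 τ T v| ≤ q} := measurableSet_le hHm.abs measurable_const
  have hS0m : MeasurableSet S0 := mN.inter (mW.inter (mH.inter (measurableSet_le measurable_const hm0.abs)))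
  have hS1m : MeasurableSet S1 := mN.inter (mW.inter (mH.inter (measurableSet_le measurable_const hm1.abs)))
  have hv0 : volume S0 ≤ ENNReal.ofReal (400 ^ 2 * (4 * q / (1 / 8))) := by
    have := ph_pv_sliceX 0 (phPvH2 τ T) (fun v => ⟪e0, phPvG2 τ T v⟫_ℝ) hHm hm0
      (fun v => ph_pv_H2_quadX τ T e0 hne0 v) (R := 200) (c := 1 / 8) (by norm_num) (by norm_num) hq0
    refine this.trans (le_of_eq ?_)
    norm_num
  have hv1 : volume S1 ≤ ENNReal.ofReal (400 ^ 2 * (4 * q / (1 / 8))) := by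
    have := ph_pv_sliceX 1 (phPvH2 τ T) (fun v => ⟪e1, phPvG2 τ T v⟫_ℝ) hHm hm1
      (fun v => ph_pv_H2_quadX τ T e1 hne1 v) (R := 200) (c := 1 / 8) (by norm_num) (by norm_num) hq0
    refine this.trans (le_of_eq ?_)
    norm_num
  have hincl : pvE τ Λ H T A1 ⊆ {ζ : E2 × ℝ | (τ.pX' ζ, τ.pW' ζ) ∈ S0 ∪ S1} := by
    rintro ζ ⟨-, hζ2, p, hp, hpA, hrel⟩
    obtain ⟨h1, h2, h3, h4⟩ := ph_pv_transport τ hτ hH hΛ hT hu hζ2 hp hrel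
    obtain ⟨r1, r2, r3⟩ := ph_pv_recentre τ hr T ζ
    set B : E2 := τ.r⁻¹ • τ.As with hB
    set u : ℝ := ζ.2 - T with hudef
    have hΛf : Λ * τ.f ≤ 1 := by
      have h5 : Λ * τ.f ≤ Λ ^ 2 * τ.f := by
        have : Λ ≤ Λ ^ 2 := by nlinarith
        exact mul_le_mul_of_nonneg_right this hf0.le
      nlinarith
    have hX12 : ‖τ.pX T ζ‖ ≤ 12 := by linarith
    have hW14 : |τ.pW T ζ| ≤ 14 := by linarith
    have hu10 : |u| ≤ 10 := by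
      calc |ζ.2 - T| ≤ |ζ.2| + |T| := abs_sub _ _
        _ ≤ 10 := by linarith
    have hV : ‖τ.rV p‖ ≤ 1 := hp.1.2.2
    have hAV : τ.As + τ.r • τ.rV p = p.1 := by
      rw [PvT.rV, smul_smul, mul_inv_cancel₀ hr.ne', one_smul]
      abel
    have hAs : ‖τ.As‖ ≤ A1 + τ.r := by
      have : τ.As = p.1 - τ.r • τ.rV p := by rw [← hAV]; abel
      rw [this]
      calc ‖p.1 - τ.r • τ.rV p‖ ≤ ‖p.1‖ + ‖τ.r • τ.rV p‖ := norm_sub_le _ _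
        _ = ‖p.1‖ + τ.r * ‖τ.rV p‖ := by rw [norm_smul, Real.norm_of_nonneg hr.le]
        _ ≤ A1 + τ.r * 1 := by gcongr
        _ = A1 + τ.r := by ring
    have hB2 : ‖B‖ ≤ 2 := by
      rw [hB, norm_smul, norm_inv, Real.norm_of_nonneg hr.le, inv_mul_le_iff₀ hr]
      nlinarith
    have hB0 : 0 ≤ ‖B‖ := norm_nonneg _
    have hg := ph_pv_grad2 τ hτ hu10 h3 h4 hq1 (by rw [hAV]; exact hpA) hrA
    have hU : phPvU2 τ T (τ.pW' ζ) = u := by rw [phPvU2]; exact r3.symm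
    have hX' : ‖τ.pX' ζ‖ ≤ 32 := by
      have : τ.pX' ζ = τ.pX T ζ + u • B := by rw [r1]; abel
      rw [this]
      calc ‖τ.pX T ζ + u • B‖ ≤ ‖τ.pX T ζ‖ + ‖u • B‖ := norm_add_le _ _
        _ = ‖τ.pX T ζ‖ + |u| * ‖B‖ := by rw [norm_smul, Real.norm_eq_abs]
        _ ≤ 12 + 10 * 2 := by gcongr
        _ = 32 := by norm_num
    have hW' : |τ.pW' ζ| ≤ 200 := by
      have : τ.pW' ζ = τ.pW T ζ + 2 * ⟪B, τ.pX' ζ⟫_ℝ + -(u * ‖B‖ ^ 2) := by rw [r2]; ring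
      rw [this]
      have i1 : |⟪B, τ.pX' ζ⟫_ℝ| ≤ 2 * 32 := by
        calc |⟪B, τ.pX' ζ⟫_ℝ| ≤ ‖B‖ * ‖τ.pX' ζ‖ := abs_real_inner_le_norm _ _
          _ ≤ 2 * 32 := by gcongr
      have i2 : |u * ‖B‖ ^ 2| ≤ 10 * 2 ^ 2 := by
        rw [abs_mul, abs_of_nonneg (by positivity : (0 : ℝ) ≤ ‖B‖ ^ 2)]
        gcongr
      calc |τ.pW T ζ + 2 * ⟪B, τ.pX' ζ⟫_ℝ + -(u * ‖B‖ ^ 2)|
          ≤ |τ.pW T ζ + 2 * ⟪B, τ.pX' ζ⟫_ℝ| + |-(u * ‖B‖ ^ 2)| := abs_add_le _ _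
        _ ≤ (|τ.pW T ζ| + |2 * ⟪B, τ.pX' ζ⟫_ℝ|) + |-(u * ‖B‖ ^ 2)| := by gcongr; exact abs_add_le _ _
        _ = |τ.pW T ζ| + 2 * |⟪B, τ.pX' ζ⟫_ℝ| + |u * ‖B‖ ^ 2| := by rw [abs_mul, abs_neg]; norm_num
        _ ≤ 200 := by linarith
    have hH' : |phPvH2 τ T (τ.pX' ζ, τ.pW' ζ)| ≤ q := by
      simp only [phPvH2]
      rw [hU, ← hB, ← r1, ← r2]
      exact h3
    have hG' : phPvG2 τ T (τ.pX' ζ, τ.pW' ζ) = τ.al - (2 * τ.k) • τ.pX T ζ - (2 * (τ.be + τ.k * u)) • B := by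
      simp only [phPvG2]
      rw [hU, ← hB, ← r1]
    have hnc := ph_pv_norm_le_coord (phPvG2 τ T (τ.pX' ζ, τ.pW' ζ))
    rw [← hG'] at hg
    by_contra hcon
    simp only [Set.mem_ofPred_eq, Set.mem_union, not_or] at hcon
    obtain ⟨hn0, hn1⟩ := hcon
    have l0 : |⟪e0, phPvG2 τ T (τ.pX' ζ, τ.pW' ζ)⟫_ℝ| < 1 / 8 := by
      by_contra hh
      exact hn0 ⟨by linarith, hW', hH', not_lt.mp hh⟩
    have l1 : |⟪e1, phPvG2 τ T (τ.pX' ζ, τ.pW' ζ)⟫_ℝ| < 1 / 8 := by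
      by_contra hh
      exact hn1 ⟨by linarith, hW', hH', not_lt.mp hh⟩
    linarith
  calc volume (pvE τ Λ H T A1) ≤ volume {ζ : E2 × ℝ | (τ.pX' ζ, τ.pW' ζ) ∈ S0 ∪ S1} := measure_mono hincl
    _ ≤ ENNReal.ofReal (τ.r ^ 4) * volume (S0 ∪ S1) := ph_pv_vol2 τ hr _ (hS0m.union hS1m)
    _ ≤ ENNReal.ofReal (τ.r ^ 4) * (ENNReal.ofReal (400 ^ 2 * (4 * q / (1 / 8))) + ENNReal.ofReal (400 ^ 2 * (4 * q / (1 / 8)))) := by
        gcongr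
        exact (measure_union_le _ _).trans (add_le_add hv0 hv1)
    _ = ENNReal.ofReal (2 * (400 ^ 2 * (4 * 6000 / (1 / 8))) * Λ ^ 2 * τ.r ^ 4 * τ.f) := by
        rw [← ENNReal.ofReal_add (by positivity) (by positivity), ← ENNReal.ofReal_mul (by positivity)]
        congr 1
        rw [hq]
        ring

/-- **hyperquadric tests** (phys-predecessor-volume, with `f` instead of `f^{1-η}`).
GLUE: `R0 = 8800 A1 + 1`, `q0 = 1/(6400 R0)`.  If `6000 Λ² f > q0` then `ph_pv_crude` and `1 ≤ 6000 Λ² f / q0`; otherwise `ph_pv_thin1` (`r ≤ R0`) or `ph_pv_thin2`. -/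
theorem ph_pv_quad (A1 : ℝ) (hA1 : 0 ≤ A1) : ∃ C : ℝ, 0 ≤ C ∧ ∀ (τ : PvT), τ.Ok → ∀ {Λ H T : ℝ}, 0 < H → 1 ≤ Λ → |T| ≤ 4 →
    Real.sqrt H ≤ τ.r * τ.f → volume (pvE τ Λ H T A1) ≤ ENNReal.ofReal (C * Λ ^ 5 * τ.r ^ 4 * τ.f) := by
  set R0 : ℝ := 8800 * A1 + 1 with hR0
  have hR01 : 1 ≤ R0 := by rw [hR0]; linarith
  obtain ⟨C1, hC1, h1⟩ := ph_pv_thin1 R0 hR01
  obtain ⟨C2, hC2, h2⟩ := ph_pv_thin2 A1 hA1
  refine ⟨C1 + C2 + 20000 * 6000 * (6400 * R0), by positivity, ?_⟩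
  intro τ hτ Λ H T hH hΛ hT hu
  have hf0 := hτ.hf0
  have hr := hτ.hr
  have hΛ25 : Λ ^ 2 ≤ Λ ^ 5 := pow_le_pow_right₀ hΛ (by norm_num)
  have hrf : 0 ≤ τ.r ^ 4 * τ.f := by positivity
  have hΛ5 : 0 ≤ Λ ^ 5 := by positivity
  have hmono : ∀ C' : ℝ, 0 ≤ C' → C' ≤ C1 + C2 + 20000 * 6000 * (6400 * R0) →
      C' * Λ ^ 2 * τ.r ^ 4 * τ.f ≤ (C1 + C2 + 20000 * 6000 * (6400 * R0)) * Λ ^ 5 * τ.r ^ 4 * τ.f := by
    intro C' hC' hle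
    calc C' * Λ ^ 2 * τ.r ^ 4 * τ.f = C' * Λ ^ 2 * (τ.r ^ 4 * τ.f) := by ring
      _ ≤ (C1 + C2 + 20000 * 6000 * (6400 * R0)) * Λ ^ 5 * (τ.r ^ 4 * τ.f) := by gcongr
      _ = _ := by ring
  have hbig : 0 ≤ 20000 * 6000 * (6400 * R0) := by positivity
  by_cases hcase : 6000 * Λ ^ 2 * τ.f ≤ 1 / (6400 * R0)
  · have hq1 : 6000 * Λ ^ 2 * τ.f ≤ 1 / 6400 := by
      refine hcase.trans ?_
      apply one_div_le_one_div_of_le (by norm_num)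
      linarith
    have hq2 : R0 * (6000 * Λ ^ 2 * τ.f) ≤ 1 / 4 := by
      calc R0 * (6000 * Λ ^ 2 * τ.f) ≤ R0 * (1 / (6400 * R0)) := by gcongr
        _ = 1 / 6400 := by field_simp
        _ ≤ 1 / 4 := by norm_num
    rcases le_total τ.r R0 with hrR | hrR
    · exact (h1 τ hτ hH hΛ hT hu hrR hq1 hq2).trans (ENNReal.ofReal_le_ofReal (hmono C1 hC1 (by linarith)))
    · exact (h2 τ hτ hH hΛ hT hu hrR hq1).trans (ENNReal.ofReal_le_ofReal (hmono C2 hC2 (by linarith)))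
  · have hcase' : 1 / (6400 * R0) < 6000 * Λ ^ 2 * τ.f := not_le.mp hcase
    have h3 : 1 ≤ 6000 * Λ ^ 2 * τ.f * (6400 * R0) := by
      rw [div_lt_iff₀ (by positivity)] at hcase'
      exact hcase'.le
    refine (ph_pv_crude τ hτ hH hΛ hT hu).trans (ENNReal.ofReal_le_ofReal ?_)
    have h4 : 0 ≤ 20000 * Λ ^ 3 * τ.r ^ 4 := by positivity
    calc 20000 * Λ ^ 3 * τ.r ^ 4 = 20000 * Λ ^ 3 * τ.r ^ 4 * 1 := by ring
      _ ≤ 20000 * Λ ^ 3 * τ.r ^ 4 * (6000 * Λ ^ 2 * τ.f * (6400 * R0)) := by gcongr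
      _ = (20000 * 6000 * (6400 * R0)) * Λ ^ 5 * (τ.r ^ 4 * τ.f) := by ring
      _ ≤ (C1 + C2 + 20000 * 6000 * (6400 * R0)) * Λ ^ 5 * (τ.r ^ 4 * τ.f) := by
          gcongr
          linarith
      _ = _ := by ring

end Claimed.Agent.R256
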