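-- KEEP
import Claimed.Agent.R256.Phys.Pv
import Claimed.Agent.R256.Phys.Defs

/-!
# Row 256 (LS paper), PHYS : lem:phys-predecessor-volume in the vocabulary of `Phys/Defs.lean` and `Rt/Tests.lean`      (architect helper163; prefix `ph_pv_`)

BRIDGE.  `Pv.lean` uses the sign convention of the paper (input plane `y = -t`).  `Defs.lean` has `z₃ → -z₃`: apply `Pv.lean` to `ζ = (z', -z₃)`; then
`phDb T p z = b - ζ.1 - (T - ζ.2) A`, `phDy T p z = y + ζ.2 - (T - ζ.2)|A|² - 2 A·Δb`.   `z ↦ (z', -z₃)` preserves Lebesgue measure (`measurePreserving_Ji`, `Measure.IsNegInvariant`).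
`RtTest` has plain pairs: `rtIp`, `rtSq` are `⟪·,·⟫`, `‖·‖²` of the vectors `!₂[·,·]` (`EuclideanSpace.norm_eq`, `Fin.sum_univ_two`, `Real.sq_sqrt`; `‖v‖ ≤ M ↔ rtSq ≤ M²`).
-/

set_option autoImplicit false

namespace Claimed.Agent.R256

open MeasureTheory Claimed.Agent.R255.BR
open scoped InnerProductSpace ENNReal

/-- a plain pair as a vector of the plane -/
noncomputable def pvVec (v : ℝ × ℝ) : E2 := !₂[v.1, v.2]

/-- the raw data of a test of `Rt/Tests.lean` -/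
noncomputable def pvOf (τ : RtTest) : PvT :=
  ⟨pvVec τ.As, pvVec τ.bs, τ.ys, τ.r, τ.f, τ.n.c, τ.n.d, pvVec τ.n.al, τ.n.be, τ.n.k⟩

theorem ph_pv_main_eqns_cite : True := by
  have := @pvVec.eq_1
  have := @pvOf.eq_1
  trivial

theorem ph_pv_vec_sq (v : ℝ × ℝ) : ‖pvVec v‖ ^ 2 = rtSq v := by
  rw [EuclideanSpace.norm_sq_eq, Fin.sum_univ_two]
  simp [pvVec, rtSq]

theorem ph_pv_vec_ip (u v : ℝ × ℝ) : ⟪pvVec u, pvVec v⟫_ℝ = rtIp u v := by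
  rw [PiLp.inner_apply, Fin.sum_univ_two]
  simp [pvVec, rtIp, mul_comm]

theorem ph_pv_vec_sub (u v : ℝ × ℝ) : pvVec (u - v) = pvVec u - pvVec v := by
  ext i
  fin_cases i <;> simp [pvVec]

theorem ph_pv_vec_smul (a : ℝ) (u : ℝ × ℝ) : pvVec (a • u) = a • pvVec u := by
  ext i
  fin_cases i <;> simp [pvVec]

theorem ph_pv_vec_coord (X : E2) : pvVec (X 0, X 1) = X := by
  ext i
  fin_cases i <;> simp [pvVec]

theorem ph_pv_vec_norm_le {v : ℝ × ℝ} {M : ℝ} (hM : 0 ≤ M) (h : rtSq v ≤ M ^ 2) : ‖pvVec v‖ ≤ M := by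
  rw [← ph_pv_vec_sq] at h
  exact abs_le_of_sq_le_sq' h hM |>.2

theorem ph_pv_of_ok {τ : RtTest} (h : τ.Adm 1) : (pvOf τ).Ok := by
  obtain ⟨hc, hd, hal, hbe, hk⟩ := h.bd
  rw [mul_one] at hc hd hal hbe hk
  refine ⟨h.r_pos, h.f_pos, h.f_le, ?_, hc, hd, ph_pv_vec_norm_le (by norm_num) hal, hbe, hk⟩
  have := h.disc
  simp only [RtPoly.disc] at this
  simp only [pvOf]
  rw [ph_pv_vec_sq]
  exact this

theorem ph_pv_of_quad {τ : RtTest} (h : τ.Adm 1) (hl : τ.l = 1) {p : PhRow} (hp : phRt p ∈ τ.set 1) : (pvOf τ).inQuad p := by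
  obtain ⟨⟨hx, hz, hV⟩, hF, hG⟩ := hp
  have ex : (pvOf τ).rx p = pvVec (τ.x (phRt p)) := by
    simp only [PvT.rx, pvOf, RtTest.x, phRt, hl, one_mul]
    rw [ph_pv_vec_smul, ph_pv_vec_sub, ph_pv_vec_coord]
  have ez : (pvOf τ).rz p = τ.z (phRt p) := by
    simp only [PvT.rz, pvOf, RtTest.z, phRt, hl, one_mul]
    rw [← ph_pv_vec_ip, ph_pv_vec_sub, ph_pv_vec_coord]
  have eV : (pvOf τ).rV p = pvVec (τ.V (phRt p)) := by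
    simp only [PvT.rV, pvOf, RtTest.V, phRt]
    rw [ph_pv_vec_smul, ph_pv_vec_sub, ph_pv_vec_coord]
  have eF : (pvOf τ).FF 0 ((pvOf τ).rx p) ((pvOf τ).rz p) = τ.Fv (phRt p) := by
    rw [ex, ez]
    simp only [PvT.FF, pvOf, RtTest.Fv, RtPoly.F]
    rw [ph_pv_vec_ip, ph_pv_vec_sq]
  have eG : (pvOf τ).GG 0 ((pvOf τ).rx p) ((pvOf τ).rz p) ((pvOf τ).rV p) = τ.Gv (phRt p) := by
    rw [ex, ez, eV]
    simp only [PvT.GG, pvOf, RtTest.Gv, RtPoly.G]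
    rw [← ph_pv_vec_smul, ← ph_pv_vec_sub, ph_pv_vec_ip, ph_pv_vec_sq]
  rw [one_mul] at hF hG
  refine ⟨⟨?_, ?_, ?_⟩, ?_, ?_⟩
  · rw [ex]; exact ph_pv_vec_norm_le zero_le_one hx
  · rw [ez]; exact hz
  · rw [eV]; exact ph_pv_vec_norm_le zero_le_one hV
  · rw [eF]; exact hF
  · rw [eG]; exact hG

/-- **lem:phys-predecessor-volume** (rows with `|A| ≤ 4`; `|T| ≤ 4`; bound with `f ≤ f^{1-η}`) -/
theorem ph_pv_main : ∃ C : ℝ, 0 ≤ C ∧ ∀ τ : RtTest, τ.Adm 1 → τ.l = 1 → ∀ {Λ H T : ℝ}, 0 < H → 1 ≤ Λ → |T| ≤ 4 →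
    Real.sqrt H ≤ τ.unc →
    volume {z : E3 | ‖z‖ ≤ 6 ∧ ∃ p : PhRow, phRt p ∈ τ.set 1 ∧ ‖p.1‖ ≤ 4 ∧ ‖phDb T p z‖ ≤ Λ * Real.sqrt H ∧ |phDy T p z| ≤ Λ * H}
      ≤ ENNReal.ofReal (C * Λ ^ 5 * τ.r ^ 4 * τ.f) := by
  obtain ⟨C, hC, hq⟩ := ph_pv_quad 4 (by norm_num)
  refine ⟨C, hC, ?_⟩
  intro τ hτ hl Λ H T hH hΛ hT hu
  have hneg : MeasurePreserving (Prod.map (id : E2 → E2) (Neg.neg : ℝ → ℝ)) (volume : Measure (E2 × ℝ)) volume :=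
    (MeasurePreserving.id volume).prod (Measure.measurePreserving_neg volume)
  have hΨ : MeasurePreserving (fun z : E3 => ((Ji z).1, -(z 2))) (volume : Measure E3) (volume : Measure (E2 × ℝ)) :=
    hneg.comp measurePreserving_Ji
  have hb := hq (pvOf τ) (ph_pv_of_ok hτ) hH hΛ hT hu
  refine le_trans (le_trans (measure_mono ?_) (hΨ.measure_preimage_le (pvE (pvOf τ) Λ H T 4))) hb
  rintro z ⟨hz, p, hp, hpA, hDb, hDy⟩
  have hn : ‖(Ji z).1‖ ^ 2 + (z 2) ^ 2 = ‖z‖ ^ 2 := by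
    have := norm_J_sq (Ji z)
    rw [J_Ji] at this
    rw [this]
    rfl
  have hz0 : 0 ≤ ‖z‖ := norm_nonneg _
  have h1 : ‖(Ji z).1‖ ≤ 6 := by
    have : ‖(Ji z).1‖ ^ 2 ≤ 6 ^ 2 := by nlinarith [sq_nonneg (z 2)]
    exact abs_le_of_sq_le_sq' this (by norm_num) |>.2
  have h2 : |-(z 2)| ≤ 6 := by
    rw [abs_neg]
    have : (z 2) ^ 2 ≤ 6 ^ 2 := by nlinarith [sq_nonneg ‖(Ji z).1‖]
    exact abs_le_of_sq_le_sq this (by norm_num)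
  refine ⟨h1, h2, p, ph_pv_of_quad hτ hl hp, hpA, ?_, ?_⟩
  · simp only [phDb] at hDb
    simp only [sub_neg_eq_add]
    exact hDb
  · simp only [phDy, phDb] at hDy
    simp only [sub_neg_eq_add]
    rw [← sub_eq_add_neg]
    exact hDy

/-- the same with the weight -/
theorem ph_pv_weight (η : ℝ) (h0 : 0 < η) (h1 : η < 1) : ∃ C : ℝ, 0 ≤ C ∧ ∀ τ : RtTest, τ.Adm 1 → τ.l = 1 → ∀ {Λ H T : ℝ}, 0 < H → 1 ≤ Λ →
    |T| ≤ 4 → Real.sqrt H ≤ τ.unc →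
    volume {z : E3 | ‖z‖ ≤ 6 ∧ ∃ p : PhRow, phRt p ∈ τ.set 1 ∧ ‖p.1‖ ≤ 4 ∧ ‖phDb T p z‖ ≤ Λ * Real.sqrt H ∧ |phDy T p z| ≤ Λ * H}
      ≤ ENNReal.ofReal (C * Λ ^ 5 * τ.w η) := by
  obtain ⟨C, hC, hm⟩ := ph_pv_main
  refine ⟨C, hC, ?_⟩
  intro τ hτ hl Λ H T hH hΛ hT hu
  refine (hm τ hτ hl hH hΛ hT hu).trans (ENNReal.ofReal_le_ofReal ?_)
  have hf : τ.f ≤ τ.f ^ (1 - η) := by
    have := Real.rpow_le_rpow_of_exponent_ge hτ.f_pos hτ.f_le (by linarith : 1 - η ≤ 1)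
    rwa [Real.rpow_one] at this
  have hr := hτ.r_pos
  simp only [RtTest.w]
  calc C * Λ ^ 5 * τ.r ^ 4 * τ.f ≤ C * Λ ^ 5 * τ.r ^ 4 * τ.f ^ (1 - η) := by gcongr
    _ = C * Λ ^ 5 * (τ.r ^ 4 * τ.f ^ (1 - η)) := by ring

end Claimed.Agent.R256
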