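-- KEEP
import Claimed.Agent.R256.Phys.Defs
import Claimed.Agent.R256.Phys.PvMain

/-!
# Row 256, L3, BLOCK G : volume of the physical predecessors (Lemma phys-predecessor-volume, 09 l.213-345)      (chief helper73; prefix `ph_`, block prefix `phg_`)

PURE REAL GEOMETRY (no wave, no Fourier transform).  EXIT = `ph_vol` (outer measure of a projection: no measurability question).  Even the weight `r⁴ f` (`η = 0`) is reached.
THE LEMMA ITSELF IS CUT IN `Phys/Pv.lean`, `Phys/PvMain.lean` (architect helper163; raw data `PvT`, paper signs; bridge `ph_pv_main`).  `ph_vol` is PROVED from `ph_pv_main`, `C₁ = 5`.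
The notes below are the chief's own plan of the lemma (for the leaves of `Pv.lean`; signs of THIS file).
Tests, polynomials, `(disc)` and the ray identities: `Rt/Tests.lean` (`rt_disc_identity`, `rt_G_ray`, `rt_F_ray`, `rt_g_ray`), FROZEN, import only.
PROOF (simplified with respect to the paper: NO recentring, NO boost; all identities checked by hand by helper73 and helper163).
Notation: `z ∈ B(0,6)`, `s = T + z₃` (`|s| ≤ 9`), row `p = (A,b,y)` of the test, `|A| ≤ 4`, `δb = phDb`, `δy = phDy`, `|δb| ≤ Λ√H`, `|δy| ≤ ΛH`; `V = (A - A_*)/r`, `|V| ≤ 1`.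
Normal coordinates of the INPUT POINT `(t,b,y) = (-z₃, z', z₃)` (functions of `z` only):  `u = -z₃ - T = -s`,  `X = (z' - b_* - u A_*)/r`,  `W = (z₃ - y_* - 2 A_*·(z' - b_*) + u|A_*|²)/r²`.
 (G0) with `x, w` the coordinates of the row at `u = 0`:   `X = x - δb/r + uV`,   `W = w - 2V·δb/r - δy/r² + u|V|²`.     `|δb|/r ≤ Λ f`, `|δy|/r² ≤ Λ f²` (from `r f ≥ √H`).
 (G1) `𝐅(u,X,W) = n.F u X W`, `𝐆(u,X,W,V) = n.G u X W V`.  Along the ray `𝐆` is constant and `𝐅` affine with slope `𝐆`, so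
      `|𝐆(u,X,W,V) - Gv| ≤ C Λ f`, `|𝐅(u,X,W) - Fv - u 𝐆| ≤ C Λ² f`, hence `|𝐅|, |𝐆| ≤ q := C₂ Λ² f` at the input point;  `|X| ≤ 10 + Λ`, `|W| ≤ 10 + 3Λ`.
 (G2) `z ↦ (X, W)` is affine with `|det| = (1+|A_*|²)/r⁴`  (put `z'' = z' + z₃ A_*`).   CRUDE BOUND: `|E| ≤ r⁴ (2(10+3Λ))³`.
 (G3) discriminant identity: `g := n.g u X V`,  `|g|² = 1 + 4(β+ku)𝐆 - 4k𝐅`.   If `q ≤ ε₀` then `|g|² ≥ 1/2`.   If `q > ε₀` use the crude bound (`f ≥ ε₀/(C₂Λ²)`).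
 (G4) SMALL `r ≤ r₀`: on the input plane `u = -(T + y_* + 2rA_*·X + r²W)/(1+|A_*|²)`, `h(X,W) = 𝐅(u(X,W),X,W)` (quadratic), `h_X = 𝐅_X - a𝐅_u`, `h_W = 𝐅_W - c_*𝐅_u`, `a = 2rA_*/(1+|A_*|²)`, `c_* = r²/(1+|A_*|²)`:
      `g = h_X + 2V h_W + (2rA/(1+|A|²)) (𝐆 - V·h_X - |V|² h_W)`      (identity),   so   `1/√2 ≤ (1+r)|h_X| + (2+r)|h_W| + r|𝐆|` : `|h_X| + |h_W| ≥ c(r₀)`.   NO bound on `A_*` is needed.
      Sublevel lemma in the box `|X|,|W| ≤ 10 + 3Λ` : volume `≤ C Λ² q`; Jacobian `r⁴/(1+|A_*|²) ≤ r⁴`.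
 (G5) LARGE `r > r₀` (`r₀ = 10⁵`): in PHYSICAL coordinates `Φ(z) = 𝐅(u,X,W)`:  `∇_{z'} Φ = g/r - 2A(β+ku)/r²`   (identity), so `|∇_{z'}Φ| ≥ 1/(√2 r) - 8000/r² ≥ 1/(2r)`.  Sublevel lemma in `B(0,6)` : volume `≤ C q r ≤ C q r⁴`.
 (G6) SUBLEVEL LEMMA: `volume {s | |a s² + b s + c| ≤ q ∧ c' ≤ |2as + b|} ≤ 4q/c'` (two monotone pieces); Fubini along the coordinate with the large derivative (3 resp. 2 closed sets).
-/

set_option autoImplicit false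

namespace Claimed.Agent.R256

open MeasureTheory Complex Claimed.Agent.R255.BR
open scoped Real InnerProductSpace ENNReal

/-- **I5 = Lemma phys-predecessor-volume** -/
theorem ph_vol : ∃ C C₁ : ℝ, 0 ≤ C ∧ 0 ≤ C₁ ∧ ∀ (H Λ T : ℝ) (τ : RtTest), 0 < H → H ≤ 1 → 1 ≤ Λ → |T| ≤ 3 → τ.Adm 1 → τ.l = 1 → Real.sqrt H ≤ τ.unc →
    volume {z : E3 | ‖z‖ ≤ 6 ∧ ∃ p : PhRow, phRt p ∈ τ.set 1 ∧ ‖p.1‖ ≤ 4 ∧ phX H T p z < Λ} ≤ ENNReal.ofReal (C * Λ ^ C₁ * τ.r ^ 4 * τ.f) := by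
  obtain ⟨C, hC, h⟩ := ph_pv_main
  refine ⟨C, 5, hC, by norm_num, fun H Λ T τ hH _ hΛ hT hτ hl hu => ?_⟩
  have e : Λ ^ (5 : ℝ) = Λ ^ 5 := by
    rw [← Real.rpow_natCast]
    norm_num
  rw [e]
  refine (measure_mono ?_).trans (h τ hτ hl hH hΛ (by linarith : |T| ≤ 4) hu)
  rintro z ⟨hz, p, hp, hA, hX⟩
  refine ⟨hz, p, hp, hA, ?_, ?_⟩
  · have h1 : ‖phDb T p z‖ / Real.sqrt H ≤ phX H T p z := by
      unfold phX
      have : 0 ≤ |phDy T p z| / H := by positivity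
      linarith
    have h2 := (div_le_iff₀ (Real.sqrt_pos.2 hH)).1 (h1.trans hX.le)
    exact h2
  · have h1 : |phDy T p z| / H ≤ phX H T p z := by
      unfold phX
      have : 0 ≤ ‖phDb T p z‖ / Real.sqrt H := by positivity
      linarith
    exact (div_le_iff₀ hH).1 (h1.trans hX.le)

/-- rows far from the origin are far from every point of the initial slice:  `9|Δb| + |Δy| ≥ |b| + |y| - 192` -/
theorem ph_far_rows {H T : ℝ} (hH : 0 < H) (hH1 : H ≤ 1) (hT : |T| ≤ 3) {p : PhRow} (hp : ‖p.1‖ ≤ 4) {z : E3} (hz : ‖z‖ ≤ 6) :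
    (‖p.2.1‖ + |p.2.2| - 192) / 9 ≤ phX H T p z := by
  have hz2 : |z 2| ≤ 6 := by
    have := norm_J_sq (Ji z)
    rw [J_Ji] at this
    have h3 : (Ji z).2 = z 2 := rfl
    rw [h3] at this
    refine abs_le_of_sq_le_sq ?_ (by norm_num) |>.trans' le_rfl
    nlinarith [sq_nonneg ‖(Ji z).1‖, norm_nonneg z]
  have hz1 : ‖(Ji z).1‖ ≤ 6 := by
    have := norm_J_sq (Ji z)
    rw [J_Ji] at this
    refine abs_le_of_sq_le_sq' ?_ (by norm_num) |>.2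
    nlinarith [sq_nonneg (Ji z).2, norm_nonneg z]
  have hs : |T + z 2| ≤ 9 := (abs_add_le _ _).trans (by linarith)
  set D := phDb T p z with hD
  have hb : ‖p.2.1‖ ≤ ‖D‖ + 42 := by
    have e : p.2.1 = D + (Ji z).1 + (T + z 2) • p.1 := by
      rw [hD]; unfold phDb; abel
    calc ‖p.2.1‖ = ‖D + (Ji z).1 + (T + z 2) • p.1‖ := by rw [← e]
      _ ≤ ‖D‖ + ‖(Ji z).1‖ + ‖(T + z 2) • p.1‖ := norm_add₃_le
      _ ≤ ‖D‖ + 6 + 9 * 4 := by
          rw [norm_smul, Real.norm_eq_abs]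
          have := mul_le_mul hs hp (norm_nonneg _) (by norm_num)
          linarith
      _ = ‖D‖ + 42 := by ring
  have hy : |p.2.2| ≤ |phDy T p z| + 150 + 8 * ‖D‖ := by
    have e : p.2.2 = phDy T p z + z 2 + (T + z 2) * ‖p.1‖ ^ 2 + 2 * ⟪p.1, D⟫_ℝ := by
      rw [hD]; unfold phDy; ring
    have h1 : |(T + z 2) * ‖p.1‖ ^ 2| ≤ 9 * 16 := by
      rw [abs_mul, abs_of_nonneg (by positivity : (0 : ℝ) ≤ ‖p.1‖ ^ 2)]
      have : ‖p.1‖ ^ 2 ≤ 16 := by nlinarith [norm_nonneg p.1]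
      exact mul_le_mul hs this (by positivity) (by norm_num)
    have h2 : |⟪p.1, D⟫_ℝ| ≤ 4 * ‖D‖ := (abs_real_inner_le_norm _ _).trans (mul_le_mul_of_nonneg_right hp (norm_nonneg _))
    calc |p.2.2| = |phDy T p z + z 2 + (T + z 2) * ‖p.1‖ ^ 2 + 2 * ⟪p.1, D⟫_ℝ| := by rw [← e]
      _ ≤ |phDy T p z| + |z 2| + |(T + z 2) * ‖p.1‖ ^ 2| + |2 * ⟪p.1, D⟫_ℝ| := by
          refine (abs_add_le _ _).trans (add_le_add_left ((abs_add_le _ _).trans (add_le_add_left (abs_add_le _ _) _)) _)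
      _ ≤ |phDy T p z| + 150 + 8 * ‖D‖ := by
          have h3 : |2 * ⟪p.1, D⟫_ℝ| = 2 * |⟪p.1, D⟫_ℝ| := by rw [abs_mul, abs_of_pos (by norm_num : (0 : ℝ) < 2)]
          rw [h3]
          linarith
  have hsq : Real.sqrt H ≤ 1 := Real.sqrt_le_one.2 hH1 |>.trans le_rfl
  have h1 : ‖D‖ ≤ ‖D‖ / Real.sqrt H := by
    rw [le_div_iff₀ (Real.sqrt_pos.2 hH)]
    exact mul_le_of_le_one_right (norm_nonneg _) hsq
  have h2 : |phDy T p z| ≤ |phDy T p z| / H := by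
    rw [le_div_iff₀ hH]
    exact mul_le_of_le_one_right (abs_nonneg _) hH1
  unfold phX
  rw [← hD]
  have := norm_nonneg D
  have := abs_nonneg (phDy T p z)
  linarith

end Claimed.Agent.R256
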