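-- KEEP
import Claimed.Agent.R256.Phys.Null
import Claimed.Agent.R256.Top.Tools

/-!
# Row 256, L3, BLOCK K, (K2) : the kernel bound `ph_ker_bd` (Lemma phys-initial-kernel, 09 l.152-211)      (architect helper49; chief helper73; prefix `phb_`; the prefix `phk_` belongs to `Phys/Ker.lean`)

EXIT = `phb_bd` (= `ph_ker_bd` of `Phys/Ker.lean` with `phKer` unfolded).   Paper-free.   No sorry.   TOOL for other blocks: `phb_subst_gen` (linear substitution `(ω, σ) ↦ (σ B + a ω, c σ)` on `E2 × ℝ`, arbitrary integrand), `phb_shear_mp`, `phb_diag_map`.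
`H = 2^{-n}`, `h = √H`, row `p = (A, b, y)`, `s = T + z₃`.   Substitution `q = Λ (ω, σ) = ((2σ/H) A + ω/h, σ/H)`, Jacobian `H^{-2}` (`phb_subst`).
At `q = Λ (ω, σ)`, `σ > 0`, with `A' = A + (h/(2σ)) ω`, `N = 1 + |A'|²`, `u = σ² N²`:
  weight `= N`,  `|ξ| = (σ/H) N`,  `fat (2^n) ξ = sT (2 - u/16) - sT (2 - 4u)`,  `-ξ₃/|ξ| = (1 - |A'|²)/N`,  argument of `ψ` `= ω/(2σ)`,
  total phase `= <ω, Δb/h> - σ Δy/H - s |ω|²/(4σ)`      (`phb_point`).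
GLOBALLY smooth amplitude `phbAmp` : `1/σ` is replaced by `1/phbM σ`, `phbM σ = σ κ + (1 - κ)`, `κ = sT (200σ - 1)` (positive everywhere, `= σ` for `σ ≥ 1/100`), and the factor `sT (300σ - 3)`
(`= 0` for `σ ≤ 1/100`, `= 1` for `σ ≥ 1/75`) is inserted: the true integrand vanishes for `σ < 1/74` (`|A| ≤ 4`, `h ≤ 1`, `|ω/(2σ)| ≤ 2` give `N ≤ 37`, and `u ≤ 1/4` kills `fat`).
Support of `phbAmp` in `(ω, σ)` : `|ω| ≤ 24`, `1/100 ≤ σ ≤ 6` (`phb_supp`).   Then `ls_unif_decay2`.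
-/

set_option autoImplicit false

namespace Claimed.Agent.R256

open MeasureTheory Complex Claimed.Agent.R255.BR
open scoped FourierTransform Real SchwartzMap InnerProductSpace ENNReal ContDiff

/-- a positive smooth function which is `σ` for `σ ≥ 1/100` -/
noncomputable def phbM (σ : ℝ) : ℝ := σ * Real.smoothTransition (200 * σ - 1) + (1 - Real.smoothTransition (200 * σ - 1))

/-- the moved direction `A' = A + (h r / 2) ω` -/
noncomputable def phbA (x : (E2 × ℝ) × (E2 × ℝ × ℝ)) : E2 := x.2.1 + (x.2.2.1 * (phbM x.1.2)⁻¹ / 2) • x.1.1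

/-- the real part of the amplitude -/
noncomputable def phbR (x : (E2 × ℝ) × (E2 × ℝ × ℝ)) : ℝ :=
  Real.smoothTransition (300 * x.1.2 - 3) * (1 + ‖phbA x‖ ^ 2)
    * (Real.smoothTransition (2 - x.1.2 ^ 2 * (1 + ‖phbA x‖ ^ 2) ^ 2 / 16) - Real.smoothTransition (2 - 4 * (x.1.2 ^ 2 * (1 + ‖phbA x‖ ^ 2) ^ 2)))
    * chi ((1 - ‖phbA x‖ ^ 2) / (1 + ‖phbA x‖ ^ 2))

/-- **the amplitude** `Φ (ω, σ; A, h, s)` -/
noncomputable def phbAmp (ψ : E2 → ℂ) (x : (E2 × ℝ) × (E2 × ℝ × ℝ)) : ℂ :=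
  (phbR x : ℂ) * ψ (((phbM x.1.2)⁻¹ / 2) • x.1.1) * ee (-(x.2.2.2 * ‖x.1.1‖ ^ 2 * (phbM x.1.2)⁻¹ / 4))

/-- the substitution -/
noncomputable def phbL (H : ℝ) (A : E2) (w : E2 × ℝ) : E2 × ℝ := ((2 * w.2 / H) • A + (Real.sqrt H)⁻¹ • w.1, w.2 / H)

theorem phb_defs_eqns_cite : True := by
  have := @phbM.eq_1
  have := @phbA.eq_1
  have := @phbR.eq_1
  have := @phbAmp.eq_1
  have := @phbL.eq_1
  trivial

/-- the shear `(η, ρ) ↦ (η + ρ B, ρ)` as a homeomorphism -/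
noncomputable def phbSh (B : E2) : (E2 × ℝ) ≃ₜ (E2 × ℝ) where
  toFun q := (q.1 + q.2 • B, q.2)
  invFun q := (q.1 - q.2 • B, q.2)
  left_inv q := by simp
  right_inv q := by simp
  continuous_toFun := by fun_prop
  continuous_invFun := by fun_prop

theorem phb_shear_mp (B : E2) : MeasurePreserving (phbSh B) (volume : Measure (E2 × ℝ)) volume := by
  have h1 : MeasurePreserving (fun p : ℝ × E2 => (p.1, p.2 + p.1 • B)) ((volume : Measure ℝ).prod (volume : Measure E2)) (volume.prod volume) :=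
    MeasurePreserving.skew_product (g := fun (ρ : ℝ) (η : E2) => η + ρ • B) (MeasurePreserving.id volume)
      (by
        have : Continuous (Function.uncurry fun (ρ : ℝ) (η : E2) => η + ρ • B) := by
          unfold Function.uncurry
          fun_prop
        exact this.measurable)
      (Filter.Eventually.of_forall fun ρ => (measurePreserving_add_right volume (ρ • B)).map_eq)
  have h2 := (Measure.measurePreserving_swap (μ := (volume : Measure ℝ)) (ν := (volume : Measure E2))).comp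
    (h1.comp (Measure.measurePreserving_swap (μ := (volume : Measure E2)) (ν := (volume : Measure ℝ))))
  rw [Measure.volume_eq_prod]
  exact h2

/-- the diagonal scaling as a homeomorphism -/
noncomputable def phbDg (a c : ℝ) (ha : a ≠ 0) (hc : c ≠ 0) : (E2 × ℝ) ≃ₜ (E2 × ℝ) where
  toFun w := (a • w.1, c • w.2)
  invFun w := (a⁻¹ • w.1, c⁻¹ • w.2)
  left_inv w := by simp [smul_smul, ha, hc]
  right_inv w := by simp [smul_smul, ha, hc]
  continuous_toFun := by fun_prop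
  continuous_invFun := by fun_prop

theorem phb_diag_map (a c : ℝ) (ha : 0 < a) (hc : 0 < c) :
    Measure.map (phbDg a c ha.ne' hc.ne') (volume : Measure (E2 × ℝ)) = ENNReal.ofReal ((a ^ 2 * c)⁻¹) • volume := by
  have h1 := Measure.map_addHaar_smul (volume : Measure E2) ha.ne'
  have h2 := Measure.map_addHaar_smul (volume : Measure ℝ) hc.ne'
  rw [finrank_euclideanSpace_fin] at h1
  rw [Module.finrank_self, pow_one] at h2
  have h3 := Measure.map_prod_map (volume : Measure E2) (volume : Measure ℝ) (f := fun x : E2 => a • x) (g := fun x : ℝ => c • x)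
    (by fun_prop) (by fun_prop)
  rw [h1, h2, Measure.prod_smul_left, Measure.prod_smul_right, smul_smul, ← Measure.volume_eq_prod] at h3
  have e : (phbDg a c ha.ne' hc.ne' : E2 × ℝ → E2 × ℝ) = Prod.map (fun x : E2 => a • x) (fun x : ℝ => c • x) := rfl
  rw [e, ← h3, abs_of_pos (by positivity), abs_of_pos (by positivity), ← ENNReal.ofReal_mul (by positivity), mul_inv]

/-- the general linear substitution on `E2 × ℝ` -/
theorem phb_subst_gen (a c : ℝ) (ha : 0 < a) (hc : 0 < c) (B : E2) (f : E2 × ℝ → ℂ) :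
    ∫ q, f q = (a ^ 2 * c) • ∫ w : E2 × ℝ, f (w.2 • B + a • w.1, c * w.2) := by
  have h1 := (phb_shear_mp (c⁻¹ • B)).integral_comp (phbSh (c⁻¹ • B)).measurableEmbedding f
  have h2 := (phbDg a c ha.ne' hc.ne').measurableEmbedding.integral_map (μ := volume) (fun q => f (phbSh (c⁻¹ • B) q))
  rw [phb_diag_map a c ha hc, integral_smul_measure, ENNReal.toReal_ofReal (by positivity)] at h2
  rw [← h1]
  have e : ∀ w : E2 × ℝ, phbSh (c⁻¹ • B) (phbDg a c ha.ne' hc.ne' w) = (w.2 • B + a • w.1, c * w.2) := by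
    intro w
    show (a • w.1 + (c • w.2) • c⁻¹ • B, c • w.2) = _
    rw [smul_smul, smul_eq_mul, mul_assoc, mul_comm w.2, ← mul_assoc, mul_inv_cancel₀ hc.ne', one_mul, add_comm]
  simp only [e] at h2
  rw [← h2, smul_smul, mul_inv_cancel₀ (by positivity), one_smul]

/-- the linear substitution, no integrability needed -/
theorem phb_subst (H : ℝ) (hH : 0 < H) (A : E2) (f : E2 × ℝ → ℂ) : ∫ q, f q = ((H ^ 2)⁻¹ : ℝ) • ∫ w, f (phbL H A w) := by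
  have hs : 0 < Real.sqrt H := Real.sqrt_pos.2 hH
  rw [phb_subst_gen (Real.sqrt H)⁻¹ H⁻¹ (inv_pos.2 hs) (inv_pos.2 hH) ((2 / H) • A) f]
  have e1 : (Real.sqrt H)⁻¹ ^ 2 * H⁻¹ = (H ^ 2)⁻¹ := by
    rw [inv_pow, Real.sq_sqrt hH.le, ← mul_inv, sq]
  have e2 : ∀ w : E2 × ℝ, (w.2 • (2 / H) • A + (Real.sqrt H)⁻¹ • w.1, H⁻¹ * w.2) = phbL H A w := by
    intro w
    unfold phbL
    rw [smul_smul, mul_comm H⁻¹, ← div_eq_mul_inv]
    congr 3
    ring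
  simp only [e1, e2]

/-! ## the amplitude -/
theorem phb_M_of_ge {σ : ℝ} (h : 1 / 100 ≤ σ) : phbM σ = σ := by
  unfold phbM
  rw [Real.smoothTransition.one_of_one_le (by linarith)]
  ring

theorem phb_M_pos (σ : ℝ) : 0 < phbM σ := by
  unfold phbM
  have h0 := Real.smoothTransition.nonneg (200 * σ - 1)
  have h1 := Real.smoothTransition.le_one (200 * σ - 1)
  by_cases hσ : σ ≤ 1 / 200
  · rw [Real.smoothTransition.zero_of_nonpos (by linarith)]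
    norm_num
  · have hσ0 : 0 < σ := by
      rw [not_le] at hσ
      linarith
    rcases eq_or_lt_of_le h1 with h | h
    · rw [h]; linarith
    · have := mul_nonneg hσ0.le h0
      linarith

section closed

variable (h : ℝ) (hh : 0 < h) (A u : E2) (σ : ℝ) (hσ : 0 < σ)

include hh hσ in
/-- `q.1 = 2ρ A'` -/
theorem phb_q1 : (phbL (h ^ 2) A (u, σ)).1 = (2 * (σ / h ^ 2)) • (A + (h * σ⁻¹ / 2) • u) := by
  unfold phbL
  simp only
  rw [Real.sqrt_sq hh.le, smul_add, smul_smul]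
  congr 2
  · ring
  · field_simp

include hh hσ in
theorem phb_q1_sq : ‖(phbL (h ^ 2) A (u, σ)).1‖ ^ 2 = 4 * (σ / h ^ 2) ^ 2 * ‖A + (h * σ⁻¹ / 2) • u‖ ^ 2 := by
  rw [phb_q1 h hh A u σ hσ, norm_smul, mul_pow, Real.norm_eq_abs, sq_abs]
  ring

theorem phb_q2 : (phbL (h ^ 2) A (u, σ)).2 = σ / h ^ 2 := rfl

include hh hσ in
/-- the weight -/
theorem phb_weight : 1 + ‖(phbL (h ^ 2) A (u, σ)).1‖ ^ 2 / (4 * (phbL (h ^ 2) A (u, σ)).2 ^ 2) = 1 + ‖A + (h * σ⁻¹ / 2) • u‖ ^ 2 := by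
  rw [phb_q1_sq h hh A u σ hσ, phb_q2]
  have : (σ / h ^ 2) ≠ 0 := by positivity
  field_simp

include hh hσ in
theorem phb_xi_norm : ‖phXi (phbL (h ^ 2) A (u, σ))‖ = σ / h ^ 2 * (1 + ‖A + (h * σ⁻¹ / 2) • u‖ ^ 2) := by
  rw [ph_xi_norm (by rw [phb_q2]; positivity), phb_q1_sq h hh A u σ hσ, phb_q2]
  have : (σ / h ^ 2) ≠ 0 := by positivity
  field_simp

include hh hσ in
theorem phb_xi_two : (phXi (phbL (h ^ 2) A (u, σ))) 2 = σ / h ^ 2 * (‖A + (h * σ⁻¹ / 2) • u‖ ^ 2 - 1) := by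
  have e : (phXi (phbL (h ^ 2) A (u, σ))) 2
      = ‖(phbL (h ^ 2) A (u, σ)).1‖ ^ 2 / (4 * (phbL (h ^ 2) A (u, σ)).2) - (phbL (h ^ 2) A (u, σ)).2 := by
    simp [phXi, J]
  rw [e, phb_q1_sq h hh A u σ hσ, phb_q2]
  have : (σ / h ^ 2) ≠ 0 := by positivity
  field_simp

include hh hσ in
/-- the patch symbol in closed form -/
theorem phb_pat : pat (h ^ 2)⁻¹ (phXi (phbL (h ^ 2) A (u, σ)))
    = (Real.smoothTransition (2 - σ ^ 2 * (1 + ‖A + (h * σ⁻¹ / 2) • u‖ ^ 2) ^ 2 / 16)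
        - Real.smoothTransition (2 - 4 * (σ ^ 2 * (1 + ‖A + (h * σ⁻¹ / 2) • u‖ ^ 2) ^ 2)))
      * chi ((1 - ‖A + (h * σ⁻¹ / 2) • u‖ ^ 2) / (1 + ‖A + (h * σ⁻¹ / 2) • u‖ ^ 2)) := by
  unfold pat fat cut
  rw [phb_xi_norm h hh A u σ hσ, phb_xi_two h hh A u σ hσ]
  obtain ⟨m, hm⟩ : ∃ m : ℝ, m = ‖A + (h * σ⁻¹ / 2) • u‖ ^ 2 := ⟨_, rfl⟩
  rw [← hm]
  have hm0 : 0 ≤ m := by rw [hm]; positivity
  have hN : (0 : ℝ) < 1 + m := by positivity
  have e1 : (σ / h ^ 2 * (1 + m)) ^ 2 / (4 * (h ^ 2)⁻¹) ^ 2 = σ ^ 2 * (1 + m) ^ 2 / 16 := by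
    field_simp
    ring
  have e2 : (σ / h ^ 2 * (1 + m)) ^ 2 / ((h ^ 2)⁻¹ / 2) ^ 2 = 4 * (σ ^ 2 * (1 + m) ^ 2) := by
    field_simp
    norm_num
  have e3 : -(σ / h ^ 2 * (m - 1)) / (σ / h ^ 2 * (1 + m)) = (1 - m) / (1 + m) := by
    field_simp
    ring
  rw [e1, e2, e3]

include hh hσ in
/-- the argument of the window -/
theorem phb_arg : (Real.sqrt (1 / h ^ 2)) • ((2 * (phbL (h ^ 2) A (u, σ)).2)⁻¹ • (phbL (h ^ 2) A (u, σ)).1 - A) = (σ⁻¹ / 2) • u := by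
  rw [phb_q1 h hh A u σ hσ, phb_q2, smul_smul, inv_mul_cancel₀ (by positivity), one_smul, add_sub_cancel_left, smul_smul, one_div,
    Real.sqrt_inv, Real.sqrt_sq hh.le]
  congr 1
  field_simp

include hh hσ in
/-- the exact phase identity -/
theorem phb_phase (T : ℝ) (b : E2) (y : ℝ) (z : E3) :
    -⟪z, phXi (phbL (h ^ 2) A (u, σ))⟫_ℝ + phPh T b y (phbL (h ^ 2) A (u, σ))
      = (⟪u, h⁻¹ • phDb T (A, b, y) z⟫_ℝ + σ * (-(phDy T (A, b, y) z) / h ^ 2)) + -((T + z 2) * ‖u‖ ^ 2 * σ⁻¹ / 4) := by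
  have e1 : ⟪z, phXi (phbL (h ^ 2) A (u, σ))⟫_ℝ
      = ⟪(Ji z).1, (phbL (h ^ 2) A (u, σ)).1⟫_ℝ
        + z 2 * (‖(phbL (h ^ 2) A (u, σ)).1‖ ^ 2 / (4 * (phbL (h ^ 2) A (u, σ)).2) - (phbL (h ^ 2) A (u, σ)).2) := by
    conv_lhs => rw [← J_Ji z]
    unfold phXi
    rw [inner_J]
    rfl
  have e2 : (phbL (h ^ 2) A (u, σ)).1 = (2 * σ / h ^ 2) • A + h⁻¹ • u := by
    unfold phbL
    simp only
    rw [Real.sqrt_sq hh.le]
  have e3 : ‖(phbL (h ^ 2) A (u, σ)).1‖ ^ 2 = (2 * σ / h ^ 2) ^ 2 * ‖A‖ ^ 2 + 2 * ((2 * σ / h ^ 2) * h⁻¹ * ⟪A, u⟫_ℝ) + h⁻¹ ^ 2 * ‖u‖ ^ 2 := by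
    rw [e2, norm_add_sq_real, norm_smul, norm_smul, inner_smul_left, inner_smul_right, mul_pow, mul_pow, Real.norm_eq_abs, Real.norm_eq_abs,
      sq_abs, sq_abs]
    simp only [conj_trivial]
    ring
  unfold phPh phDy phDb
  rw [e1, e3, phb_q2, e2]
  simp only [inner_add_right, inner_sub_right, inner_smul_right, real_inner_self_eq_norm_sq]
  rw [real_inner_comm A (Ji z).1, real_inner_comm u (Ji z).1, real_inner_comm A b, real_inner_comm u b, real_inner_comm A u]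
  field_simp
  ring

include hh hσ in
/-- **the closed form** of the integrand for `σ > 0` -/
theorem phb_closed (ψ : E2 → ℂ) (T : ℝ) (b : E2) (y : ℝ) (z : E3) :
    phSpec (fun ξ => (pat (h ^ 2)⁻¹ ξ : ℂ) * ee (-⟪z, ξ⟫_ℝ)) (phbL (h ^ 2) A (u, σ))
        * ψ ((Real.sqrt (1 / h ^ 2)) • ((2 * (phbL (h ^ 2) A (u, σ)).2)⁻¹ • (phbL (h ^ 2) A (u, σ)).1 - A))
        * ee (phPh T b y (phbL (h ^ 2) A (u, σ)))
      = ee (⟪u, h⁻¹ • phDb T (A, b, y) z⟫_ℝ + σ * (-(phDy T (A, b, y) z) / h ^ 2))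
        * ((((1 + ‖A + (h * σ⁻¹ / 2) • u‖ ^ 2)
            * (Real.smoothTransition (2 - σ ^ 2 * (1 + ‖A + (h * σ⁻¹ / 2) • u‖ ^ 2) ^ 2 / 16)
              - Real.smoothTransition (2 - 4 * (σ ^ 2 * (1 + ‖A + (h * σ⁻¹ / 2) • u‖ ^ 2) ^ 2)))
            * chi ((1 - ‖A + (h * σ⁻¹ / 2) • u‖ ^ 2) / (1 + ‖A + (h * σ⁻¹ / 2) • u‖ ^ 2)) : ℝ) : ℂ)
          * ψ ((σ⁻¹ / 2) • u) * ee (-((T + z 2) * ‖u‖ ^ 2 * σ⁻¹ / 4))) := by
  have hρ : 0 < (phbL (h ^ 2) A (u, σ)).2 := by rw [phb_q2]; positivity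
  unfold phSpec
  rw [if_pos hρ, phb_weight h hh A u σ hσ]
  simp only []
  rw [phb_pat h hh A u σ hσ, phb_arg h hh A u σ hσ]
  have e := phb_phase h hh A u σ hσ T b y z
  have e' : ee (-⟪z, phXi (phbL (h ^ 2) A (u, σ))⟫_ℝ) * ee (phPh T b y (phbL (h ^ 2) A (u, σ)))
      = ee (⟪u, h⁻¹ • phDb T (A, b, y) z⟫_ℝ + σ * (-(phDy T (A, b, y) z) / h ^ 2)) * ee (-((T + z 2) * ‖u‖ ^ 2 * σ⁻¹ / 4)) := by
    rw [← ee_add_eq, ← ee_add_eq, e]
  push_cast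
  linear_combination (((1 + (‖A + (h * σ⁻¹ / 2) • u‖ : ℂ) ^ 2)
      * ((Real.smoothTransition (2 - σ ^ 2 * (1 + ‖A + (h * σ⁻¹ / 2) • u‖ ^ 2) ^ 2 / 16) : ℂ)
        - (Real.smoothTransition (2 - 4 * (σ ^ 2 * (1 + ‖A + (h * σ⁻¹ / 2) • u‖ ^ 2) ^ 2)) : ℂ))
      * (chi ((1 - ‖A + (h * σ⁻¹ / 2) • u‖ ^ 2) / (1 + ‖A + (h * σ⁻¹ / 2) • u‖ ^ 2)) : ℂ)) * ψ ((σ⁻¹ / 2) • u)) * e'

include hσ in
/-- the closed form vanishes for `σ < 1/75` -/
theorem phb_small {ψ : E2 → ℂ} (hψ : ∀ A, ψ A ≠ 0 → ‖A‖ ≤ 2) (h0 : 0 ≤ h) (h1 : h ≤ 1) (hA : ‖A‖ ≤ 4) (hs : σ < 1 / 75) :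
    (((Real.smoothTransition (2 - σ ^ 2 * (1 + ‖A + (h * σ⁻¹ / 2) • u‖ ^ 2) ^ 2 / 16)
        - Real.smoothTransition (2 - 4 * (σ ^ 2 * (1 + ‖A + (h * σ⁻¹ / 2) • u‖ ^ 2) ^ 2)) : ℝ) : ℂ)) * ψ ((σ⁻¹ / 2) • u) = 0 := by
  by_cases hz : ψ ((σ⁻¹ / 2) • u) = 0
  · rw [hz, mul_zero]
  · have h2 := hψ _ hz
    have e : A + (h * σ⁻¹ / 2) • u = A + h • ((σ⁻¹ / 2) • u) := by
      rw [smul_smul]
      congr 2
      ring
    have h3 : ‖A + (h * σ⁻¹ / 2) • u‖ ≤ 6 := by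
      rw [e]
      refine (norm_add_le _ _).trans ?_
      rw [norm_smul, Real.norm_eq_abs, abs_of_nonneg h0]
      have : h * ‖(σ⁻¹ / 2) • u‖ ≤ 1 * 2 := mul_le_mul h1 h2 (norm_nonneg _) zero_le_one
      linarith
    obtain ⟨m, hm⟩ : ∃ m : ℝ, m = ‖A + (h * σ⁻¹ / 2) • u‖ := ⟨_, rfl⟩
    rw [← hm] at h3 ⊢
    have hm0 : 0 ≤ m := by rw [hm]; positivity
    have h4 : 1 + m ^ 2 ≤ 37 := by nlinarith
    have h5 : σ * (1 + m ^ 2) ≤ 37 / 75 := by nlinarith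
    have h5' : 0 ≤ σ * (1 + m ^ 2) := by positivity
    have h6 : σ ^ 2 * (1 + m ^ 2) ^ 2 ≤ (37 / 75) ^ 2 := by
      rw [← mul_pow]
      exact pow_le_pow_left₀ h5' h5 2
    rw [Real.smoothTransition.one_of_one_le (by nlinarith), Real.smoothTransition.one_of_one_le (by nlinarith)]
    simp

end closed

/-- the integrand after the substitution, `H = h²` -/
theorem phb_point_h {ψ : E2 → ℂ} (hψ : ∀ A, ψ A ≠ 0 → ‖A‖ ≤ 2) (h : ℝ) (hh : 0 < h) (h1 : h ≤ 1) (T : ℝ) (p : PhRow) (z : E3) (hA : ‖p.1‖ ≤ 4)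
    (w : E2 × ℝ) :
    phSpec (fun ξ => (pat (h ^ 2)⁻¹ ξ : ℂ) * ee (-⟪z, ξ⟫_ℝ)) (phbL (h ^ 2) p.1 w)
        * ψ ((Real.sqrt (1 / h ^ 2)) • ((2 * (phbL (h ^ 2) p.1 w).2)⁻¹ • (phbL (h ^ 2) p.1 w).1 - p.1))
        * ee (phPh T p.2.1 p.2.2 (phbL (h ^ 2) p.1 w))
      = ee (⟪w.1, h⁻¹ • phDb T p z⟫_ℝ + w.2 * (-(phDy T p z) / h ^ 2)) * phbAmp ψ (w, (p.1, h, T + z 2)) := by
  obtain ⟨u, σ⟩ := w
  obtain ⟨A, b, y⟩ := p
  simp only at hA ⊢
  by_cases hσ : 0 < σ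
  · rw [phb_closed h hh A u σ hσ ψ T b y z]
    congr 1
    unfold phbAmp phbR phbA
    simp only
    by_cases h100 : 1 / 100 ≤ σ
    · rw [phb_M_of_ge h100]
      by_cases h75 : 1 / 75 ≤ σ
      · have e75 : Real.smoothTransition (300 * σ - 3) = 1 := Real.smoothTransition.one_of_one_le (by linarith)
        rw [e75, one_mul]
      · have hz := phb_small h A u σ hσ hψ hh.le h1 hA (not_le.1 h75)
        push_cast at hz ⊢
        linear_combination ((1 + (‖A + (h * σ⁻¹ / 2) • u‖ : ℂ) ^ 2)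
          * (chi ((1 - ‖A + (h * σ⁻¹ / 2) • u‖ ^ 2) / (1 + ‖A + (h * σ⁻¹ / 2) • u‖ ^ 2)) : ℂ) * ee (-((T + z 2) * ‖u‖ ^ 2 * σ⁻¹ / 4))
          * (1 - (Real.smoothTransition (300 * σ - 3) : ℂ))) * hz
    · have hz := phb_small h A u σ hσ hψ hh.le h1 hA (by rw [not_le] at h100; linarith)
      have e100 : Real.smoothTransition (300 * σ - 3) = 0 := Real.smoothTransition.zero_of_nonpos (by rw [not_le] at h100; linarith)
      rw [e100]
      push_cast at hz ⊢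
      linear_combination ((1 + (‖A + (h * σ⁻¹ / 2) • u‖ : ℂ) ^ 2)
          * (chi ((1 - ‖A + (h * σ⁻¹ / 2) • u‖ ^ 2) / (1 + ‖A + (h * σ⁻¹ / 2) • u‖ ^ 2)) : ℂ) * ee (-((T + z 2) * ‖u‖ ^ 2 * σ⁻¹ / 4))) * hz
  · have hρ : ¬ 0 < (phbL (h ^ 2) A (u, σ)).2 := by
      rw [phb_q2, not_lt] at *
      exact div_nonpos_of_nonpos_of_nonneg hσ (by positivity)
    unfold phSpec phbAmp phbR
    rw [if_neg hρ]
    simp only
    have e0 : Real.smoothTransition (300 * σ - 3) = 0 := Real.smoothTransition.zero_of_nonpos (by rw [not_lt] at hσ; linarith)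
    rw [e0]
    simp

/-- the integrand after the substitution -/
theorem phb_point {ψ : E2 → ℂ} (hψ : ∀ A, ψ A ≠ 0 → ‖A‖ ≤ 2) (n : ℕ) (T : ℝ) (p : PhRow) (z : E3) (hA : ‖p.1‖ ≤ 4) (w : E2 × ℝ) :
    phSpec (fun ξ => (pat (2 ^ n) ξ : ℂ) * ee (-⟪z, ξ⟫_ℝ)) (phbL (phH n) p.1 w)
        * ψ ((Real.sqrt (1 / phH n)) • ((2 * (phbL (phH n) p.1 w).2)⁻¹ • (phbL (phH n) p.1 w).1 - p.1))
        * ee (phPh T p.2.1 p.2.2 (phbL (phH n) p.1 w))
      = ee (⟪w.1, (Real.sqrt (phH n))⁻¹ • phDb T p z⟫_ℝ + w.2 * (-(phDy T p z) / phH n)) * phbAmp ψ (w, (p.1, Real.sqrt (phH n), T + z 2)) := by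
  have hH : 0 < phH n := by unfold phH; positivity
  have hH1 : phH n ≤ 1 := by
    unfold phH
    exact inv_le_one_of_one_le₀ (one_le_pow₀ (by norm_num))
  have key := phb_point_h hψ (Real.sqrt (phH n)) (Real.sqrt_pos.2 hH) (Real.sqrt_le_one.2 hH1) T p z hA w
  rw [Real.sq_sqrt hH.le] at key
  have e : (phH n)⁻¹ = 2 ^ n := by unfold phH; rw [inv_inv]
  rw [e] at key
  exact key

theorem phb_sT_comp {E : Type*} [NormedAddCommGroup E] [NormedSpace ℝ E] {f : E → ℝ} (hf : ContDiff ℝ ∞ f) :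
    ContDiff ℝ ∞ fun x => Real.smoothTransition (f x) :=
  Real.smoothTransition.contDiff.comp hf

theorem phb_M_smooth : ContDiff ℝ ∞ phbM := by
  unfold phbM
  have h1 : ContDiff ℝ ∞ fun σ : ℝ => Real.smoothTransition (200 * σ - 1) := phb_sT_comp (by fun_prop)
  exact (contDiff_id.mul h1).add (contDiff_const.sub h1)

theorem phb_ee_comp {E : Type*} [NormedAddCommGroup E] [NormedSpace ℝ E] {f : E → ℝ} (hf : ContDiff ℝ ∞ f) :
    ContDiff ℝ ∞ fun x => ee (f x) := by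
  unfold ee
  have h1 : ContDiff ℝ ∞ fun x => ((2 * π * f x : ℝ) : ℂ) := Complex.ofRealCLM.contDiff.comp (contDiff_const.mul hf)
  exact (h1.mul contDiff_const).cexp

/-- smoothness of the amplitude -/
theorem phb_smooth {ψ : E2 → ℂ} (hψ : ContDiff ℝ ∞ ψ) : ContDiff ℝ ∞ (phbAmp ψ) := by
  have hσ : ContDiff ℝ ∞ fun x : (E2 × ℝ) × (E2 × ℝ × ℝ) => x.1.2 := contDiff_snd.comp contDiff_fst
  have hu : ContDiff ℝ ∞ fun x : (E2 × ℝ) × (E2 × ℝ × ℝ) => x.1.1 := contDiff_fst.comp contDiff_fst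
  have hA : ContDiff ℝ ∞ fun x : (E2 × ℝ) × (E2 × ℝ × ℝ) => x.2.1 := contDiff_fst.comp contDiff_snd
  have hh : ContDiff ℝ ∞ fun x : (E2 × ℝ) × (E2 × ℝ × ℝ) => x.2.2.1 := contDiff_fst.comp (contDiff_snd.comp contDiff_snd)
  have hs : ContDiff ℝ ∞ fun x : (E2 × ℝ) × (E2 × ℝ × ℝ) => x.2.2.2 := contDiff_snd.comp (contDiff_snd.comp contDiff_snd)
  have hr : ContDiff ℝ ∞ fun x : (E2 × ℝ) × (E2 × ℝ × ℝ) => (phbM x.1.2)⁻¹ :=
    (phb_M_smooth.comp hσ).inv fun x => (phb_M_pos _).ne'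
  have hA' : ContDiff ℝ ∞ phbA := by
    unfold phbA
    exact hA.add (((hh.mul hr).div_const 2).smul hu)
  have hm : ContDiff ℝ ∞ fun x => ‖phbA x‖ ^ 2 := hA'.norm_sq ℝ
  have hN : ContDiff ℝ ∞ fun x => 1 + ‖phbA x‖ ^ 2 := contDiff_const.add hm
  have hU : ContDiff ℝ ∞ fun x : (E2 × ℝ) × (E2 × ℝ × ℝ) => x.1.2 ^ 2 * (1 + ‖phbA x‖ ^ 2) ^ 2 := (hσ.pow 2).mul (hN.pow 2)
  have hchi : ContDiff ℝ ∞ fun x => chi ((1 - ‖phbA x‖ ^ 2) / (1 + ‖phbA x‖ ^ 2)) := by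
    unfold chi
    exact phb_sT_comp (((contDiff_const.sub hm).div hN fun x => by positivity).add contDiff_const)
  have hR : ContDiff ℝ ∞ phbR := by
    unfold phbR
    exact (((phb_sT_comp ((contDiff_const.mul hσ).sub contDiff_const)).mul hN).mul
      ((phb_sT_comp (contDiff_const.sub (hU.div_const 16))).sub (phb_sT_comp (contDiff_const.sub (contDiff_const.mul hU))))).mul hchi
  unfold phbAmp
  exact ((Complex.ofRealCLM.contDiff.comp hR).mul (hψ.comp ((hr.div_const 2).smul hu))).mul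
    (phb_ee_comp ((((hs.mul (hu.norm_sq ℝ)).mul hr).div_const 4).neg))

/-- support of the amplitude -/
theorem phb_supp {ψ : E2 → ℂ} (hψ : ∀ A, ψ A ≠ 0 → ‖A‖ ≤ 2) (w : E2 × ℝ) (θ : E2 × ℝ × ℝ)
    (hw : w ∉ Metric.closedBall (0 : E2) 24 ×ˢ Set.Icc (1 / 100 : ℝ) 6) : phbAmp ψ (w, θ) = 0 := by
  obtain ⟨u, σ⟩ := w
  unfold phbAmp
  simp only
  by_cases h100 : 1 / 100 ≤ σ
  · by_cases h6 : σ ≤ 6
    · have hu : 24 < ‖u‖ := by
        by_contra hc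
        exact hw ⟨by simpa using not_lt.1 hc, h100, h6⟩
      have hσ : 0 < σ := by linarith
      have hz : ψ (((phbM σ)⁻¹ / 2) • u) = 0 := by
        by_contra hc
        have h2 := hψ _ hc
        rw [phb_M_of_ge h100, norm_smul, Real.norm_eq_abs, abs_of_pos (by positivity)] at h2
        have : σ⁻¹ / 2 * ‖u‖ = ‖u‖ / (2 * σ) := by field_simp
        rw [this, div_le_iff₀ (by positivity)] at h2
        linarith
      rw [hz]
      simp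
    · have hR : phbR ((u, σ), θ) = 0 := by
        unfold phbR
        simp only
        obtain ⟨m, hm⟩ : ∃ m : ℝ, m = ‖phbA ((u, σ), θ)‖ ^ 2 := ⟨_, rfl⟩
        rw [← hm]
        have hm0 : 0 ≤ m := by rw [hm]; positivity
        have h6' : 6 < σ := not_le.1 h6
        have h1 : 6 ≤ σ * (1 + m) := by nlinarith
        have h2 : (6 : ℝ) ^ 2 ≤ σ ^ 2 * (1 + m) ^ 2 := by
          rw [← mul_pow]
          exact pow_le_pow_left₀ (by norm_num) h1 2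
        have a1 : Real.smoothTransition (2 - σ ^ 2 * (1 + m) ^ 2 / 16) = 0 := Real.smoothTransition.zero_of_nonpos (by linarith)
        have a2 : Real.smoothTransition (2 - 4 * (σ ^ 2 * (1 + m) ^ 2)) = 0 := Real.smoothTransition.zero_of_nonpos (by linarith)
        rw [a1, a2]
        simp
      rw [hR]
      simp
  · have hR : phbR ((u, σ), θ) = 0 := by
      unfold phbR
      simp only
      have e100 : Real.smoothTransition (300 * σ - 3) = 0 := Real.smoothTransition.zero_of_nonpos (by rw [not_le] at h100; linarith)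
      rw [e100]
      simp
    rw [hR]
    simp

/-- **EXIT (K2)** -/
theorem phb_bd {ψ : E2 → ℂ} (hψ : PhWin ψ) (L : ℕ) : ∃ C : ℝ, 0 ≤ C ∧ ∀ (n : ℕ) (T : ℝ) (p : PhRow) (z : E3), |T| ≤ 3 → ‖z‖ ≤ 6 → ‖p.1‖ ≤ 4 →
    ‖phRow ψ (phH n) 1 (phSpec (fun ξ => (pat (2 ^ n) ξ : ℂ) * ee (-⟪z, ξ⟫_ℝ))) T p‖
      ≤ C * (phH n) ^ (-2 : ℝ) * ((1 + phX (phH n) T p z) ^ L)⁻¹ := by
  have hKW : IsCompact (Metric.closedBall (0 : E2) 24 ×ˢ Set.Icc (1 / 100 : ℝ) 6) := (isCompact_closedBall _ _).prod isCompact_Icc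
  have hKP : IsCompact (Metric.closedBall (0 : E2) 4 ×ˢ (Set.Icc (0 : ℝ) 1 ×ˢ Set.Icc (-9 : ℝ) 9)) :=
    (isCompact_closedBall _ _).prod (isCompact_Icc.prod isCompact_Icc)
  obtain ⟨C, hC0, hC⟩ := ls_unif_decay2 (phbAmp ψ) (phb_smooth hψ.smooth) hKW hKP (fun w θ _ hw => phb_supp hψ.supp w θ hw) L
  refine ⟨C, hC0, fun n T p z hT hz hA => ?_⟩
  have hH : 0 < phH n := by unfold phH; positivity
  have hH1 : phH n ≤ 1 := by
    unfold phH
    exact inv_le_one_of_one_le₀ (one_le_pow₀ (by norm_num))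
  have hs0 : 0 < Real.sqrt (phH n) := Real.sqrt_pos.2 hH
  have hz2 : |z 2| ≤ 6 := by
    have := PiLp.norm_apply_le z 2
    rw [Real.norm_eq_abs] at this
    exact this.trans hz
  have hθ : (p.1, Real.sqrt (phH n), T + z 2) ∈ Metric.closedBall (0 : E2) 4 ×ˢ (Set.Icc (0 : ℝ) 1 ×ˢ Set.Icc (-9 : ℝ) 9) := by
    refine ⟨by simpa using hA, ⟨hs0.le, Real.sqrt_le_one.2 hH1⟩, ?_⟩
    have h1 := abs_le.1 hT
    have h2 := abs_le.1 hz2
    exact ⟨by show -9 ≤ T + z 2; linarith [h1.1, h2.1], by show T + z 2 ≤ 9; linarith [h1.2, h2.2]⟩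
  have key := hC _ hθ ((Real.sqrt (phH n))⁻¹ • phDb T p z) (-(phDy T p z) / phH n)
  have e1 : 1 + ‖(Real.sqrt (phH n))⁻¹ • phDb T p z‖ + |-(phDy T p z) / phH n| = 1 + phX (phH n) T p z := by
    unfold phX
    rw [norm_smul, Real.norm_eq_abs, abs_of_pos (inv_pos.2 hs0), abs_div, abs_neg, abs_of_pos hH]
    ring
  rw [e1] at key
  have hX : 0 < (1 + phX (phH n) T p z) ^ L := by
    have : 0 ≤ phX (phH n) T p z := by unfold phX; positivity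
    positivity
  unfold phRow
  rw [phb_subst (phH n) hH p.1, integral_congr_ae (Filter.Eventually.of_forall fun w => phb_point hψ.supp n T p z hA w), norm_smul,
    Real.norm_eq_abs, abs_of_pos (by positivity)]
  have e2 : (phH n) ^ (-2 : ℝ) = (phH n ^ 2)⁻¹ := by
    rw [Real.rpow_neg hH.le]
    norm_num
  rw [e2]
  have k2 : ‖∫ w : E2 × ℝ, ee (⟪w.1, (Real.sqrt (phH n))⁻¹ • phDb T p z⟫_ℝ + w.2 * (-(phDy T p z) / phH n))
      * phbAmp ψ (w, (p.1, Real.sqrt (phH n), T + z 2))‖ ≤ C * ((1 + phX (phH n) T p z) ^ L)⁻¹ := by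
    rw [← div_eq_mul_inv, le_div_iff₀ hX, mul_comm]
    exact key
  calc (phH n ^ 2)⁻¹ * _ ≤ (phH n ^ 2)⁻¹ * (C * ((1 + phX (phH n) T p z) ^ L)⁻¹) := mul_le_mul_of_nonneg_left k2 (by positivity)
    _ = _ := by ring

end Claimed.Agent.R256
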