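-- KEEP
import Claimed.Agent.R256.Phys.Iso
import Claimed.Agent.R256.Phys.KerBd

/-!
# Row 256, L3, BLOCK K : uniform packet localisation from the initial slice (Lemma phys-initial-kernel, 09 l.152-211)      (chief helper73; prefix `ph_`, block prefix `phk_`)

EXIT = `ph_mass_split`.
* `phKer n ψ T p z` = the row of the point mass at `z` :  `phRow ψ H 1 (phSpec (pat(2^n) e(-<z,·>))) T p`.
* (K1) `ph_row_ker` : Fubini.
* (K2) `ph_ker_bd` : substitute `η = 2ρA + H^{-1/2} ω`, `σ = Hρ` (Jacobian `H^{-2}`).  EXACT phase identity (checked):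
      `(b-z')·η - (y-z₃)ρ - (T+z₃)|η|²/(4ρ) = ω·Δb/√H - σ Δy/H - (T+z₃)|ω|²/(4σ)`.
   Amplitude `Φ(θ; ω, σ)`, `θ = (A, h, s) = (A, √H, T + z₃)` in the compact set `|A| ≤ 4`, `0 ≤ h ≤ 1`, `|s| ≤ 9`:  with `A' = A + hω/(2σ)`:
      `Φ = (1+|A'|²) a(σ²(1+|A'|²)²) chi((1-|A'|²)/(1+|A'|²)) ψ(ω/(2σ)) e(-s|ω|²/(4σ))`,   `a(u) = sT(2 - u/16) - sT(2 - 4u)`  (`fat (2^n) η = a(|η|²/4^n)`),
   supported in `1/8 ≤ σ ≤ 6`, `|ω| ≤ 24`.  To have a GLOBALLY smooth formula replace `1/σ` by `ι(σ)`, smooth, `= 1/σ` for `σ ≥ 1/16`, and multiply by `κ(σ)`, smooth, `= 0` for `σ ≤ 1/16`, `= 1` for `σ ≥ 1/8`.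
   Then `phKer = H^{-2} ∫ Φ(θ; ω, σ) e(ω·Δb/√H - σΔy/H)` and the TOOL `ls_unif_decay2` (`Top/Tools.lean`, PROVED: uniform decay of the Fourier transforms of a compact smooth family) gives the bound.
* (K3) `ph_hs` : for fixed `(A, z)` the map `(b,y) ↦ (Δb/√H, Δy/H)` is affine with Jacobian `H^{-2}`; `∫ (1+|Y|)^{-L-4} 1_{|Y| ≥ Λ} ≤ C Λ^{-L}`.
* glue: `g = g 1_E + g 1_{Eᶜ}`, `|a+b|² ≤ 2|a|²+2|b|²`; first part: `ph_mass_le`, `ph_energy`; second part: (K1), Cauchy-Schwarz in `z`, (K2), (K3), `ph_row_zero`.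
-/

set_option autoImplicit false

namespace Claimed.Agent.R256

open MeasureTheory Complex Claimed.Agent.R255.BR
open scoped FourierTransform Real SchwartzMap InnerProductSpace ENNReal ContDiff

/-- the kernel of `g ↦ V₁ v(T)` -/
noncomputable def phKer (n : ℕ) (ψ : E2 → ℂ) (T : ℝ) (p : PhRow) (z : E3) : ℂ :=
  phRow ψ (phH n) 1 (phSpec (fun ξ => (pat (2 ^ n) ξ : ℂ) * ee (-⟪z, ξ⟫_ℝ))) T p

theorem ph_ker_eqns_cite : True := by
  have := @phKer.eq_1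
  trivial

theorem phk_spec_mul (P c : E3 → ℂ) (q : E2 × ℝ) : phSpec (fun ξ => P ξ * c ξ) q = phSpec P q * c (phXi q) := by
  unfold phSpec
  split_ifs
  · ring
  · rw [zero_mul]

theorem phk_xi_meas : Measurable phXi := by
  unfold phXi
  refine continuous_J.measurable.comp ?_
  have h2 : Measurable fun q : E2 × ℝ => ‖q.1‖ ^ 2 := (continuous_fst.norm.pow 2).measurable
  exact measurable_fst.prodMk ((h2.div (measurable_snd.const_mul 4)).sub measurable_snd)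

theorem phk_win_bd {ψ : E2 → ℂ} (hψ : PhWin ψ) : ∃ C : ℝ, ∀ A, ‖ψ A‖ ≤ C := by
  have hc : HasCompactSupport ψ := HasCompactSupport.intro (isCompact_closedBall (0 : E2) 2) fun A hA => by
    by_contra h0
    exact hA (by rw [mem_closedBall_zero_iff]; exact hψ.supp A h0)
  exact hc.exists_bound_of_continuous hψ.smooth.continuous

theorem phk_amp_meas {ψ : E2 → ℂ} (hψ : PhWin ψ) (H l T : ℝ) (p : PhRow) :
    Measurable fun q : E2 × ℝ => ψ ((Real.sqrt (l / H)) • ((2 * q.2)⁻¹ • q.1 - p.1)) * ee (phPh T p.2.1 p.2.2 q) := by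
  refine (hψ.smooth.continuous.measurable.comp ?_).mul (continuous_ee.measurable.comp (ph_st_ph_meas _ _ _))
  have h1 : Measurable fun q : E2 × ℝ => (2 * q.2)⁻¹ := (measurable_snd.const_mul (2 : ℝ)).inv
  have h2 : Measurable fun q : E2 × ℝ => (2 * q.2)⁻¹ • q.1 - p.1 := (h1.smul measurable_fst).sub_const _
  exact h2.const_smul (Real.sqrt (l / H))

/-- **K1** -/
theorem ph_row_ker {ψ : E2 → ℂ} (hψ : PhWin ψ) (n : ℕ) {g : E3 → ℂ} (hg : Integrable g) (T : ℝ) (p : PhRow) :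
    phRow ψ (phH n) 1 (phF n g) T p = ∫ z, phKer n ψ T p z * g z := by
  have hs : (0 : ℝ) < 2 ^ n := by positivity
  obtain ⟨Cψ, hCψ⟩ := phk_win_bd hψ
  set P : E2 × ℝ → ℂ := phSpec (fun ξ => (pat (2 ^ n) ξ : ℂ)) with hP
  have hPi : Integrable P := (ph_freq _ ((ls_pat_ck hs).1.integrable_of_hasCompactSupport (ls_pat_ck hs).2)).1
  set A : E2 × ℝ → ℂ := fun q => ψ ((Real.sqrt (1 / phH n)) • ((2 * q.2)⁻¹ • q.1 - p.1)) * ee (phPh T p.2.1 p.2.2 q) with hA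
  have hAm : Measurable A := phk_amp_meas hψ (phH n) 1 T p
  have hAb : ∀ q, ‖A q‖ ≤ Cψ := fun q => by
    rw [hA]
    simp only [norm_mul, norm_ee, mul_one]
    exact hCψ _
  have hm : Integrable fun q => P q * A q := hPi.mul_bdd hAm.aestronglyMeasurable (Filter.Eventually.of_forall hAb)
  have hint : Integrable (Function.uncurry fun (q : E2 × ℝ) (z : E3) => (P q * A q * g z) * ee (-⟪z, phXi q⟫_ℝ)) (volume.prod volume) := by
    refine (hm.mul_prod hg).mul_bdd (c := 1) ?_ (Filter.Eventually.of_forall fun w => by rw [norm_ee])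
    refine (continuous_ee.measurable.comp ?_).aestronglyMeasurable
    exact (measurable_snd.inner (phk_xi_meas.comp measurable_fst)).neg
  have e1 : phRow ψ (phH n) 1 (phF n g) T p = ∫ q, ∫ z, (P q * A q * g z) * ee (-⟪z, phXi q⟫_ℝ) := by
    unfold phRow
    refine integral_congr_ae (Filter.Eventually.of_forall fun q => ?_)
    simp only
    unfold phF
    rw [phk_spec_mul, fourier_ee, ← hP, mul_assoc (P q * _), ← integral_const_mul, ← integral_mul_const]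
    refine integral_congr_ae (Filter.Eventually.of_forall fun z => ?_)
    simp only [hA]
    ring
  have e2 : ∀ z, phKer n ψ T p z * g z = ∫ q, (P q * A q * g z) * ee (-⟪z, phXi q⟫_ℝ) := by
    intro z
    unfold phKer phRow
    rw [← integral_mul_const]
    refine integral_congr_ae (Filter.Eventually.of_forall fun q => ?_)
    simp only
    rw [phk_spec_mul, ← hP]
    simp only [hA]
    ring
  rw [e1, integral_integral_swap hint]
  simp only [e2]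

/-- **K2** -/
theorem ph_ker_bd {ψ : E2 → ℂ} (hψ : PhWin ψ) (L : ℕ) : ∃ C : ℝ, 0 ≤ C ∧ ∀ (n : ℕ) (T : ℝ) (p : PhRow) (z : E3), |T| ≤ 3 → ‖z‖ ≤ 6 → ‖p.1‖ ≤ 4 →
    ‖phKer n ψ T p z‖ ≤ C * (phH n) ^ (-2 : ℝ) * ((1 + phX (phH n) T p z) ^ L)⁻¹ :=
  phb_bd hψ L

theorem phk_scale {E : Type*} [NormedAddCommGroup E] [NormedSpace ℝ E] [MeasurableSpace E] [BorelSpace E] [FiniteDimensional ℝ E]
    (μ : Measure E) [μ.IsAddHaarMeasure] (h : E → ℝ≥0∞) {r : ℝ} (hr : r ≠ 0) :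
    ∫⁻ x, h (r • x) ∂μ = ENNReal.ofReal |(r ^ Module.finrank ℝ E)⁻¹| * ∫⁻ x, h x ∂μ := by
  have e := (Homeomorph.smulOfNeZero r hr : E ≃ₜ E).measurableEmbedding.lintegral_map (μ := μ) h
  have e2 : Measure.map (⇑(Homeomorph.smulOfNeZero r hr : E ≃ₜ E)) μ = ENNReal.ofReal |(r ^ Module.finrank ℝ E)⁻¹| • μ :=
    Measure.map_addHaar_smul μ hr
  rw [e2, lintegral_smul_measure] at e
  exact e.symm

theorem phk_X_cont (H T : ℝ) : Continuous fun w : PhRow × E3 => phX H T w.1 w.2 := by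
  have h2 : Continuous fun w : PhRow × E3 => w.2 2 := (EuclideanSpace.proj (2 : Fin 3) : E3 →L[ℝ] ℝ).continuous.comp continuous_snd
  have h3 : Continuous fun w : PhRow × E3 => (Ji w.2).1 := continuous_fst.comp (continuous_Ji.comp continuous_snd)
  have hb : Continuous fun w : PhRow × E3 => phDb T w.1 w.2 := by
    unfold phDb
    exact ((continuous_fst.comp (continuous_snd.comp continuous_fst)).sub h3).sub
      ((continuous_const.add h2).smul (continuous_fst.comp continuous_fst))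
  have hy : Continuous fun w : PhRow × E3 => phDy T w.1 w.2 := by
    unfold phDy
    exact (((continuous_snd.comp (continuous_snd.comp continuous_fst)).sub h2).sub
      ((continuous_const.add h2).mul ((continuous_fst.comp continuous_fst).norm.pow 2))).sub
      (continuous_const.mul ((continuous_fst.comp continuous_fst).inner hb))
  unfold phX
  exact (hb.norm.div_const _).add (hy.abs.div_const _)

/-- the affine substitution `(b, y) ↦ (Δb/√H, Δy/H)` -/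
theorem phk_subst (f : ℝ → ℝ≥0∞) (hf : Measurable f) {H : ℝ} (hH : 0 < H) (T : ℝ) (A : E2) (z : E3) :
    ∫⁻ X : E2 × ℝ, f (phX H T (A, X.1, X.2) z) = ENNReal.ofReal (H ^ 2) * ∫⁻ Y : E2 × ℝ, f (‖Y.1‖ + |Y.2|) := by
  have hsq : 0 < Real.sqrt H := Real.sqrt_pos.2 hH
  have m1 : Measurable fun X : E2 × ℝ => f (phX H T (A, X.1, X.2) z) :=
    hf.comp ((phk_X_cont H T).comp (by fun_prop : Continuous fun X : E2 × ℝ => (((A, X.1, X.2), z) : PhRow × E3))).measurable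
  have m2 : Measurable fun Y : E2 × ℝ => f (‖Y.1‖ + |Y.2|) :=
    hf.comp (continuous_fst.norm.add continuous_snd.abs).measurable
  rw [Measure.volume_eq_prod, lintegral_prod _ m1.aemeasurable, lintegral_prod _ m2.aemeasurable]
  set c₁ : E2 := (Ji z).1 + (T + z 2) • A with hc₁
  -- translation in `y`
  have s1 : ∀ b : E2, ∫⁻ y : ℝ, f (phX H T (A, b, y) z) = ∫⁻ v : ℝ, f (‖b - c₁‖ / Real.sqrt H + |v| / H) := by
    intro b
    rw [← lintegral_sub_right_eq_self (fun v : ℝ => f (‖b - c₁‖ / Real.sqrt H + |v| / H)) (z 2 + (T + z 2) * ‖A‖ ^ 2 + 2 * ⟪A, b - c₁⟫_ℝ)]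
    refine lintegral_congr fun y => ?_
    have e1 : phDb T (A, b, y) z = b - c₁ := by
      unfold phDb
      simp only [hc₁]
      abel
    unfold phX phDy
    rw [e1]
    simp only
    congr 4
    ring
  simp only [s1]
  -- translation in `b`
  rw [lintegral_sub_right_eq_self (fun u : E2 => ∫⁻ v : ℝ, f (‖u‖ / Real.sqrt H + |v| / H)) c₁]
  -- scaling in `v`
  have s2 : ∀ u : E2, ∫⁻ v : ℝ, f (‖u‖ / Real.sqrt H + |v| / H) = ENNReal.ofReal H * ∫⁻ v : ℝ, f (‖u‖ / Real.sqrt H + |v|) := by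
    intro u
    have := phk_scale (volume : Measure ℝ) (fun v : ℝ => f (‖u‖ / Real.sqrt H + |v|)) (inv_ne_zero hH.ne')
    simp only [Module.finrank_self, pow_one, inv_inv, abs_of_pos hH, smul_eq_mul, abs_mul, abs_inv] at this
    rw [← this]
    refine lintegral_congr fun v => ?_
    rw [div_eq_inv_mul |v| H]
  simp only [s2]
  rw [lintegral_const_mul' _ _ ENNReal.ofReal_ne_top]
  -- scaling in `u`
  have s3 := phk_scale (volume : Measure E2) (fun u : E2 => ∫⁻ v : ℝ, f (‖u‖ + |v|)) (inv_ne_zero hsq.ne')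
  simp only [finrank_euclideanSpace_fin, inv_pow, inv_inv, Real.sq_sqrt hH.le, abs_of_pos hH, norm_smul, norm_inv, Real.norm_eq_abs,
    abs_of_pos hsq] at s3
  have s4 : ∫⁻ u : E2, ∫⁻ v : ℝ, f (‖u‖ / Real.sqrt H + |v|) = ENNReal.ofReal H * ∫⁻ u : E2, ∫⁻ v : ℝ, f (‖u‖ + |v|) := by
    rw [← s3]
    refine lintegral_congr fun u => ?_
    rw [div_eq_inv_mul ‖u‖]
  rw [s4, ← mul_assoc, ← ENNReal.ofReal_mul hH.le, sq]

theorem phk_tail_int : Integrable fun Y : E2 × ℝ => (1 + ‖Y‖) ^ (-(4 : ℝ)) := by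
  have : (volume : Measure (E2 × ℝ)).IsAddHaarMeasure := by
    rw [Measure.volume_eq_prod]
    infer_instance
  refine integrable_one_add_norm ?_
  rw [Module.finrank_prod, finrank_euclideanSpace_fin, Module.finrank_self]
  norm_num

theorem phk_tail (L : ℕ) {Λ : ℝ} (hΛ : 1 ≤ Λ) :
    ∫⁻ Y : E2 × ℝ, (if Λ ≤ ‖Y.1‖ + |Y.2| then ENNReal.ofReal (((1 + (‖Y.1‖ + |Y.2|)) ^ (L + 4))⁻¹) else 0)
      ≤ ENNReal.ofReal ((Λ ^ L)⁻¹ * ∫ Y : E2 × ℝ, (1 + ‖Y‖) ^ (-(4 : ℝ))) := by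
  have hΛ0 : 0 < Λ := by linarith
  rw [ENNReal.ofReal_mul (by positivity), ofReal_integral_eq_lintegral_ofReal phk_tail_int
    (Filter.Eventually.of_forall fun Y => by positivity), ← lintegral_const_mul' _ _ ENNReal.ofReal_ne_top]
  refine lintegral_mono fun Y => ?_
  simp only
  split_ifs with h
  · rw [← ENNReal.ofReal_mul (by positivity)]
    refine ENNReal.ofReal_le_ofReal ?_
    have h1 : ‖Y‖ ≤ ‖Y.1‖ + |Y.2| := by
      rw [Prod.norm_def]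
      refine max_le (by linarith [abs_nonneg Y.2]) ?_
      rw [Real.norm_eq_abs]
      linarith [norm_nonneg Y.1]
    have h0 : 0 ≤ ‖Y‖ := norm_nonneg Y
    have e4 : (1 + ‖Y‖) ^ (-(4 : ℝ)) = ((1 + ‖Y‖) ^ 4)⁻¹ := by
      rw [Real.rpow_neg (by positivity)]
      congr 1
      exact_mod_cast Real.rpow_natCast (1 + ‖Y‖) 4
    rw [e4, pow_add, mul_inv]
    refine mul_le_mul ?_ ?_ (by positivity) (by positivity)
    · exact inv_anti₀ (by positivity) (pow_le_pow_left₀ hΛ0.le (by linarith) L)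
    · exact inv_anti₀ (by positivity) (pow_le_pow_left₀ (by positivity) (by linarith) 4)
  · exact zero_le

/-- **K3** the Hilbert-Schmidt integral of the majorant outside the relation -/
theorem ph_hs (L : ℕ) : ∃ C : ℝ, 0 ≤ C ∧ ∀ (H T Λ : ℝ), 0 < H → H ≤ 1 → |T| ≤ 3 → 1 ≤ Λ →
    ∫⁻ p : PhRow, ∫⁻ z : E3, (if ‖p.1‖ ≤ 4 ∧ ‖z‖ ≤ 6 ∧ Λ ≤ phX H T p z then ENNReal.ofReal (((1 + phX H T p z) ^ (L + 4))⁻¹) else 0)
      ≤ ENNReal.ofReal (C * H ^ 2 * (Λ ^ L)⁻¹) := by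
  set va : ℝ := (volume (Metric.closedBall (0 : E2) 4)).toReal with hva
  set vc : ℝ := (volume (Metric.closedBall (0 : E3) 6)).toReal with hvc
  set J4 : ℝ := ∫ Y : E2 × ℝ, (1 + ‖Y‖) ^ (-(4 : ℝ)) with hJ4
  have hJ0 : 0 ≤ J4 := integral_nonneg fun Y => by positivity
  refine ⟨va * vc * J4, by positivity, fun H T Λ hH _ _ hΛ => ?_⟩
  have hΛ0 : 0 < Λ := by linarith
  set f : ℝ → ℝ≥0∞ := fun r => if Λ ≤ r then ENNReal.ofReal (((1 + r) ^ (L + 4))⁻¹) else 0 with hf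
  have hfm : Measurable f := by
    refine Measurable.ite (measurableSet_le measurable_const measurable_id) ?_ measurable_const
    exact ENNReal.measurable_ofReal.comp (((measurable_const.add measurable_id).pow_const _).inv)
  set a : E2 → ℝ≥0∞ := (Metric.closedBall (0 : E2) 4).indicator 1 with ha
  set c : E3 → ℝ≥0∞ := (Metric.closedBall (0 : E3) 6).indicator 1 with hc
  have ham : Measurable a := measurable_one.indicator measurableSet_closedBall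
  have hcm : Measurable c := measurable_one.indicator measurableSet_closedBall
  have hpt : ∀ (p : PhRow) (z : E3), (if ‖p.1‖ ≤ 4 ∧ ‖z‖ ≤ 6 ∧ Λ ≤ phX H T p z then ENNReal.ofReal (((1 + phX H T p z) ^ (L + 4))⁻¹) else 0)
      = a p.1 * c z * f (phX H T p z) := by
    intro p z
    by_cases h1 : ‖p.1‖ ≤ 4
    · by_cases h2 : ‖z‖ ≤ 6
      · have e1 : a p.1 = 1 := Set.indicator_of_mem (by rw [mem_closedBall_zero_iff]; exact h1) _
        have e2 : c z = 1 := Set.indicator_of_mem (by rw [mem_closedBall_zero_iff]; exact h2) _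
        rw [e1, e2, one_mul, one_mul, hf]
        simp only [h1, h2, true_and]
      · have e2 : c z = 0 := Set.indicator_of_notMem (by rw [mem_closedBall_zero_iff]; exact h2) _
        rw [e2, mul_zero, zero_mul, if_neg (fun h => h2 h.2.1)]
    · have e1 : a p.1 = 0 := Set.indicator_of_notMem (by rw [mem_closedBall_zero_iff]; exact h1) _
      rw [e1, zero_mul, zero_mul, if_neg (fun h => h1 h.1)]
  simp only [hpt]
  have mF : Measurable fun w : PhRow × E3 => a w.1.1 * c w.2 * f (phX H T w.1 w.2) :=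
    ((ham.comp (measurable_fst.comp measurable_fst)).mul (hcm.comp measurable_snd)).mul (hfm.comp (phk_X_cont H T).measurable)
  have m1 : Measurable fun p : PhRow => ∫⁻ z : E3, a p.1 * c z * f (phX H T p z) := mF.lintegral_prod_right'
  rw [show (volume : Measure PhRow) = (volume : Measure E2).prod (volume : Measure (E2 × ℝ)) from rfl, lintegral_prod _ m1.aemeasurable]
  have s1 : ∀ A : E2, ∫⁻ X : E2 × ℝ, ∫⁻ z : E3, a A * c z * f (phX H T (A, X) z)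
      = a A * (ENNReal.ofReal vc * (ENNReal.ofReal (H ^ 2) * ∫⁻ Y : E2 × ℝ, f (‖Y.1‖ + |Y.2|))) := by
    intro A
    rw [lintegral_lintegral_swap (f := fun (X : E2 × ℝ) (z : E3) => a A * c z * f (phX H T (A, X) z))
      (mF.comp (by fun_prop : Measurable fun w : (E2 × ℝ) × E3 => (((A, w.1), w.2) : PhRow × E3))).aemeasurable]
    have s2 : ∀ z : E3, ∫⁻ X : E2 × ℝ, a A * c z * f (phX H T (A, X) z)
        = a A * (c z * (ENNReal.ofReal (H ^ 2) * ∫⁻ Y : E2 × ℝ, f (‖Y.1‖ + |Y.2|))) := by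
      intro z
      have hne : a A * c z ≠ ⊤ := by
        refine ENNReal.mul_ne_top ?_ ?_
        · rw [ha]; by_cases h : A ∈ Metric.closedBall (0 : E2) 4 <;> simp [h]
        · rw [hc]; by_cases h : z ∈ Metric.closedBall (0 : E3) 6 <;> simp [h]
      rw [lintegral_const_mul' _ _ hne, ← phk_subst f hfm hH T A z, mul_assoc]
    simp only [s2]
    have hne : a A ≠ ⊤ := by
      rw [ha]; by_cases h : A ∈ Metric.closedBall (0 : E2) 4 <;> simp [h]
    rw [lintegral_const_mul' _ _ hne, lintegral_mul_const _ hcm]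
    congr 2
    rw [hc, lintegral_indicator_one measurableSet_closedBall, hvc, ENNReal.ofReal_toReal (isCompact_closedBall _ _).measure_lt_top.ne]
  simp only [s1]
  rw [lintegral_mul_const _ ham, ha, lintegral_indicator_one measurableSet_closedBall]
  have hva' : volume (Metric.closedBall (0 : E2) 4) = ENNReal.ofReal va := by
    rw [hva, ENNReal.ofReal_toReal (isCompact_closedBall _ _).measure_lt_top.ne]
  rw [hva']
  have ht := phk_tail L hΛ
  calc ENNReal.ofReal va * (ENNReal.ofReal vc * (ENNReal.ofReal (H ^ 2) * ∫⁻ Y : E2 × ℝ, f (‖Y.1‖ + |Y.2|)))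
      ≤ ENNReal.ofReal va * (ENNReal.ofReal vc * (ENNReal.ofReal (H ^ 2) * ENNReal.ofReal ((Λ ^ L)⁻¹ * J4))) := by
        gcongr
    _ = ENNReal.ofReal (va * vc * J4 * H ^ 2 * (Λ ^ L)⁻¹) := by
        rw [← ENNReal.ofReal_mul (by positivity), ← ENNReal.ofReal_mul (by positivity), ← ENNReal.ofReal_mul (by positivity)]
        congr 1
        ring

/-- Cauchy-Schwarz, squared form -/
theorem phk4_cs {α : Type*} [MeasurableSpace α] (μ : Measure α) {f g : α → ℝ≥0∞} (hf : AEMeasurable f μ) (hg : AEMeasurable g μ) :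
    (∫⁻ a, f a * g a ∂μ) ^ 2 ≤ (∫⁻ a, f a ^ 2 ∂μ) * ∫⁻ a, g a ^ 2 ∂μ := by
  have h := ENNReal.lintegral_mul_le_Lp_mul_Lq μ Real.HolderConjugate.two_two hf hg
  have h2 : (∫⁻ a, f a * g a ∂μ) ^ 2 ≤ ((∫⁻ a, f a ^ (2 : ℝ) ∂μ) ^ (1 / (2 : ℝ)) * (∫⁻ a, g a ^ (2 : ℝ) ∂μ) ^ (1 / (2 : ℝ))) ^ 2 :=
    pow_le_pow_left₀ zero_le h 2
  refine h2.trans (le_of_eq ?_)
  rw [mul_pow, ← ENNReal.rpow_natCast, ← ENNReal.rpow_mul, ← ENNReal.rpow_natCast, ← ENNReal.rpow_mul]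
  norm_num

/-- the packet distance is continuous in `z` -/
theorem phk4_X_cont (H T : ℝ) (p : PhRow) : Continuous fun z : E3 => phX H T p z := by
  have h1 : Continuous fun z : E3 => phDb T p z := by
    unfold phDb
    have := continuous_Ji
    fun_prop
  have h2 : Continuous fun z : E3 => phDy T p z := by
    unfold phDy
    fun_prop
  unfold phX
  fun_prop

/-- the majorant is measurable in `z` -/
theorem phk4_W_meas (L : ℕ) (H T Λ : ℝ) (p : PhRow) : Measurable fun z : E3 =>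
    (if ‖p.1‖ ≤ 4 ∧ ‖z‖ ≤ 6 ∧ Λ ≤ phX H T p z then ENNReal.ofReal (((1 + phX H T p z) ^ (L + 4))⁻¹) else 0) := by
  have hX := phk4_X_cont H T p
  refine Measurable.ite ?_ ?_ measurable_const
  · exact (MeasurableSet.const _).inter ((isClosed_le continuous_norm continuous_const).measurableSet.inter
      (isClosed_le continuous_const hX).measurableSet)
  · exact ENNReal.measurable_ofReal.comp ((continuous_const.add hX).pow _).measurable.inv

theorem phk4_X_nonneg {H : ℝ} (hH : 0 < H) (T : ℝ) (p : PhRow) (z : E3) : 0 ≤ phX H T p z := by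
  unfold phX
  positivity

/-- the row of data that live outside the relation -/
theorem phk4_far_pt {ψ : E2 → ℂ} (hψ : PhWin ψ) (L : ℕ) {C : ℝ} (hC0 : 0 ≤ C)
    (hC : ∀ (n : ℕ) (T : ℝ) (p : PhRow) (z : E3), |T| ≤ 3 → ‖z‖ ≤ 6 → ‖p.1‖ ≤ 4 →
      ‖phKer n ψ T p z‖ ≤ C * (phH n) ^ (-2 : ℝ) * ((1 + phX (phH n) T p z) ^ (L + 4))⁻¹)
    (n : ℕ) {g : E3 → ℂ} {B : ℝ} (hg : PhData g B) {T Λ : ℝ} (hT : |T| ≤ 3) (p : PhRow)
    (hp : ‖p.1‖ ≤ 4 → ∀ z : E3, g z ≠ 0 → Λ ≤ phX (phH n) T p z) :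
    ‖phRow ψ (phH n) 1 (phF n g) T p‖ₑ ^ 2 ≤ ENNReal.ofReal (C * (phH n) ^ (-2 : ℝ)) ^ 2 *
      (∫⁻ z : E3, (if ‖p.1‖ ≤ 4 ∧ ‖z‖ ≤ 6 ∧ Λ ≤ phX (phH n) T p z then ENNReal.ofReal (((1 + phX (phH n) T p z) ^ (L + 4))⁻¹) else 0)) *
      ∫⁻ z, ‖g z‖ₑ ^ 2 := by
  have hH : 0 < phH n := by unfold phH; positivity
  have hH1 : phH n ≤ 1 := by
    unfold phH
    exact inv_le_one_of_one_le₀ (one_le_pow₀ (by norm_num))
  by_cases hA : ‖p.1‖ ≤ 4
  · obtain ⟨W, hW⟩ : ∃ W : E3 → ℝ≥0∞, W = fun z : E3 =>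
      (if ‖p.1‖ ≤ 4 ∧ ‖z‖ ≤ 6 ∧ Λ ≤ phX (phH n) T p z then ENNReal.ofReal (((1 + phX (phH n) T p z) ^ (L + 4))⁻¹) else 0) := ⟨_, rfl⟩
    have hWm : Measurable W := by rw [hW]; exact phk4_W_meas L _ T Λ p
    have hW1 : ∀ z, W z ^ 2 ≤ W z := by
      intro z
      have : W z ≤ 1 := by
        rw [hW]
        simp only []
        split_ifs
        · rw [← ENNReal.ofReal_one]
          refine ENNReal.ofReal_le_ofReal (inv_le_one_of_one_le₀ (one_le_pow₀ ?_))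
          linarith [phk4_X_nonneg hH T p z]
        · exact zero_le
      calc W z ^ 2 = W z * W z := sq _
        _ ≤ W z * 1 := by gcongr
        _ = W z := mul_one _
    have h1 : ‖phRow ψ (phH n) 1 (phF n g) T p‖ₑ ≤ ENNReal.ofReal (C * (phH n) ^ (-2 : ℝ)) * ∫⁻ z, W z * ‖g z‖ₑ := by
      rw [ph_row_ker hψ n hg.integrable T p, ← lintegral_const_mul' _ _ ENNReal.ofReal_ne_top]
      refine (enorm_integral_le_lintegral_enorm _).trans (lintegral_mono fun z => ?_)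
      by_cases hz : g z = 0
      · rw [hz]; simp
      have hz6 := hg.supp z hz
      have hzX := hp hA z hz
      rw [enorm_mul, ← mul_assoc]
      refine mul_le_mul_left ?_ _
      rw [hW]
      simp only []
      rw [if_pos ⟨hA, hz6, hzX⟩, ← ENNReal.ofReal_mul (by positivity), ← ofReal_norm]
      exact ENNReal.ofReal_le_ofReal (hC n T p z hT hz6 hA)
    rw [← hW]
    calc ‖phRow ψ (phH n) 1 (phF n g) T p‖ₑ ^ 2
        ≤ (ENNReal.ofReal (C * (phH n) ^ (-2 : ℝ)) * ∫⁻ z, W z * ‖g z‖ₑ) ^ 2 := pow_le_pow_left₀ zero_le h1 2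
      _ = ENNReal.ofReal (C * (phH n) ^ (-2 : ℝ)) ^ 2 * (∫⁻ z, W z * ‖g z‖ₑ) ^ 2 := mul_pow _ _ _
      _ ≤ ENNReal.ofReal (C * (phH n) ^ (-2 : ℝ)) ^ 2 * ((∫⁻ z, W z ^ 2) * ∫⁻ z, ‖g z‖ₑ ^ 2) := by
          gcongr
          exact phk4_cs volume hWm.aemeasurable hg.meas.enorm.aemeasurable
      _ ≤ ENNReal.ofReal (C * (phH n) ^ (-2 : ℝ)) ^ 2 * ((∫⁻ z, W z) * ∫⁻ z, ‖g z‖ₑ ^ 2) := by
          gcongr with z
          exact hW1 z
      _ = _ := by rw [mul_assoc]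
  · have h0 : phRow ψ (phH n) 1 (phF n g) T p = 0 := by
      refine ph_row_zero hψ hH one_pos (ph_F_supp n g) T ?_
      have : Real.sqrt (phH n / 1) ≤ 1 := by
        rw [div_one]
        exact Real.sqrt_le_one.2 hH1
      linarith [not_le.1 hA]
    rw [h0]
    simp

theorem phk4_H_facts (n : ℕ) : 0 < phH n ∧ phH n ≤ 1 ∧ (phH n) ^ (-2 : ℝ) = ((phH n) ^ 2)⁻¹ ∧ (phH n) ^ (-3 : ℝ) = ((phH n) ^ 3)⁻¹ := by
  have hH : 0 < phH n := by unfold phH; positivity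
  refine ⟨hH, ?_, ?_, ?_⟩
  · unfold phH
    exact inv_le_one_of_one_le₀ (one_le_pow₀ (by norm_num))
  · rw [show (-2 : ℝ) = -((2 : ℕ) : ℝ) by norm_num, Real.rpow_neg hH.le, Real.rpow_natCast]
  · rw [show (-3 : ℝ) = -((3 : ℕ) : ℝ) by norm_num, Real.rpow_neg hH.le, Real.rpow_natCast]

/-- the mass of the far part -/
theorem phk4_far_mass {ψ : E2 → ℂ} (hψ : PhWin ψ) (L : ℕ) {C : ℝ} (hC0 : 0 ≤ C)
    (hC : ∀ (n : ℕ) (T : ℝ) (p : PhRow) (z : E3), |T| ≤ 3 → ‖z‖ ≤ 6 → ‖p.1‖ ≤ 4 →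
      ‖phKer n ψ T p z‖ ≤ C * (phH n) ^ (-2 : ℝ) * ((1 + phX (phH n) T p z) ^ (L + 4))⁻¹)
    {C' : ℝ} (hC'0 : 0 ≤ C')
    (hC' : ∀ (H T Λ : ℝ), 0 < H → H ≤ 1 → |T| ≤ 3 → 1 ≤ Λ →
      ∫⁻ p : PhRow, ∫⁻ z : E3, (if ‖p.1‖ ≤ 4 ∧ ‖z‖ ≤ 6 ∧ Λ ≤ phX H T p z then ENNReal.ofReal (((1 + phX H T p z) ^ (L + 4))⁻¹) else 0)
        ≤ ENNReal.ofReal (C' * H ^ 2 * (Λ ^ L)⁻¹))
    (n : ℕ) {g : E3 → ℂ} {B : ℝ} (hg : PhData g B) {T Λ : ℝ} (hT : |T| ≤ 3) (hΛ : 1 ≤ Λ) {S : Set PhRow} (hS : MeasurableSet S)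
    (hp : ∀ p ∈ S, ‖p.1‖ ≤ 4 → ∀ z : E3, g z ≠ 0 → Λ ≤ phX (phH n) T p z) :
    phMass ψ (phH n) 1 (phF n g) T S ≤ C ^ 2 * C' * (phH n) ^ (-3 : ℝ) * (Λ ^ L)⁻¹ * ∫ z, ‖g z‖ ^ 2 := by
  obtain ⟨hH, hH1, e2, e3⟩ := phk4_H_facts n
  have hΛ0 : 0 < Λ := by linarith
  have hE0 : 0 ≤ ∫ z, ‖g z‖ ^ 2 := integral_nonneg fun z => by positivity
  have hE : ∫⁻ z, ‖g z‖ₑ ^ 2 = ENNReal.ofReal (∫ z, ‖g z‖ ^ 2) := ph_i_lint_sq hg.memLp
  have hcont := ph_row_cont (l := 1) hψ hH (ph_F_cont n hg.integrable) (ph_F_supp n g) T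
  have hen : ∀ p : PhRow, ENNReal.ofReal (‖phRow ψ (phH n) 1 (phF n g) T p‖ ^ 2) = ‖phRow ψ (phH n) 1 (phF n g) T p‖ₑ ^ 2 := by
    intro p
    rw [ENNReal.ofReal_pow (norm_nonneg _), ofReal_norm]
  have hl : ∫⁻ p in S, ‖phRow ψ (phH n) 1 (phF n g) T p‖ₑ ^ 2
      ≤ ENNReal.ofReal ((C * (phH n) ^ (-2 : ℝ)) ^ 2 * (C' * (phH n) ^ 2 * (Λ ^ L)⁻¹) * ∫ z, ‖g z‖ ^ 2) := by
    calc ∫⁻ p in S, ‖phRow ψ (phH n) 1 (phF n g) T p‖ₑ ^ 2
        ≤ ∫⁻ p in S, ENNReal.ofReal (C * (phH n) ^ (-2 : ℝ)) ^ 2 *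
            (∫⁻ z : E3, (if ‖p.1‖ ≤ 4 ∧ ‖z‖ ≤ 6 ∧ Λ ≤ phX (phH n) T p z then ENNReal.ofReal (((1 + phX (phH n) T p z) ^ (L + 4))⁻¹) else 0)) *
            ∫⁻ z, ‖g z‖ₑ ^ 2 := setLIntegral_mono' hS fun p hpS => phk4_far_pt hψ L hC0 hC n hg hT p (hp p hpS)
      _ ≤ ∫⁻ p : PhRow, ENNReal.ofReal (C * (phH n) ^ (-2 : ℝ)) ^ 2 *
            (∫⁻ z : E3, (if ‖p.1‖ ≤ 4 ∧ ‖z‖ ≤ 6 ∧ Λ ≤ phX (phH n) T p z then ENNReal.ofReal (((1 + phX (phH n) T p z) ^ (L + 4))⁻¹) else 0)) *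
            ∫⁻ z, ‖g z‖ₑ ^ 2 := setLIntegral_le_lintegral _ _
      _ = ENNReal.ofReal (C * (phH n) ^ (-2 : ℝ)) ^ 2 *
            (∫⁻ p : PhRow, ∫⁻ z : E3, (if ‖p.1‖ ≤ 4 ∧ ‖z‖ ≤ 6 ∧ Λ ≤ phX (phH n) T p z then ENNReal.ofReal (((1 + phX (phH n) T p z) ^ (L + 4))⁻¹) else 0)) *
            ∫⁻ z, ‖g z‖ₑ ^ 2 := by
          rw [lintegral_mul_const' _ _ (by rw [hE]; exact ENNReal.ofReal_ne_top),
            lintegral_const_mul' _ _ (ENNReal.pow_ne_top ENNReal.ofReal_ne_top)]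
      _ ≤ ENNReal.ofReal (C * (phH n) ^ (-2 : ℝ)) ^ 2 * ENNReal.ofReal (C' * (phH n) ^ 2 * (Λ ^ L)⁻¹) * ∫⁻ z, ‖g z‖ₑ ^ 2 := by
          gcongr
          exact hC' _ T Λ hH hH1 hT hΛ
      _ = _ := by
          rw [hE, ← ENNReal.ofReal_pow (by positivity), ← ENNReal.ofReal_mul (by positivity), ← ENNReal.ofReal_mul (by positivity)]
  have hr : ∫ p in S, ‖phRow ψ (phH n) 1 (phF n g) T p‖ ^ 2
      ≤ (C * (phH n) ^ (-2 : ℝ)) ^ 2 * (C' * (phH n) ^ 2 * (Λ ^ L)⁻¹) * ∫ z, ‖g z‖ ^ 2 := by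
    have hm : AEStronglyMeasurable (fun p : PhRow => ‖phRow ψ (phH n) 1 (phF n g) T p‖ ^ 2) (volume.restrict S) :=
      (hcont.norm.pow 2).aestronglyMeasurable
    rw [integral_eq_lintegral_of_nonneg_ae (Filter.Eventually.of_forall fun p => by positivity) hm]
    refine ENNReal.toReal_le_of_le_ofReal (by positivity) ?_
    refine le_trans (le_of_eq ?_) hl
    exact lintegral_congr fun p => hen p
  unfold phMass
  calc 1 / phH n * ∫ p in S, ‖phRow ψ (phH n) 1 (phF n g) T p‖ ^ 2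
      ≤ 1 / phH n * ((C * (phH n) ^ (-2 : ℝ)) ^ 2 * (C' * (phH n) ^ 2 * (Λ ^ L)⁻¹) * ∫ z, ‖g z‖ ^ 2) :=
        mul_le_mul_of_nonneg_left hr (by positivity)
    _ = _ := by
        rw [e2, e3]
        field_simp

/-- **EXIT OF BLOCK K** : mass of a set of rows whose predecessors lie in `E` -/
theorem ph_mass_split {ψ : E2 → ℂ} (hψ : PhWin ψ) (L : ℕ) : ∃ C : ℝ, 0 ≤ C ∧ ∀ (n : ℕ) (g : E3 → ℂ) (B T Λ : ℝ) (S : Set PhRow) (E : Set E3),
    PhData g B → |T| ≤ 3 → 1 ≤ Λ → MeasurableSet S → MeasurableSet E →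
    (∀ p ∈ S, ‖p.1‖ ≤ 4 → ∀ z : E3, ‖z‖ ≤ 6 → z ∉ E → Λ ≤ phX (phH n) T p z) →
    phMass ψ (phH n) 1 (phSh T (phF n g)) 0 S ≤ 8 * (∫ z in E, ‖g z‖ ^ 2) + C * (phH n) ^ (-3 : ℝ) * (Λ ^ L)⁻¹ * ∫ z, ‖g z‖ ^ 2 := by
  obtain ⟨C, hC0, hC⟩ := ph_ker_bd hψ (L + 4)
  obtain ⟨C', hC'0, hC'⟩ := ph_hs L
  refine ⟨2 * (C ^ 2 * C'), by positivity, fun n g B T Λ S E hg hT hΛ hS hE hrel => ?_⟩
  obtain ⟨hH, hH1, e2, e3⟩ := phk4_H_facts n
  have hΛ0 : 0 < Λ := by linarith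
  have hg1 := hg.indicator hE
  have hg2 := hg.indicator hE.compl
  have hsplit : g = fun x => E.indicator g x + Eᶜ.indicator g x := by
    funext x
    exact (congrFun (Set.indicator_self_add_compl E g) x).symm
  -- the three families of rows
  have c1 := ph_F_cont n hg1.integrable
  have c2 := ph_F_cont n hg2.integrable
  have s1 := ph_F_supp n (E.indicator g)
  have s2 := ph_F_supp n (Eᶜ.indicator g)
  have hrow : ∀ p : PhRow, phRow ψ (phH n) 1 (phSh T (phF n g)) 0 p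
      = phRow ψ (phH n) 1 (phF n (E.indicator g)) T p + phRow ψ (phH n) 1 (phF n (Eᶜ.indicator g)) T p := by
    intro p
    rw [ph_row_sh, add_zero, ← ph_row_add hψ hH c1 c2 s1 s2 T p]
    congr 1
    funext q
    rw [← ph_F_add n hg1.integrable hg2.integrable q, ← hsplit]
  have i1 := (ph_iso hψ hH one_pos c1 s1 T).1
  have i2 := (ph_iso hψ hH one_pos c2 s2 T).1
  have hm : phMass ψ (phH n) 1 (phSh T (phF n g)) 0 S
      ≤ 2 * phMass ψ (phH n) 1 (phF n (E.indicator g)) T S + 2 * phMass ψ (phH n) 1 (phF n (Eᶜ.indicator g)) T S := by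
    unfold phMass
    have hle : ∫ p in S, ‖phRow ψ (phH n) 1 (phSh T (phF n g)) 0 p‖ ^ 2
        ≤ ∫ p in S, (2 * ‖phRow ψ (phH n) 1 (phF n (E.indicator g)) T p‖ ^ 2 + 2 * ‖phRow ψ (phH n) 1 (phF n (Eᶜ.indicator g)) T p‖ ^ 2) := by
      refine integral_mono_of_nonneg (Filter.Eventually.of_forall fun p => by positivity)
        ((i1.const_mul 2).add (i2.const_mul 2)).integrableOn (Filter.Eventually.of_forall fun p => ?_)
      simp only []
      rw [hrow p]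
      have h1 := norm_add_le (phRow ψ (phH n) 1 (phF n (E.indicator g)) T p) (phRow ψ (phH n) 1 (phF n (Eᶜ.indicator g)) T p)
      have h2 := norm_nonneg (phRow ψ (phH n) 1 (phF n (E.indicator g)) T p + phRow ψ (phH n) 1 (phF n (Eᶜ.indicator g)) T p)
      nlinarith [sq_nonneg (‖phRow ψ (phH n) 1 (phF n (E.indicator g)) T p‖ - ‖phRow ψ (phH n) 1 (phF n (Eᶜ.indicator g)) T p‖)]
    rw [integral_add (i1.const_mul 2).integrableOn (i2.const_mul 2).integrableOn, integral_const_mul, integral_const_mul] at hle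
    have hpos : 0 ≤ 1 / phH n := by positivity
    nlinarith [mul_le_mul_of_nonneg_left hle hpos]
  -- the near part
  have hnear : phMass ψ (phH n) 1 (phF n (E.indicator g)) T S ≤ 4 * ∫ z in E, ‖g z‖ ^ 2 := by
    refine (ph_mass_le hψ hH one_pos c1 s1 T S).trans ((ph_energy n hg1.integrable hg1.memLp).trans (le_of_eq ?_))
    congr 1
    rw [← integral_indicator hE]
    refine integral_congr_ae (Filter.Eventually.of_forall fun z => ?_)
    by_cases hz : z ∈ E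
    · simp [hz]
    · simp [hz]
  -- the far part
  have hfar := phk4_far_mass hψ L hC0 hC hC'0 hC' n hg2 hT hΛ hS (fun p hpS hA z hz => by
    have hzE : z ∉ E := by
      intro hzE
      apply hz
      simp [hzE]
    exact hrel p hpS hA z (hg2.supp z hz) hzE)
  have hmono : ∫ z, ‖Eᶜ.indicator g z‖ ^ 2 ≤ ∫ z, ‖g z‖ ^ 2 := by
    refine integral_mono (ph_dt_sq_int hg2) (ph_dt_sq_int hg) fun z => ?_
    exact pow_le_pow_left₀ (norm_nonneg _) (norm_indicator_le_norm_self g z) 2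
  have hcoef : 0 ≤ C ^ 2 * C' * (phH n) ^ (-3 : ℝ) * (Λ ^ L)⁻¹ := by positivity
  have hfar2 := hfar.trans (mul_le_mul_of_nonneg_left hmono hcoef)
  calc phMass ψ (phH n) 1 (phSh T (phF n g)) 0 S
      ≤ 2 * (4 * (∫ z in E, ‖g z‖ ^ 2)) + 2 * (C ^ 2 * C' * (phH n) ^ (-3 : ℝ) * (Λ ^ L)⁻¹ * ∫ z, ‖g z‖ ^ 2) := by linarith
    _ = _ := by ring

end Claimed.Agent.R256
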