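-- KEEP
import Claimed.Agent.R256.Phys.Geo
import Claimed.Agent.R256.Phys.Ker

/-!
# Row 256, L3, BLOCK A : the physical spectrum is admissible (Proposition phys-regularity, 09 l.346-375)      (chief helper73; prefix `ph_`)

EXIT = `ph_adm`.   `κ = Cκ H^{-γ} B²`.   Order of constants: `(C, C₁)` from `ph_vol`; `γ₀ = γ/(C₁+1)`, `Λ = H^{-γ₀}`, `L = ⌈5/γ₀⌉`; `C'` from `ph_mass_split L`; `V` from `PhData.sq_le`; `Cκ = 8C + C'V + 4V + 1`.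
* reg : `E = toMeasurable volume (predecessors)`; `ph_mass_split` : `mass ≤ 8 ∫_E |g|² + C' H^{-3} Λ^{-L} ∫ |g|² ≤ 8 B² C Λ^{C₁} r⁴ f + C' V B² H²`;  `Λ^{C₁} ≤ H^{-γ}`, `f ≤ f^{1-η}`, `H² ≤ (rf)⁴ ≤ r⁴ f^{1-η}`.
* size : hypothesis, and `e ≤ 4 ∫ |g|² ≤ 4 V B²`.
* tail : `n = 0` : `ph_mass_le`.   `n ≥ 1` : `ph_far_rows` gives `phX ≥ (H^{-12} - 192)/9 ≥ H^{-12}/18 =: Λ' ≥ 1`; `ph_mass_split (N+2)` with `E = ∅` : `mass ≤ C'' H^{-3} 18^{N+2} H^{12(N+2)} V B²`, `B² ≤ H^{-12} e`.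
-/

set_option autoImplicit false

namespace Claimed.Agent.R256

open MeasureTheory Complex Claimed.Agent.R255.BR
open scoped FourierTransform Real SchwartzMap InnerProductSpace ENNReal ContDiff

theorem ph_H_pos (n : ℕ) : 0 < phH n := by
  unfold phH
  positivity

theorem ph_H_le_one (n : ℕ) : phH n ≤ 1 := by
  unfold phH
  exact inv_le_one_of_one_le₀ (one_le_pow₀ (by norm_num))

theorem ph_H_le_half {n : ℕ} (hn : 1 ≤ n) : phH n ≤ 1 / 2 := by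
  unfold phH
  rw [one_div]
  refine inv_anti₀ (by norm_num) ?_
  calc (2 : ℝ) = 2 ^ 1 := by norm_num
    _ ≤ 2 ^ n := pow_le_pow_right₀ (by norm_num) hn

/-- `1 ≤ H^{-a}` -/
theorem ph_one_le_rpow {H a : ℝ} (hH : 0 < H) (hH1 : H ≤ 1) (ha : 0 ≤ a) : 1 ≤ H ^ (-a) :=
  Real.one_le_rpow_of_pos_of_le_one_of_nonpos hH hH1 (by linarith)

theorem ph_sh_energy (T : ℝ) (F : E2 × ℝ → ℂ) : ∫ q, ‖phSh T F q‖ ^ 2 = ∫ q, ‖F q‖ ^ 2 := by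
  simp only [ph_sh_norm]

/-- regularity -/
theorem ph_adm_reg {ψ : E2 → ℂ} (hψ : PhWin ψ) (γ : ℝ) (hγ : 0 < γ) :
    ∃ C₀ : ℝ, 0 ≤ C₀ ∧ ∀ η : ℝ, 0 ≤ η → ∀ (n : ℕ) (g : E3 → ℂ) (B T : ℝ), PhData g B → |T| ≤ 3 →
      PhReg ψ η (phH n) (C₀ * (phH n) ^ (-γ) * B ^ 2) (phSh T (phF n g)) := by
  obtain ⟨C, C₁, hC, hC₁, hvol⟩ := ph_vol
  set γ₀ : ℝ := γ / (C₁ + 1) with hγ₀
  have hγ₀p : 0 < γ₀ := by positivity
  set L : ℕ := ⌈5 / γ₀⌉₊ with hL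
  obtain ⟨C', hC', hsplit⟩ := ph_mass_split hψ L
  obtain ⟨V, hV, hsq⟩ := PhData.sq_le
  refine ⟨8 * C + C' * V, by positivity, fun η hη n g B T hd hT τ hτ hl hu => ?_⟩
  set H := phH n with hHdef
  have hH : 0 < H := ph_H_pos n
  have hH1 : H ≤ 1 := ph_H_le_one n
  set Λ : ℝ := H ^ (-γ₀) with hΛdef
  have hΛ : 1 ≤ Λ := ph_one_le_rpow hH hH1 hγ₀p.le
  have hr : 0 < τ.r := hτ.r_pos
  have hf : 0 < τ.f := hτ.f_pos
  have hf1 : τ.f ≤ 1 := hτ.f_le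
  set P : Set E3 := {z : E3 | ‖z‖ ≤ 6 ∧ ∃ p : PhRow, phRt p ∈ τ.set 1 ∧ ‖p.1‖ ≤ 4 ∧ phX H T p z < Λ} with hP
  have hPv : volume P ≤ ENNReal.ofReal (C * Λ ^ C₁ * τ.r ^ 4 * τ.f) := hvol H Λ T τ hH hH1 hΛ hT hτ hl hu
  set E : Set E3 := toMeasurable volume P with hE
  have hEm : MeasurableSet E := measurableSet_toMeasurable _ _
  have hEv : volume E ≤ ENNReal.ofReal (C * Λ ^ C₁ * τ.r ^ 4 * τ.f) := by
    rw [hE, measure_toMeasurable]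
    exact hPv
  have key := hsplit n g B T Λ (phRt ⁻¹' τ.set 1) E hd hT hΛ (ph_set_meas τ 1) hEm (fun p hp hA z hz hzE => by
    by_contra hlt
    exact hzE (subset_toMeasurable volume P ⟨hz, p, hp, hA, not_le.1 hlt⟩))
  have hΛpos : 0 < Λ := by linarith
  have h1 : ∫ z in E, ‖g z‖ ^ 2 ≤ B ^ 2 * (C * Λ ^ C₁ * τ.r ^ 4 * τ.f) :=
    hd.sq_le_vol hEm (by positivity) hEv
  have h2 : ∫ z, ‖g z‖ ^ 2 ≤ V * B ^ 2 := hsq g B hd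
  -- the powers
  have p1 : Λ ^ C₁ ≤ H ^ (-γ) := by
    rw [hΛdef, ← Real.rpow_mul hH.le]
    refine Real.rpow_le_rpow_of_exponent_ge hH hH1 ?_
    have : γ₀ * C₁ ≤ γ := by
      rw [hγ₀, div_mul_eq_mul_div, div_le_iff₀ (by positivity)]
      nlinarith
    linarith
  have p2 : τ.f ≤ τ.f ^ (1 - η) := by
    calc τ.f = τ.f ^ (1 : ℝ) := (Real.rpow_one _).symm
      _ ≤ τ.f ^ (1 - η) := Real.rpow_le_rpow_of_exponent_ge hf hf1 (by linarith)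
  have p3 : H ^ (-3 : ℝ) * (Λ ^ L)⁻¹ ≤ H ^ 2 := by
    have e1 : (Λ ^ L)⁻¹ = H ^ (γ₀ * L) := by
      rw [hΛdef, ← Real.rpow_natCast, ← Real.rpow_mul hH.le, ← Real.rpow_neg hH.le]
      congr 1
      ring
    have e2 : (5 : ℝ) ≤ γ₀ * L := by
      have := Nat.le_ceil (5 / γ₀)
      rw [div_le_iff₀ hγ₀p] at this
      rw [hL]
      linarith
    rw [e1, ← Real.rpow_add hH, ← Real.rpow_natCast]
    refine Real.rpow_le_rpow_of_exponent_ge hH hH1 ?_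
    push_cast
    linarith
  have p4 : H ^ 2 ≤ τ.r ^ 4 * τ.f ^ (1 - η) := by
    have a1 : H ≤ (τ.r * τ.f) ^ 2 := by
      have h3 : Real.sqrt H ≤ τ.r * τ.f := hu
      calc H = Real.sqrt H ^ 2 := (Real.sq_sqrt hH.le).symm
        _ ≤ (τ.r * τ.f) ^ 2 := pow_le_pow_left₀ (Real.sqrt_nonneg _) h3 2
    have a2 : H ^ 2 ≤ τ.r ^ 4 * τ.f ^ 4 := by
      calc H ^ 2 ≤ ((τ.r * τ.f) ^ 2) ^ 2 := pow_le_pow_left₀ hH.le a1 2
        _ = τ.r ^ 4 * τ.f ^ 4 := by ring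
    have a3 : τ.f ^ 4 ≤ τ.f := by
      calc τ.f ^ 4 ≤ τ.f ^ 1 := pow_le_pow_of_le_one hf.le hf1 (by norm_num)
        _ = τ.f := pow_one _
    exact a2.trans (mul_le_mul_of_nonneg_left (a3.trans p2) (by positivity))
  have p5 : 1 ≤ H ^ (-γ) := ph_one_le_rpow hH hH1 hγ.le
  have hw : τ.w η = τ.r ^ 4 * τ.f ^ (1 - η) := rfl
  have hwp : 0 < τ.r ^ 4 * τ.f ^ (1 - η) := by positivity
  rw [hw]
  have hB2 : 0 ≤ B ^ 2 := by positivity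
  have t1 : 8 * ∫ z in E, ‖g z‖ ^ 2 ≤ 8 * C * H ^ (-γ) * B ^ 2 * (τ.r ^ 4 * τ.f ^ (1 - η)) := by
    have b1 : C * Λ ^ C₁ * τ.r ^ 4 * τ.f ≤ C * H ^ (-γ) * τ.r ^ 4 * τ.f ^ (1 - η) := by
      have c1 : C * Λ ^ C₁ ≤ C * H ^ (-γ) := mul_le_mul_of_nonneg_left p1 hC
      have c2 : C * Λ ^ C₁ * τ.r ^ 4 ≤ C * H ^ (-γ) * τ.r ^ 4 := mul_le_mul_of_nonneg_right c1 (by positivity)
      exact mul_le_mul c2 p2 hf.le (by positivity)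
    have b2 := mul_le_mul_of_nonneg_left b1 hB2
    nlinarith
  have t2 : C' * H ^ (-3 : ℝ) * (Λ ^ L)⁻¹ * ∫ z, ‖g z‖ ^ 2 ≤ C' * V * H ^ (-γ) * B ^ 2 * (τ.r ^ 4 * τ.f ^ (1 - η)) := by
    have b0 : 0 ≤ H ^ (-3 : ℝ) * (Λ ^ L)⁻¹ := by positivity
    have b1 : H ^ (-3 : ℝ) * (Λ ^ L)⁻¹ ≤ H ^ (-γ) * (τ.r ^ 4 * τ.f ^ (1 - η)) := by
      calc H ^ (-3 : ℝ) * (Λ ^ L)⁻¹ ≤ τ.r ^ 4 * τ.f ^ (1 - η) := p3.trans p4
        _ = 1 * (τ.r ^ 4 * τ.f ^ (1 - η)) := (one_mul _).symm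
        _ ≤ H ^ (-γ) * (τ.r ^ 4 * τ.f ^ (1 - η)) := mul_le_mul_of_nonneg_right p5 hwp.le
    have b2 : (H ^ (-3 : ℝ) * (Λ ^ L)⁻¹) * ∫ z, ‖g z‖ ^ 2 ≤ (H ^ (-γ) * (τ.r ^ 4 * τ.f ^ (1 - η))) * (V * B ^ 2) :=
      mul_le_mul b1 h2 (integral_nonneg fun _ => by positivity) (by positivity)
    have b3 := mul_le_mul_of_nonneg_left b2 hC'
    calc C' * H ^ (-3 : ℝ) * (Λ ^ L)⁻¹ * ∫ z, ‖g z‖ ^ 2 = C' * ((H ^ (-3 : ℝ) * (Λ ^ L)⁻¹) * ∫ z, ‖g z‖ ^ 2) := by ring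
      _ ≤ C' * ((H ^ (-γ) * (τ.r ^ 4 * τ.f ^ (1 - η))) * (V * B ^ 2)) := b3
      _ = C' * V * H ^ (-γ) * B ^ 2 * (τ.r ^ 4 * τ.f ^ (1 - η)) := by ring
  calc phMass ψ H 1 (phSh T (phF n g)) 0 (phRt ⁻¹' τ.set 1)
      ≤ 8 * (∫ z in E, ‖g z‖ ^ 2) + C' * H ^ (-3 : ℝ) * (Λ ^ L)⁻¹ * ∫ z, ‖g z‖ ^ 2 := key
    _ ≤ 8 * C * H ^ (-γ) * B ^ 2 * (τ.r ^ 4 * τ.f ^ (1 - η)) + C' * V * H ^ (-γ) * B ^ 2 * (τ.r ^ 4 * τ.f ^ (1 - η)) := add_le_add t1 t2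
    _ = (8 * C + C' * V) * H ^ (-γ) * B ^ 2 * (τ.r ^ 4 * τ.f ^ (1 - η)) := by ring

/-- tails -/
theorem ph_adm_tail {ψ : E2 → ℂ} (hψ : PhWin ψ) :
    ∃ tl : ℕ → ℝ, ∀ (N n : ℕ) (g : E3 → ℂ) (B T : ℝ), PhData g B → |T| ≤ 3 → (phH n) ^ 12 * B ^ 2 ≤ ∫ q, ‖phF n g q‖ ^ 2 →
      phMass ψ (phH n) 1 (phSh T (phF n g)) 0 {p | (phH n)⁻¹ ^ 12 < ‖p.2.1‖ + |p.2.2|} ≤ tl N * (phH n) ^ N * ∫ q, ‖phF n g q‖ ^ 2 := by
  choose Cs hCs hsplit using fun N : ℕ => ph_mass_split hψ (N + 2)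
  obtain ⟨V, hV, hsq⟩ := PhData.sq_le
  refine ⟨fun N => 1 + Cs N * 18 ^ (N + 2) * V, fun N n g B T hd hT he => ?_⟩
  set H := phH n with hHdef
  have hH : 0 < H := ph_H_pos n
  have hH1 : H ≤ 1 := ph_H_le_one n
  set e := ∫ q, ‖phF n g q‖ ^ 2 with hedef
  have he0 : 0 ≤ e := integral_nonneg fun _ => by positivity
  have hc0 : 0 ≤ Cs N * 18 ^ (N + 2) * V := by
    have := hCs N
    positivity
  have hFc : Continuous (phSh T (phF n g)) := ph_sh_cont hH (ph_F_cont n hd.integrable) (ph_F_supp n g) T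
  have hFs : PhSupp H (phSh T (phF n g)) := ph_sh_supp (ph_F_supp n g) T
  rcases Nat.eq_zero_or_pos n with hn | hn
  · have hH' : H = 1 := by rw [hHdef, hn]; simp [phH]
    have h1 := ph_mass_le hψ hH one_pos hFc hFs 0 {p | H⁻¹ ^ 12 < ‖p.2.1‖ + |p.2.2|}
    rw [ph_sh_energy] at h1
    refine h1.trans ?_
    rw [hH', one_pow, mul_one]
    nlinarith
  · have hHh : H ≤ 1 / 2 := ph_H_le_half hn
    set M : ℝ := H⁻¹ ^ 12 with hM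
    have hM1 : (4096 : ℝ) ≤ M := by
      have : (2 : ℝ) ≤ H⁻¹ := by
        rw [le_inv_comm₀ (by norm_num) hH]
        linarith
      calc (4096 : ℝ) = 2 ^ 12 := by norm_num
        _ ≤ H⁻¹ ^ 12 := pow_le_pow_left₀ (by norm_num) this 12
    have key := hsplit N n g B T (M / 18) {p | M < ‖p.2.1‖ + |p.2.2|} ∅ hd hT (by linarith) (ph_far_meas M) MeasurableSet.empty
      (fun p hp hA z hz _ => by
        have h1 := ph_far_rows hH hH1 hT hA hz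
        have h2 : M < ‖p.2.1‖ + |p.2.2| := hp
        linarith)
    rw [Measure.restrict_empty, integral_zero_measure, mul_zero, zero_add] at key
    refine key.trans ?_
    have h2 : ∫ z, ‖g z‖ ^ 2 ≤ V * B ^ 2 := hsq g B hd
    have h3 : B ^ 2 ≤ M * e := by
      have : M * (H ^ 12 * B ^ 2) ≤ M * e := mul_le_mul_of_nonneg_left he (by positivity)
      have e1 : M * (H ^ 12 * B ^ 2) = B ^ 2 := by
        rw [hM, inv_pow, ← mul_assoc, inv_mul_cancel₀ (by positivity), one_mul]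
      linarith
    have e2 : H ^ (-3 : ℝ) = (H ^ 3)⁻¹ := by
      rw [Real.rpow_neg hH.le, ← Real.rpow_natCast]
      norm_num
    have e3 : ((M / 18) ^ (N + 2))⁻¹ = 18 ^ (N + 2) * H ^ (12 * (N + 2)) := by
      rw [hM, div_pow, inv_div, inv_pow, inv_pow, ← pow_mul, div_eq_mul_inv, inv_inv]
    have e4 : (H ^ 3)⁻¹ * H ^ (12 * (N + 2)) * M = H ^ (12 * N + 9) := by
      rw [hM, inv_pow]
      have : H ^ (12 * (N + 2)) = H ^ (12 * N + 9) * H ^ 3 * H ^ 12 := by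
        rw [← pow_add, ← pow_add]
        congr 1
      rw [this]
      field_simp
    have e5 : H ^ (12 * N + 9) ≤ H ^ N := pow_le_pow_of_le_one hH.le hH1 (by omega)
    have hCN := hCs N
    calc Cs N * H ^ (-3 : ℝ) * ((M / 18) ^ (N + 2))⁻¹ * ∫ z, ‖g z‖ ^ 2
        ≤ Cs N * H ^ (-3 : ℝ) * ((M / 18) ^ (N + 2))⁻¹ * (V * (M * e)) := by
          refine mul_le_mul_of_nonneg_left (h2.trans (mul_le_mul_of_nonneg_left h3 (by linarith))) (by positivity)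
      _ = Cs N * 18 ^ (N + 2) * V * ((H ^ 3)⁻¹ * H ^ (12 * (N + 2)) * M) * e := by
          rw [e2, e3]; ring
      _ = Cs N * 18 ^ (N + 2) * V * H ^ (12 * N + 9) * e := by rw [e4]
      _ ≤ Cs N * 18 ^ (N + 2) * V * H ^ N * e := by
          refine mul_le_mul_of_nonneg_right (mul_le_mul_of_nonneg_left e5 hc0) he0
      _ ≤ (1 + Cs N * 18 ^ (N + 2) * V) * H ^ N * e := by
          have : 0 ≤ H ^ N * e := by positivity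
          nlinarith

/-- **I6 = Proposition phys-regularity** -/
theorem ph_adm {ψ : E2 → ℂ} (hψ : PhWin ψ) (η : ℝ) (hη : 0 < η) (γ : ℝ) (hγ : 0 < γ) :
    ∃ (Cκ : ℝ) (tl : ℕ → ℝ), 1 ≤ Cκ ∧ ∀ (n : ℕ) (g : E3 → ℂ) (B T : ℝ), PhData g B → |T| ≤ 3 → 0 < B →
      (phH n) ^ 12 * (Cκ * (phH n) ^ (-γ) * B ^ 2) ≤ ∫ q, ‖phF n g q‖ ^ 2 →
      PhAdm ψ tl η (phH n) (Cκ * (phH n) ^ (-γ) * B ^ 2) (phSh T (phF n g)) := by
  obtain ⟨C₀, hC₀, hreg⟩ := ph_adm_reg hψ γ hγ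
  obtain ⟨tl, htl⟩ := ph_adm_tail hψ
  obtain ⟨V, hV, hsq⟩ := PhData.sq_le
  refine ⟨C₀ + 4 * V + 1, tl, by linarith, fun n g B T hd hT hB he => ?_⟩
  set H := phH n with hHdef
  have hH : 0 < H := ph_H_pos n
  have hH1 : H ≤ 1 := ph_H_le_one n
  have p5 : 1 ≤ H ^ (-γ) := ph_one_le_rpow hH hH1 hγ.le
  have hB2 : 0 < B ^ 2 := by positivity
  have hFc : Continuous (phSh T (phF n g)) := ph_sh_cont hH (ph_F_cont n hd.integrable) (ph_F_supp n g) T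
  have hFs : PhSupp H (phSh T (phF n g)) := ph_sh_supp (ph_F_supp n g) T
  have hk1 : 1 ≤ (C₀ + 4 * V + 1) * H ^ (-γ) := by
    have : (1 : ℝ) ≤ C₀ + 4 * V + 1 := by linarith
    calc (1 : ℝ) = 1 * 1 := (one_mul 1).symm
      _ ≤ (C₀ + 4 * V + 1) * H ^ (-γ) := mul_le_mul this p5 zero_le_one (by linarith)
  refine ⟨hFc, hFs, by positivity, ⟨?_, ?_⟩, ?_, fun N => ?_⟩
  · rw [ph_sh_energy]
    exact he
  · rw [ph_sh_energy]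
    have h1 := ph_energy n hd.integrable hd.memLp
    have h2 := hsq g B hd
    have h3 : (1 : ℝ) ≤ H⁻¹ ^ 12 := one_le_pow₀ ((one_le_inv₀ hH).2 hH1)
    have h4 : 4 * V * B ^ 2 ≤ (C₀ + 4 * V + 1) * H ^ (-γ) * B ^ 2 := by
      refine mul_le_mul_of_nonneg_right ?_ hB2.le
      calc 4 * V = 4 * V * 1 := (mul_one _).symm
        _ ≤ (C₀ + 4 * V + 1) * H ^ (-γ) := mul_le_mul (by linarith) p5 zero_le_one (by linarith)
    calc ∫ q, ‖phF n g q‖ ^ 2 ≤ 4 * V * B ^ 2 := by linarith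
      _ ≤ (C₀ + 4 * V + 1) * H ^ (-γ) * B ^ 2 := h4
      _ = 1 * ((C₀ + 4 * V + 1) * H ^ (-γ) * B ^ 2) := (one_mul _).symm
      _ ≤ H⁻¹ ^ 12 * ((C₀ + 4 * V + 1) * H ^ (-γ) * B ^ 2) := mul_le_mul_of_nonneg_right h3 (by positivity)
  · intro τ hτ hl hu
    refine (hreg η hη.le n g B T hd hT τ hτ hl hu).trans ?_
    refine mul_le_mul_of_nonneg_right ?_ (τ.w_pos hτ η).le
    refine mul_le_mul_of_nonneg_right (mul_le_mul_of_nonneg_right (by linarith) (by positivity)) hB2.le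
  · rw [ph_sh_energy]
    refine htl N n g B T hd hT ?_
    refine le_trans ?_ he
    refine mul_le_mul_of_nonneg_left ?_ (by positivity)
    calc B ^ 2 = 1 * B ^ 2 := (one_mul _).symm
      _ ≤ (C₀ + 4 * V + 1) * H ^ (-γ) * B ^ 2 := mul_le_mul_of_nonneg_right hk1 hB2.le

end Claimed.Agent.R256
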