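-- KEEP
import Claimed.Agent.R256.Phys.Iso

/-!
# Row 256, L3, BLOCK S (Lemma phys-synthesis, 09 l.376-440) : DEFINITIONS AND PLAN OF THE CUT      (architect helper180; prefix `phs`)

Notation: `X = (b, y)`, `q = (η, ρ)`, `X·q = phsP X q = <b,η> - yρ`;  `v(X) = phWave F 0 b y = ∫ F e(X·q)`;  `a(q) = η/2ρ`;
`R_A(X) = phRow ψ H H F 0 (A, b, y) = ∫ F(q) ψ(a(q) - A) e(X·q) dq`   (`phs_row_eq`; aperture `√(H/H) = 1`, `phMass ψ H H F 0 S = ∫_S |R|²`).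

| leaf | file | exits |
|---|---|---|
| S-CONV  | `SynConv.lean`  | `phs_conv` : `∫ G φ e(X·q) dq = ∫_Y k(Y) R(X - Y)`, `G ∈ L¹`, `φ ∈ C_c^∞`  (Fourier inversion for ONE Schwartz function + multiplication formula) |
| S-KER   | `SynKer.lean`   | `phs_B_smooth`, `phs_phi_smooth`, `phs_phi_cpt`, `phs_ker_bd` : `|k_A(Y)| ≤ C phsW H Y` for `|A| ≤ 4`  (`ls_unif_decay2`, parameter `A`; NO shear is needed) |
| S-REP   | `SynRep.lean`   | `phs_row_eq`, `phs_rep` : `v(X) = ∫_A ∫_Y k_A(Y) R_A(X - Y)` |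
| S-PT    | `SynPt.lean`    | `phs_jensen`, `phs_W_int`, `phs_point` : `|v(X)|² ≤ C ∫ W(Y) ρ(X - Y) dY`, `ρ(X) = ∫_A |R_A(X)|²` |
| S-SCHUR | `SynSchur.lean` | `phs_C_meas`, `phs_cube_vol`, `phs_W_fat`, `phs_schur` : `∫ (W * ρ)^{3/2} ≤ C H^{-3/2} ∑_Q (∫_Q ρ)^{3/2}`   (abstract: any measurable `ρ ≥ 0`; NO sums over `Q - Q'`) |
| S-TOP   | `Syn.lean`      | `ph_synth` (glue, `ℝ≥0∞ → ℝ`) |
| S-SLAB  | `Syn.lean`      | `ph_slab` |

All statements were checked by hand (constants, powers of `H`): `W = phsW H` has `∫ W = N₀` independent of `H`; a cube has volume `H³`;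
`(4⁴ H^{-3})^{3/2} · N₀^{3/2} · H³ = C H^{-3/2}`.
RULES: prove IN PLACE, statements verbatim; auxiliary lemmas directly above, prefix `phs_` + the tag of the leaf; only Mathlib, `R255/BR`, `Top/Tools`, `Phys/{Defs,Null,Iso}` and the other `Syn*` files (their `sorry`s are black boxes).
-/

set_option autoImplicit false

namespace Claimed.Agent.R256

open MeasureTheory Complex Claimed.Agent.R255.BR
open scoped FourierTransform Real SchwartzMap InnerProductSpace ENNReal ContDiff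

/-- the pairing `X·q = <b,η> - yρ` -/
noncomputable def phsP (X q : E2 × ℝ) : ℝ := ⟪X.1, q.1⟫_ℝ - X.2 * q.2

/-- the bump which defines `ϑ` : centre `49/16`, `= 1` on `[1/8, 6]`, support `(1/16, 97/16)` -/
noncomputable def phsBump : ContDiffBump (49 / 16 : ℝ) := ⟨47 / 16, 3, by norm_num, by norm_num⟩

/-- the radial cutoff `ϑ` -/
noncomputable def phsTh (σ : ℝ) : ℝ := phsBump σ

/-- the amplitude at scale one, jointly in `(w, A)`, `w = (ω, σ)` : `conj ψ(ω/2σ - A) ϑ(σ)` -/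
noncomputable def phsB (ψ : E2 → ℂ) (z : (E2 × ℝ) × E2) : ℂ :=
  (starRingEnd ℂ) (ψ ((2 * z.1.2)⁻¹ • z.1.1 - z.2)) * (phsTh z.1.2 : ℂ)

/-- the multiplier `Φ_A(q) = conj ψ(η/2ρ - A) ϑ(Hρ)` -/
noncomputable def phsPhi (ψ : E2 → ℂ) (H : ℝ) (A : E2) (q : E2 × ℝ) : ℂ :=
  (starRingEnd ℂ) (ψ ((2 * q.2)⁻¹ • q.1 - A)) * (phsTh (H * q.2) : ℂ)

/-- the kernel `k_A(Y) = ∫ Φ_A(q) e(Y·q) dq` -/
noncomputable def phsK (ψ : E2 → ℂ) (H : ℝ) (A : E2) (Y : E2 × ℝ) : ℂ := ∫ q, phsPhi ψ H A q * ee (phsP Y q)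

/-- the majorant `W(Y) = H^{-3} (1 + |b|/H + |y|/H)^{-4}` -/
noncomputable def phsW (H : ℝ) (Y : E2 × ℝ) : ℝ := H⁻¹ ^ 3 * ((1 + ‖Y.1‖ / H + |Y.2| / H) ^ 4)⁻¹

/-- the spatial density of the row energy `ρ(X) = ∫_A |R_A(X)|²` -/
noncomputable def phsRho (ψ : E2 → ℂ) (H : ℝ) (F : E2 × ℝ → ℂ) (X : E2 × ℝ) : ℝ≥0∞ :=
  ∫⁻ A : E2, ‖phRow ψ H H F 0 (A, X.1, X.2)‖ₑ ^ 2

/-- the index of the `H`-cube which contains `X` -/
noncomputable def phsC (H : ℝ) (X : E2 × ℝ) : Fin 3 → ℤ := ![⌊X.1 0 / H⌋, ⌊X.1 1 / H⌋, ⌊X.2 / H⌋]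

theorem phs_defs_eqns_cite : True := by
  have := @phsP.eq_1
  have := @phsBump.eq_1
  have := @phsTh.eq_1
  have := @phsB.eq_1
  have := @phsPhi.eq_1
  have := @phsK.eq_1
  have := @phsW.eq_1
  have := @phsRho.eq_1
  have := @phsC.eq_1
  trivial

end Claimed.Agent.R256
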