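-- KEEP
import Claimed.Agent.R256.Phys.SynDefs

/-!
# Row 256, L3, BLOCK S, leaf S-CONV : the convolution identity      (architect helper180; prefix `phs_cv_`)
-/

set_option autoImplicit false

namespace Claimed.Agent.R256

open MeasureTheory Complex Claimed.Agent.R255.BR
open scoped FourierTransform Real SchwartzMap InnerProductSpace ENNReal ContDiff

theorem phs_cv_refl (Fn : E2 × ℝ → ℂ) : ∫ p : E2 × ℝ, Fn p = ∫ Y : E2 × ℝ, Fn (Y.1, -Y.2) := by
  have hmp : MeasurePreserving (Prod.map id Neg.neg : E2 × ℝ → E2 × ℝ) volume volume :=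
    (MeasurePreserving.id volume).prod (Measure.measurePreserving_neg volume)
  have hemb : MeasurableEmbedding (Prod.map id Neg.neg : E2 × ℝ → E2 × ℝ) :=
    MeasurableEmbedding.id.prodMap (MeasurableEquiv.neg ℝ).measurableEmbedding
  exact (hmp.integral_comp hemb Fn).symm

theorem phs_cv_P (X q : E2 × ℝ) : phsP X q = ⟪J (X.1, -X.2), J q⟫_ℝ := by
  rw [inner_J]
  unfold phsP
  simp only
  ring

theorem phs_cv_P_sub (X Y q : E2 × ℝ) : phsP (X - Y) q = phsP X q - phsP Y q := by
  unfold phsP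
  simp only [Prod.fst_sub, Prod.snd_sub, inner_sub_left]
  ring

/-- **S-CONV**  `∫ G φ e(X·q) dq = ∫_Y k(Y) R(X - Y) dY`, `k(Y) = ∫ φ e(Y·q)`, `R(X) = ∫ G e(X·q)`.
PLAN (all on `E3` through `J`, `R255/BR/Split.lean`).  `S (b,y) := J (b,-y)`, so `phsP X q = ⟪S X, J q⟫` (`inner_J`).
`f : 𝓢(E3, ℂ) := (hc'.toSchwartzMap hφ')` for `φ ∘ Ji` (`ls_ud_contDiff_Ji`; compact support: image of the support under `J`), `u := 𝓕⁻ f` (Schwartz), `𝓕 u = f` (`FourierTransform.fourier_fourierInv_eq` /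
`SchwartzMap` inversion; pointwise by `DFunLike.congr_fun`; `SchwartzMap.fourier_coe`, `fourierInv_coe`).   `g ξ := G (Ji ξ) * ee ⟪S X, ξ⟫` is integrable (`measurePreserving_Ji.integrable_comp…`, `Integrable.mul_bdd`/`bdd_mul`, `norm_ee`).
`ls_pl_flip hg u : ∫ (𝓕 u) ξ • g ξ = ∫ u x • 𝓕 g x`.   Left: `integral_J`.   Right: `fourierInv_ee`, `fourier_ee`, `integral_J` inside, `ee_add_eq`; outside `integral_J` and the reflection `y ↦ -y`
(`MeasurePreserving` of `Prod.map id Neg.neg`, or `integral_prod` is NOT needed: `(MeasurePreserving.id _).prod (Measure.measurePreserving_neg _)` + `MeasurePreserving.integral_comp'` with the measurable equivalence). -/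
theorem phs_conv {G φ : E2 × ℝ → ℂ} (hG : Integrable G) (hφ : ContDiff ℝ ∞ φ) (hc : HasCompactSupport φ) (X : E2 × ℝ) :
    ∫ q, G q * φ q * ee (phsP X q)
      = ∫ Y, (∫ q, φ q * ee (phsP Y q)) * (∫ q, G q * ee (phsP (X - Y) q)) := by
  have hφ' : ContDiff ℝ ∞ (φ ∘ Ji) := hφ.comp ls_ud_contDiff_Ji
  have hc' : HasCompactSupport (φ ∘ Ji) := by
    refine HasCompactSupport.intro (hc.isCompact.image continuous_J) fun ξ hξ => ?_
    exact image_eq_zero_of_notMem_tsupport (f := φ) (x := Ji ξ) fun h => hξ ⟨Ji ξ, h, J_Ji ξ⟩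
  set f : 𝓢(E3, ℂ) := hc'.toSchwartzMap hφ' with hf
  have hfc : ∀ ξ, f ξ = φ (Ji ξ) := fun ξ => rfl
  set g : E3 → ℂ := fun ξ => G (Ji ξ) * ee ⟪J (X.1, -X.2), ξ⟫_ℝ with hg
  have hgi : Integrable g := by
    refine (measurePreserving_Ji.integrable_comp_of_integrable hG).mul_bdd (c := 1) ?_ (Filter.Eventually.of_forall fun ξ => by rw [norm_ee])
    exact (continuous_ee.comp (continuous_const.inner continuous_id)).aestronglyMeasurable
  have key := ls_pl_flip hgi (𝓕⁻ f)
  rw [FourierTransform.fourier_fourierInv_eq] at key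
  have eL : ∫ ξ, f ξ • g ξ = ∫ q, G q * φ q * ee (phsP X q) := by
    rw [integral_J]
    refine integral_congr_ae (Filter.Eventually.of_forall fun q => ?_)
    simp only [hfc, hg, Ji_J, smul_eq_mul, phs_cv_P X q]
    ring
  have eR : ∫ x, (𝓕⁻ f) x • 𝓕 g x = ∫ Y, (∫ q, φ q * ee (phsP Y q)) * (∫ q, G q * ee (phsP (X - Y) q)) := by
    rw [integral_J, phs_cv_refl]
    refine integral_congr_ae (Filter.Eventually.of_forall fun Y => ?_)
    simp only [smul_eq_mul]
    congr 1
    · rw [SchwartzMap.fourierInv_coe, fourierInv_ee, integral_J]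
      refine integral_congr_ae (Filter.Eventually.of_forall fun q => ?_)
      simp only [hfc, Ji_J, phs_cv_P Y q]
      rw [real_inner_comm, mul_comm]
    · rw [fourier_ee, integral_J]
      refine integral_congr_ae (Filter.Eventually.of_forall fun q => ?_)
      simp only [hg, Ji_J]
      rw [phs_cv_P_sub, phs_cv_P X q, phs_cv_P Y q, sub_eq_add_neg, ee_add_eq, real_inner_comm (J (Y.1, -Y.2)) (J q)]
      ring
  rw [← eL, key, eR]

end Claimed.Agent.R256
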