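-- KEEP
import Claimed.Agent.R256.Phys.SynDefs

/-!
# Row 256, L3, BLOCK S, leaf S-KER : the multipliers `Φ_A` and the uniform bound of the kernels `k_A`      (architect helper180; prefix `phs_`)
-/

set_option autoImplicit false

namespace Claimed.Agent.R256

open MeasureTheory Complex Claimed.Agent.R255.BR
open scoped FourierTransform Real SchwartzMap InnerProductSpace ENNReal ContDiff

/-- (`ContDiffBump.contDiff`) -/
theorem phs_th_smooth : ContDiff ℝ ∞ phsTh := by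
  unfold phsTh
  exact phsBump.contDiff

/-- (`ContDiffBump.one_of_mem_closedBall`, `Real.dist_eq`, `abs_le`) -/
theorem phs_th_one {σ : ℝ} (h1 : 1 / 8 ≤ σ) (h2 : σ ≤ 6) : phsTh σ = 1 := by
  unfold phsTh
  refine phsBump.one_of_mem_closedBall ?_
  rw [Metric.mem_closedBall, Real.dist_eq, abs_le]
  show -(47 / 16 : ℝ) ≤ σ - 49 / 16 ∧ σ - 49 / 16 ≤ 47 / 16
  constructor <;> linarith

/-- (`ContDiffBump.zero_of_le_dist`) -/
theorem phs_th_zero {σ : ℝ} (h : σ ≤ 1 / 16 ∨ 97 / 16 ≤ σ) : phsTh σ = 0 := by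
  unfold phsTh
  refine phsBump.zero_of_le_dist ?_
  rw [Real.dist_eq]
  show (3 : ℝ) ≤ |σ - 49 / 16|
  rcases h with h | h
  · rw [abs_of_nonpos (by linarith)]; linarith
  · rw [abs_of_nonneg (by linarith)]; linarith

theorem phs_th_mem (σ : ℝ) : 0 ≤ phsTh σ ∧ phsTh σ ≤ 1 := by
  unfold phsTh
  exact ⟨phsBump.nonneg, phsBump.le_one⟩

/-- joint smoothness of the amplitude.
PLAN: `contDiff_iff_contDiffAt`; at a point with `σ₀ < 1/16` the function vanishes on the open set `{σ < 1/16}` (`phs_th_zero`; `ContDiffAt.congr_of_eventuallyEq` with `contDiffAt_const`);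
at a point with `0 < σ₀`: `ContDiffAt.inv` (`2σ₀ ≠ 0`), `ContDiffAt.smul`, `hψ.smooth.contDiffAt.comp`, conjugation is a continuous `ℝ`-linear map (`Complex.conjCLE.contDiff`), `Complex.ofRealCLM.contDiff`, `phs_th_smooth`. -/
theorem phs_B_smooth {ψ : E2 → ℂ} (hψ : PhWin ψ) : ContDiff ℝ ∞ (phsB ψ) := by
  rw [contDiff_iff_contDiffAt]
  intro z
  by_cases h0 : 0 < z.1.2
  · unfold phsB
    have c2 : ContDiffAt ℝ ∞ (fun z : (E2 × ℝ) × E2 => z.1.2) z := (contDiff_snd.comp contDiff_fst).contDiffAt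
    have c1 : ContDiffAt ℝ ∞ (fun z : (E2 × ℝ) × E2 => z.1.1) z := (contDiff_fst.comp contDiff_fst).contDiffAt
    have c3 : ContDiffAt ℝ ∞ (fun z : (E2 × ℝ) × E2 => z.2) z := contDiff_snd.contDiffAt
    have c4 : ContDiffAt ℝ ∞ (fun z : (E2 × ℝ) × E2 => (2 * z.1.2)⁻¹) z :=
      (contDiffAt_const.mul c2).inv (mul_ne_zero (by norm_num) h0.ne')
    have c5 : ContDiffAt ℝ ∞ (fun z : (E2 × ℝ) × E2 => (2 * z.1.2)⁻¹ • z.1.1 - z.2) z := (c4.smul c1).sub c3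
    have c6 : ContDiffAt ℝ ∞ (fun z : (E2 × ℝ) × E2 => ψ ((2 * z.1.2)⁻¹ • z.1.1 - z.2)) z :=
      hψ.smooth.contDiffAt.comp z c5
    have c7 : ContDiffAt ℝ ∞ (fun z : (E2 × ℝ) × E2 => (starRingEnd ℂ) (ψ ((2 * z.1.2)⁻¹ • z.1.1 - z.2))) z :=
      Complex.conjCLE.contDiff.contDiffAt.comp z c6
    have c8 : ContDiffAt ℝ ∞ (fun z : (E2 × ℝ) × E2 => (phsTh z.1.2 : ℂ)) z :=
      Complex.ofRealCLM.contDiff.contDiffAt.comp z (phs_th_smooth.contDiffAt.comp z c2)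
    exact c7.mul c8
  · have h1 : z.1.2 < 1 / 16 := lt_of_le_of_lt (not_lt.1 h0) (by norm_num)
    have hev : phsB ψ =ᶠ[nhds z] fun _ => (0 : ℂ) := by
      filter_upwards [(isOpen_lt (continuous_snd.comp continuous_fst) continuous_const).mem_nhds h1] with z' hz'
      unfold phsB
      have hz'' : z'.1.2 ≤ 1 / 16 := le_of_lt hz'
      rw [phs_th_zero (Or.inl hz'')]
      simp
    exact contDiffAt_const.congr_of_eventuallyEq hev

/-- support of the amplitude: `σ ∈ (1/16, 97/16)`, `|ω| ≤ 2σ(2 + |A|)`; the norm of `E2 × ℝ` is the maximum (`Prod.norm_def`) -/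
theorem phs_B_supp {ψ : E2 → ℂ} (hψ : PhWin ψ) (w : E2 × ℝ) (A : E2) (hw : 13 * (2 + ‖A‖) < ‖w‖) : phsB ψ (w, A) = 0 := by
  by_contra hne
  unfold phsB at hne
  simp only at hne
  have h1 : phsTh w.2 ≠ 0 := fun h => hne (by rw [h]; simp)
  have h2 : ψ ((2 * w.2)⁻¹ • w.1 - A) ≠ 0 := fun h => hne (by rw [h]; simp)
  have a1 : 1 / 16 < w.2 := by
    by_contra h
    exact h1 (phs_th_zero (Or.inl (not_lt.1 h)))
  have a2 : w.2 < 97 / 16 := by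
    by_contra h
    exact h1 (phs_th_zero (Or.inr (not_lt.1 h)))
  have a3 := hψ.supp _ h2
  have hA := norm_nonneg A
  have a4 : ‖(2 * w.2)⁻¹ • w.1‖ ≤ 2 + ‖A‖ := by
    have : (2 * w.2)⁻¹ • w.1 = ((2 * w.2)⁻¹ • w.1 - A) + A := by abel
    rw [this]
    exact (norm_add_le _ _).trans (by linarith)
  have hpos : 0 < 2 * w.2 := by linarith
  rw [norm_smul, norm_inv, Real.norm_eq_abs, abs_of_pos hpos, inv_mul_le_iff₀ hpos] at a4
  have a5 : ‖w.1‖ ≤ 13 * (2 + ‖A‖) := by nlinarith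
  have a6 : ‖w.2‖ ≤ 13 * (2 + ‖A‖) := by
    rw [Real.norm_eq_abs, abs_of_pos (by linarith)]
    nlinarith
  have : ‖w‖ ≤ 13 * (2 + ‖A‖) := by
    rw [Prod.norm_def]
    exact max_le a5 a6
  linarith

/-- homogeneity: `(2Hρ)⁻¹ (Hη) = (2ρ)⁻¹ η` -/
theorem phs_phi_eq (ψ : E2 → ℂ) {H : ℝ} (hH : 0 < H) (A : E2) (q : E2 × ℝ) : phsPhi ψ H A q = phsB ψ (H • q, A) := by
  unfold phsPhi phsB
  simp only [Prod.smul_fst, Prod.smul_snd, smul_eq_mul]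
  congr 4
  rw [smul_smul]
  congr 1
  rw [mul_inv, mul_inv, mul_inv]
  field_simp

theorem phs_phi_smooth {ψ : E2 → ℂ} (hψ : PhWin ψ) {H : ℝ} (hH : 0 < H) (A : E2) : ContDiff ℝ ∞ (phsPhi ψ H A) := by
  have e : phsPhi ψ H A = fun q => phsB ψ (H • q, A) := funext fun q => phs_phi_eq ψ hH A q
  rw [e]
  have h1 : ContDiff ℝ ∞ fun q : E2 × ℝ => H • q := contDiff_const_smul H
  exact (phs_B_smooth hψ).comp (h1.prodMk contDiff_const)

/-- (`HasCompactSupport.intro (isCompact_closedBall 0 (13 * (2 + ‖A‖) / H))`, `norm_smul`) -/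
theorem phs_phi_cpt {ψ : E2 → ℂ} (hψ : PhWin ψ) {H : ℝ} (hH : 0 < H) (A : E2) : HasCompactSupport (phsPhi ψ H A) := by
  refine HasCompactSupport.intro (isCompact_closedBall 0 (13 * (2 + ‖A‖) / H)) fun q hq => ?_
  rw [phs_phi_eq ψ hH]
  refine phs_B_supp hψ _ _ ?_
  rw [mem_closedBall_zero_iff, not_le, div_lt_iff₀ hH] at hq
  rw [norm_smul, Real.norm_eq_abs, abs_of_pos hH]
  linarith

/-- scaling `q = H⁻¹ w` : `Measure.integral_comp_smul` (`finrank ℝ (E2 × ℝ) = 3`: `Module.finrank_prod`, `finrank_euclideanSpace_fin`), applied to `f w = phsB ψ (w, A) * ee (phsP Y (H⁻¹ • w))` at `R = H`. -/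
theorem phs_ker_scale (ψ : E2 → ℂ) {H : ℝ} (hH : 0 < H) (A : E2) (Y : E2 × ℝ) :
    phsK ψ H A Y = ((H⁻¹ ^ 3 : ℝ) : ℂ) * ∫ w : E2 × ℝ, ee (⟪w.1, H⁻¹ • Y.1⟫_ℝ + w.2 * (-(Y.2 / H))) * phsB ψ (w, A) := by
  have : (volume : Measure (E2 × ℝ)).IsAddHaarMeasure := by
    rw [Measure.volume_eq_prod]
    infer_instance
  have h := Measure.integral_comp_smul (volume : Measure (E2 × ℝ))
    (fun w : E2 × ℝ => ee (⟪w.1, H⁻¹ • Y.1⟫_ℝ + w.2 * (-(Y.2 / H))) * phsB ψ (w, A)) H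
  rw [Module.finrank_prod, finrank_euclideanSpace_fin, Module.finrank_self, abs_of_pos (by positivity)] at h
  have e3 : ((H ^ (2 + 1))⁻¹ : ℝ) = H⁻¹ ^ 3 := by rw [inv_pow]
  rw [e3, Complex.real_smul] at h
  rw [← h]
  unfold phsK
  refine integral_congr_ae (Filter.Eventually.of_forall fun q => ?_)
  simp only
  rw [phs_phi_eq ψ hH, mul_comm]
  congr 2
  unfold phsP
  simp only [Prod.smul_fst, Prod.smul_snd, smul_eq_mul, inner_smul_left, inner_smul_right, RCLike.conj_to_real]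
  rw [real_inner_comm]
  field_simp
  ring

/-- **S-KER** uniform decay of the kernels.
PLAN: `ls_unif_decay2 (phsB ψ) (phs_B_smooth hψ) (isCompact_closedBall 0 78) (isCompact_closedBall 0 4) _ 4` (`phs_B_supp`: `13 (2 + 4) = 78`) with `β = H⁻¹ • Y.1`, `υ = -(Y.2/H)`;
`‖β‖ = ‖Y.1‖/H`, `|υ| = |Y.2|/H`; `phs_ker_scale`; divide by `(1 + …)^4 > 0`. -/
theorem phs_ker_bd {ψ : E2 → ℂ} (hψ : PhWin ψ) : ∃ C : ℝ, 0 ≤ C ∧ ∀ (H : ℝ) (A : E2) (Y : E2 × ℝ), 0 < H → ‖A‖ ≤ 4 →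
    ‖phsK ψ H A Y‖ ≤ C * phsW H Y := by
  obtain ⟨C, hC0, hC⟩ := ls_unif_decay2 (phsB ψ) (phs_B_smooth hψ) (isCompact_closedBall (0 : E2 × ℝ) 78) (isCompact_closedBall (0 : E2) 4)
    (fun w p hp hw => by
      rw [mem_closedBall_zero_iff] at hp hw
      exact phs_B_supp hψ w p (by linarith)) 4
  refine ⟨C, hC0, fun H A Y hH hA => ?_⟩
  have h := hC A (by rw [mem_closedBall_zero_iff]; exact hA) (H⁻¹ • Y.1) (-(Y.2 / H))
  rw [norm_smul, norm_inv, Real.norm_eq_abs, abs_of_pos hH, abs_neg, abs_div, abs_of_pos hH, inv_mul_eq_div] at h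
  have hpos : 0 < (1 + ‖Y.1‖ / H + |Y.2| / H) ^ 4 := by positivity
  rw [phs_ker_scale ψ hH, norm_mul, Complex.norm_real, Real.norm_of_nonneg (by positivity)]
  unfold phsW
  have h2 : ‖∫ w : E2 × ℝ, ee (⟪w.1, H⁻¹ • Y.1⟫_ℝ + w.2 * (-(Y.2 / H))) * phsB ψ (w, A)‖ ≤ C * ((1 + ‖Y.1‖ / H + |Y.2| / H) ^ 4)⁻¹ := by
    rw [← div_eq_mul_inv, le_div_iff₀ hpos, mul_comm]
    exact h
  calc H⁻¹ ^ 3 * ‖∫ w : E2 × ℝ, ee (⟪w.1, H⁻¹ • Y.1⟫_ℝ + w.2 * (-(Y.2 / H))) * phsB ψ (w, A)‖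
      ≤ H⁻¹ ^ 3 * (C * ((1 + ‖Y.1‖ / H + |Y.2| / H) ^ 4)⁻¹) := mul_le_mul_of_nonneg_left h2 (by positivity)
    _ = _ := by ring

end Claimed.Agent.R256
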