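-- KEEP
import Claimed.Agent.R256.Phys.SynConv
import Claimed.Agent.R256.Phys.SynKer

/-!
# Row 256, L3, BLOCK S, leaf S-REP : the reproducing formula      (architect helper180; prefix `phs_`, auxiliary `phs_rp_`)
-/

set_option autoImplicit false

namespace Claimed.Agent.R256

open MeasureTheory Complex Claimed.Agent.R255.BR
open scoped FourierTransform Real SchwartzMap InnerProductSpace ENNReal ContDiff

/-- (`phPh 0 b y q = phsP (b,y) q` : `zero_mul, zero_div, sub_zero`) -/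
theorem phs_wave_eq (F : E2 × ℝ → ℂ) (X : E2 × ℝ) : phWave F 0 X.1 X.2 = ∫ q, F q * ee (phsP X q) := by
  unfold phWave
  refine integral_congr_ae (Filter.Eventually.of_forall fun q => ?_)
  simp only [phPh, phsP, zero_mul, zero_div, sub_zero]

/-- (`√(H/H) = 1`, `one_smul`) -/
theorem phs_row_eq (ψ : E2 → ℂ) {H : ℝ} (hH : 0 < H) (F : E2 × ℝ → ℂ) (A : E2) (X : E2 × ℝ) :
    phRow ψ H H F 0 (A, X.1, X.2) = ∫ q, F q * ψ ((2 * q.2)⁻¹ • q.1 - A) * ee (phsP X q) := by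
  unfold phRow
  refine integral_congr_ae (Filter.Eventually.of_forall fun q => ?_)
  simp only [phPh, phsP, zero_mul, zero_div, sub_zero, div_self hH.ne', Real.sqrt_one, one_smul]

theorem phs_rp_a_meas : Measurable fun q : E2 × ℝ => (2 * q.2)⁻¹ • q.1 :=
  (measurable_snd.const_mul 2).inv.smul measurable_fst

theorem phs_rp_P_cont (X : E2 × ℝ) : Continuous (phsP X) := by
  unfold phsP
  fun_prop

theorem phs_rp_psi_cpt {ψ : E2 → ℂ} (hψ : PhWin ψ) : HasCompactSupport ψ :=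
  HasCompactSupport.intro (isCompact_closedBall (0 : E2) 2) fun x hx => by
    by_contra h0
    exact hx (by rw [mem_closedBall_zero_iff]; exact hψ.supp x h0)

theorem phs_rp_one {ψ : E2 → ℂ} (hψ : PhWin ψ) (a : E2) :
    ∫ A : E2, ψ (a - A) * (starRingEnd ℂ) (ψ (a - A)) = 1 := by
  have e : ∀ A : E2, ψ (a - A) * (starRingEnd ℂ) (ψ (a - A)) = ((‖ψ (a - A)‖ ^ 2 : ℝ) : ℂ) := fun A => by
    rw [Complex.mul_conj, Complex.normSq_eq_norm_sq]
  simp only [e]
  rw [integral_complex_ofReal, integral_sub_left_eq_self (fun A => ‖ψ A‖ ^ 2) volume a, hψ.nrm]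
  norm_num

/-- on the spectrum `|η/2ρ| ≤ 2` -/
theorem phs_rp_a_le {H : ℝ} (hH : 0 < H) {F : E2 × ℝ → ℂ} (h : PhSupp H F) {q : E2 × ℝ} (hq : F q ≠ 0) :
    ‖(2 * q.2)⁻¹ • q.1‖ ≤ 2 := by
  obtain ⟨a1, -, a3⟩ := h q hq
  have hρ : 0 < q.2 := by
    by_contra hn
    have : H * q.2 ≤ 0 := mul_nonpos_of_nonneg_of_nonpos hH.le (not_lt.1 hn)
    linarith
  rw [norm_smul, Real.norm_eq_abs, abs_of_pos (by positivity), inv_mul_le_iff₀ (by positivity)]
  linarith

/-- the integrand of the reproducing formula vanishes for `|A| > 4` -/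
theorem phs_rp_zero {ψ : E2 → ℂ} (hψ : PhWin ψ) {H : ℝ} (hH : 0 < H) {F : E2 × ℝ → ℂ} (h : PhSupp H F) (q : E2 × ℝ) {A : E2}
    (hA : 4 < ‖A‖) : F q * ψ ((2 * q.2)⁻¹ • q.1 - A) = 0 := by
  by_cases hq : F q = 0
  · rw [hq, zero_mul]
  · have h1 := phs_rp_a_le hH h hq
    have h2 : ψ ((2 * q.2)⁻¹ • q.1 - A) = 0 := by
      by_contra h0
      have h3 := hψ.supp _ h0
      have h4 : ‖A‖ ≤ ‖(2 * q.2)⁻¹ • q.1‖ + ‖(2 * q.2)⁻¹ • q.1 - A‖ := by
        have := norm_sub_le ((2 * q.2)⁻¹ • q.1) ((2 * q.2)⁻¹ • q.1 - A)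
        simpa using this
      linarith
    rw [h2, mul_zero]

/-- **S-REP** the reproducing formula.
PLAN. `a q := (2 q.2)⁻¹ • q.1` (measurable).  (1) `∫_A ψ(a - A) * conj ψ(a - A) = 1` for every `a` : `mul_conj`, `normSq_eq_norm_sq`, `integral_ofReal`, `integral_sub_left_eq_self`, `hψ.nrm`.
(2) `v(X) = ∫_q ∫_A F q ψ(a q - A) conj ψ(a q - A) e(X·q)` (`phs_wave_eq`, `integral_const_mul`/`integral_mul_const`).
(3) Fubini `integral_integral_swap` : the integrand is measurable on `(E2 × ℝ) × E2`, bounded by `‖F q‖ * M² * 1_{‖A‖ ≤ 4}(A)`-type majorant:  `M = sup ‖ψ‖` (continuous with compact support `closedBall 0 2`), and if `F q ≠ 0` and `ψ(a q - A) ≠ 0` then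
`‖a q‖ ≤ 2` (`PhSupp`: `‖η‖ ≤ 4ρ`, `ρ > 0`) and `‖A‖ ≤ 4`;  majorant `= (‖F q‖ * M²) * indicator (closedBall 0 4) 1 A`, integrable on the product (`Integrable.mul_prod`; `hF.integrable_of_hasCompactSupport (ph_bn_cpt hH h)`).
(4) for fixed `A` : `F q ≠ 0 → phsTh (H q.2) = 1` (`phs_th_one`, `PhSupp`), so the inner integrand is `G_A q * phsPhi ψ H A q * e(X·q)`, `G_A q = F q ψ(a q - A)` integrable (bounded measurable times `F`).
(5) `phs_conv` with `phs_phi_smooth`, `phs_phi_cpt`; identify `phsK` (definition) and the row (`phs_row_eq` at `X - Y`; `(X - Y).1 = X.1 - Y.1`). -/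
theorem phs_rep {ψ : E2 → ℂ} (hψ : PhWin ψ) {H : ℝ} (hH : 0 < H) {F : E2 × ℝ → ℂ} (hF : Continuous F) (h : PhSupp H F) (X : E2 × ℝ) :
    phWave F 0 X.1 X.2 = ∫ A : E2, ∫ Y : E2 × ℝ, phsK ψ H A Y * phRow ψ H H F 0 (A, X.1 - Y.1, X.2 - Y.2) := by
  obtain ⟨M, hM⟩ := hψ.smooth.continuous.bounded_above_of_compact_support (phs_rp_psi_cpt hψ)
  have hM0 : 0 ≤ M := (norm_nonneg _).trans (hM 0)
  have hFi : Integrable F := hF.integrable_of_hasCompactSupport (ph_bn_cpt hH h)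
  have hψm : Measurable ψ := hψ.smooth.continuous.measurable
  set K : E2 × ℝ → E2 → ℂ := fun q A =>
    F q * ψ ((2 * q.2)⁻¹ • q.1 - A) * (starRingEnd ℂ) (ψ ((2 * q.2)⁻¹ • q.1 - A)) * ee (phsP X q) with hK
  -- (2)
  have s2 : phWave F 0 X.1 X.2 = ∫ q, ∫ A, K q A := by
    rw [phs_wave_eq]
    refine integral_congr_ae (Filter.Eventually.of_forall fun q => ?_)
    have e : ∀ A, K q A = (F q * ee (phsP X q)) *
        (ψ ((2 * q.2)⁻¹ • q.1 - A) * (starRingEnd ℂ) (ψ ((2 * q.2)⁻¹ • q.1 - A))) := fun A => by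
      simp only [hK]; ring
    simp only [e]
    rw [integral_const_mul, phs_rp_one hψ, mul_one]
  -- (3)
  have hmeas : Measurable (Function.uncurry K) := by
    have m1 : Measurable fun z : (E2 × ℝ) × E2 => ψ ((2 * z.1.2)⁻¹ • z.1.1 - z.2) :=
      hψm.comp ((phs_rp_a_meas.comp measurable_fst).sub measurable_snd)
    exact (((hF.measurable.comp measurable_fst).mul m1).mul (Complex.continuous_conj.measurable.comp m1)).mul
      ((continuous_ee.comp (phs_rp_P_cont X)).measurable.comp measurable_fst)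
  have hint : Integrable (Function.uncurry K) (volume.prod volume) := by
    have hg : Integrable (fun z : (E2 × ℝ) × E2 => (‖F z.1‖ * M ^ 2) * (Metric.closedBall (0 : E2) 4).indicator (fun _ => (1 : ℝ)) z.2)
        (volume.prod volume) := by
      refine Integrable.mul_prod (hFi.norm.mul_const _) ?_
      exact (integrable_indicator_iff measurableSet_closedBall).2
        (integrableOn_const (isCompact_closedBall _ _).measure_lt_top.ne)
    refine hg.mono' hmeas.aestronglyMeasurable (Filter.Eventually.of_forall fun z => ?_)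
    obtain ⟨q, A⟩ := z
    show ‖K q A‖ ≤ (‖F q‖ * M ^ 2) * (Metric.closedBall (0 : E2) 4).indicator (fun _ => (1 : ℝ)) A
    by_cases hA : ‖A‖ ≤ 4
    · rw [Set.indicator_of_mem (by rw [mem_closedBall_zero_iff]; exact hA), mul_one]
      simp only [hK, norm_mul, norm_ee, mul_one, RCLike.norm_conj]
      have := hM ((2 * q.2)⁻¹ • q.1 - A)
      have h0 := norm_nonneg (ψ ((2 * q.2)⁻¹ • q.1 - A))
      have h1 : ‖ψ ((2 * q.2)⁻¹ • q.1 - A)‖ * ‖ψ ((2 * q.2)⁻¹ • q.1 - A)‖ ≤ M ^ 2 := by nlinarith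
      calc ‖F q‖ * ‖ψ ((2 * q.2)⁻¹ • q.1 - A)‖ * ‖ψ ((2 * q.2)⁻¹ • q.1 - A)‖
          = ‖F q‖ * (‖ψ ((2 * q.2)⁻¹ • q.1 - A)‖ * ‖ψ ((2 * q.2)⁻¹ • q.1 - A)‖) := by ring
        _ ≤ ‖F q‖ * M ^ 2 := mul_le_mul_of_nonneg_left h1 (norm_nonneg _)
    · have hz : K q A = 0 := by
        simp only [hK]
        rw [phs_rp_zero hψ hH h q (not_le.1 hA), zero_mul, zero_mul]
      rw [hz, norm_zero]
      exact mul_nonneg (by positivity) (Set.indicator_nonneg (fun _ _ => zero_le_one) _)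
  rw [s2, integral_integral_swap hint]
  refine integral_congr_ae (Filter.Eventually.of_forall fun A => ?_)
  -- (4), (5)
  have hG : Integrable fun q : E2 × ℝ => F q * ψ ((2 * q.2)⁻¹ • q.1 - A) := by
    refine (hFi.norm.mul_const M).mono' ?_ (Filter.Eventually.of_forall fun q => ?_)
    · exact (hF.measurable.mul (hψm.comp (phs_rp_a_meas.sub_const A))).aestronglyMeasurable
    · rw [norm_mul]
      exact mul_le_mul_of_nonneg_left (hM _) (norm_nonneg _)
  have s4 : ∫ q, K q A = ∫ q, (F q * ψ ((2 * q.2)⁻¹ • q.1 - A)) * phsPhi ψ H A q * ee (phsP X q) := by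
    refine integral_congr_ae (Filter.Eventually.of_forall fun q => ?_)
    simp only [hK, phsPhi]
    by_cases hq : F q = 0
    · simp [hq]
    · obtain ⟨a1, a2, -⟩ := h q hq
      rw [phs_th_one a1 a2]
      simp
  show ∫ q, K q A = _
  rw [s4, phs_conv hG (phs_phi_smooth hψ hH A) (phs_phi_cpt hψ hH A) X]
  refine integral_congr_ae (Filter.Eventually.of_forall fun Y => ?_)
  show (∫ q, phsPhi ψ H A q * ee (phsP Y q)) * (∫ q, F q * ψ ((2 * q.2)⁻¹ • q.1 - A) * ee (phsP (X - Y) q)) = _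
  rw [← phs_row_eq ψ hH F A (X - Y)]
  rfl

end Claimed.Agent.R256
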