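-- KEEP
import Claimed.Agent.R256.Phys.SynRep

/-!
# Row 256, L3, BLOCK S, leaf S-PT : weighted Hölder, the majorant, the pointwise bound      (architect helper180; prefix `phs_`, auxiliary `phs_pt_`)
-/

set_option autoImplicit false

namespace Claimed.Agent.R256

open MeasureTheory Complex Claimed.Agent.R255.BR
open scoped FourierTransform Real SchwartzMap InnerProductSpace ENNReal ContDiff

/-- **weighted Jensen/Hölder** in `ℝ≥0∞`.
PLAN: `ENNReal.lintegral_mul_le_Lp_mul_Lq μ (p/(p-1), p conjugate)` for `f^{(p-1)/p}` and `f^{1/p} g`; `f^{(p-1)/p} * f^{1/p} = f` (`ENNReal.rpow_add_of_nonneg`, `rpow_one`), `(f^{1/p} g)^p = f g^p` (`ENNReal.mul_rpow_of_nonneg`, `← rpow_mul`);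
raise to the power `p` (`ENNReal.rpow_le_rpow`, `ENNReal.mul_rpow_of_nonneg`, `← ENNReal.rpow_mul`). -/
theorem phs_jensen {α : Type*} [MeasurableSpace α] (μ : Measure α) {f g : α → ℝ≥0∞} (hf : AEMeasurable f μ) (hg : AEMeasurable g μ)
    {p : ℝ} (hp : 1 < p) :
    (∫⁻ a, f a * g a ∂μ) ^ p ≤ (∫⁻ a, f a ∂μ) ^ (p - 1) * ∫⁻ a, f a * g a ^ p ∂μ := by
  have hp0 : 0 < p := by linarith
  have hp1 : 0 < p - 1 := by linarith
  have hpq : (Real.conjExponent p).HolderConjugate p := (Real.HolderConjugate.conjExponent hp).symm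
  set q := Real.conjExponent p with hq
  have hq0 : 0 < q := hpq.pos
  have hsum : 1 / q + 1 / p = 1 := by
    have := hpq.inv_add_inv_eq_one
    simpa [one_div] using this
  have h := ENNReal.lintegral_mul_le_Lp_mul_Lq μ hpq (hf.pow_const (1 / q)) ((hf.pow_const (1 / p)).mul hg)
  have e1 : ∀ a, ((fun a => f a ^ (1 / q)) * ((fun a => f a ^ (1 / p)) * g)) a = f a * g a := by
    intro a
    simp only [Pi.mul_apply]
    rw [← mul_assoc, ← ENNReal.rpow_add_of_nonneg _ _ (by positivity) (by positivity), hsum, ENNReal.rpow_one]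
  have e2 : ∀ a, (f a ^ (1 / q)) ^ q = f a := by
    intro a
    rw [← ENNReal.rpow_mul, one_div, inv_mul_cancel₀ hq0.ne', ENNReal.rpow_one]
  have e3 : ∀ a, (((fun a => f a ^ (1 / p)) * g) a) ^ p = f a * g a ^ p := by
    intro a
    simp only [Pi.mul_apply]
    rw [ENNReal.mul_rpow_of_nonneg _ _ hp0.le, ← ENNReal.rpow_mul, one_div, inv_mul_cancel₀ hp0.ne', ENNReal.rpow_one]
  simp only [e1, e2, e3] at h
  have h2 := ENNReal.rpow_le_rpow h hp0.le
  rw [ENNReal.mul_rpow_of_nonneg _ _ hp0.le, ← ENNReal.rpow_mul, ← ENNReal.rpow_mul, one_div, one_div, inv_mul_cancel₀ hp0.ne', ENNReal.rpow_one] at h2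
  have e4 : q⁻¹ * p = p - 1 := by
    have : q⁻¹ = 1 - p⁻¹ := by
      have := hsum
      simp only [one_div] at this
      linarith
    rw [this, sub_mul, one_mul, inv_mul_cancel₀ hp0.ne']
  rwa [e4] at h2

theorem phs_W_nonneg {H : ℝ} (hH : 0 < H) (Y : E2 × ℝ) : 0 ≤ phsW H Y := by
  unfold phsW
  positivity

theorem phs_W_meas (H : ℝ) : Measurable (phsW H) := by
  unfold phsW
  fun_prop

theorem phs_pt_finrank : Module.finrank ℝ (E2 × ℝ) = 3 := by
  simp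

theorem phs_pt_haar : (volume : Measure (E2 × ℝ)).IsAddHaarMeasure := by
  rw [Measure.volume_eq_prod]
  infer_instance

theorem phs_pt_scale {H : ℝ} (hH : 0 < H) {f : E2 × ℝ → ℝ≥0∞} (hf : Measurable f) :
    ∫⁻ Y, f Y = ENNReal.ofReal (H ^ 3) * ∫⁻ Z, f (H • Z) := by
  have := phs_pt_haar
  have h1 : Measure.map (fun Z : E2 × ℝ => H • Z) volume = ENNReal.ofReal |(H ^ Module.finrank ℝ (E2 × ℝ))⁻¹| • (volume : Measure (E2 × ℝ)) :=
    Measure.map_addHaar_smul volume hH.ne'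
  have h2 : ∫⁻ Z, f (H • Z) = ∫⁻ Y, f Y ∂(Measure.map (fun Z : E2 × ℝ => H • Z) volume) :=
    (lintegral_map hf (measurable_const_smul H)).symm
  rw [h2, h1, lintegral_smul_measure, phs_pt_finrank, smul_eq_mul, ← mul_assoc, ← ENNReal.ofReal_mul (by positivity),
    abs_of_pos (by positivity), mul_inv_cancel₀ (by positivity), ENNReal.ofReal_one, one_mul]

/-- the mass of the majorant does not depend on `H`.
PLAN: `N₀ := ∫⁻ Z, ofReal ((1 + ‖Z‖) ^ (-(4:ℝ)))`, finite by `integrable_one_add_norm` (`finrank ℝ (E2 × ℝ) = 3 < 4`) and `Integrable.lintegral_lt_top`/`hasFiniteIntegral`.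
`phsW H (H • Z) = H⁻¹ ^ 3 * ((1 + ‖Z.1‖ + |Z.2|)^4)⁻¹ ≤ H⁻¹ ^ 3 * (1 + ‖Z‖)^(-4)` (`‖Z‖ = max ‖Z.1‖ |Z.2|`).   Scaling: `Measure.map_addHaar_smul` (or `lintegral_map` + `Measure.addHaar_smul`), i.e. `∫⁻ f(Y) dY = ofReal (H^3) * ∫⁻ f(H • Z) dZ`. -/
theorem phs_W_int : ∃ N₀ : ℝ≥0∞, N₀ ≠ ⊤ ∧ ∀ H : ℝ, 0 < H → ∫⁻ Y, ENNReal.ofReal (phsW H Y) ≤ N₀ := by
  have := phs_pt_haar
  have hint : Integrable (fun Z : E2 × ℝ => (1 + ‖Z‖) ^ (-(4 : ℝ))) volume :=
    integrable_one_add_norm (by rw [phs_pt_finrank]; norm_num)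
  refine ⟨∫⁻ Z : E2 × ℝ, ENNReal.ofReal ((1 + ‖Z‖) ^ (-(4 : ℝ))), ?_, fun H hH => ?_⟩
  · have := hint.hasFiniteIntegral
    unfold HasFiniteIntegral at this
    refine ne_of_lt (lt_of_le_of_lt (lintegral_mono fun Z => ?_) this)
    rw [← ofReal_norm]
    exact ENNReal.ofReal_le_ofReal (le_abs_self _)
  · rw [phs_pt_scale hH ((phs_W_meas H).ennreal_ofReal), ← lintegral_const_mul' _ _ ENNReal.ofReal_ne_top]
    refine lintegral_mono fun Z => ?_
    rw [← ENNReal.ofReal_mul (by positivity)]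
    apply ENNReal.ofReal_le_ofReal
    unfold phsW
    have e1 : ‖(H • Z).1‖ / H = ‖Z.1‖ := by
      rw [Prod.smul_fst, norm_smul, Real.norm_eq_abs, abs_of_pos hH, mul_div_assoc, mul_comm, div_mul_cancel₀ _ hH.ne']
    have e2 : |(H • Z).2| / H = |Z.2| := by
      rw [Prod.smul_snd, smul_eq_mul, abs_mul, abs_of_pos hH, mul_div_assoc, mul_comm, div_mul_cancel₀ _ hH.ne']
    rw [e1, e2, ← mul_assoc, ← mul_pow, mul_inv_cancel₀ hH.ne', one_pow, one_mul, Real.rpow_neg (by positivity)]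
    have e3 : (1 + ‖Z‖) ^ (4 : ℝ) = (1 + ‖Z‖) ^ 4 := by
      rw [← Real.rpow_natCast]
      norm_num
    rw [e3]
    apply inv_anti₀ (by positivity)
    apply pow_le_pow_left₀ (by positivity)
    have : ‖Z‖ ≤ ‖Z.1‖ + |Z.2| := by
      rw [Prod.norm_def]
      exact max_le (le_add_of_nonneg_right (abs_nonneg _)) (le_add_of_nonneg_left (norm_nonneg _))
    linarith

/-- (`ph_row_cont`, `Measurable.lintegral_prod_right'`) -/
theorem phs_rho_meas {ψ : E2 → ℂ} (hψ : PhWin ψ) {H : ℝ} (hH : 0 < H) {F : E2 × ℝ → ℂ} (hF : Continuous F) (h : PhSupp H F) :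
    Measurable (phsRho ψ H F) := by
  unfold phsRho
  have hc : Continuous fun z : (E2 × ℝ) × E2 => phRow ψ H H F 0 (z.2, z.1.1, z.1.2) :=
    (ph_row_cont hψ hH hF h 0).comp (by fun_prop)
  have hm : Measurable fun z : (E2 × ℝ) × E2 => ‖phRow ψ H H F 0 (z.2, z.1.1, z.1.2)‖ₑ ^ 2 := (hc.measurable.enorm).pow_const 2
  exact hm.lintegral_prod_right'

/-- **S-PT** the pointwise bound.
PLAN. `C₀` from `phs_ker_bd`, `N₀` from `phs_W_int`, `V₄ = volume (closedBall (0:E2) 4)`;  `C = ofReal C₀ ^ 2 * (V₄ * N₀)`.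
(1) `phs_rep`, `enorm_integral_le_lintegral_enorm` twice, `enorm_mul`:  `‖v X‖ₑ ≤ ∫⁻ A, ∫⁻ Y, ‖k_A Y‖ₑ * ‖R_A(X - Y)‖ₑ`.
(2) `‖A‖ > 4` : `R_A = 0` (`ph_row_zero` with `l = H`, `√(H/H) = 1`, `2 + 2 = 4`);  `‖A‖ ≤ 4` : `‖k_A Y‖ₑ ≤ ofReal C₀ * ofReal (phsW H Y)`.   So the integrand is `≤ ofReal C₀ * (f (A,Y) * g (A,Y))`, `f (A,Y) = indicator (closedBall 0 4) 1 A * ofReal (phsW H Y)`, `g (A,Y) = ‖R_A(X-Y)‖ₑ`.
(3) pass to the product measure (`lintegral_prod`, everything is measurable: `ph_row_cont`), `phs_jensen` with `p = 2` (`ENNReal.rpow_two`/`rpow_natCast`), `∫⁻ f = V₄ * ∫⁻ W ≤ V₄ N₀` (`lintegral_prod_mul` or `lintegral_prod` + `lintegral_const_mul`, `lintegral_indicator_one`).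
(4) `∫⁻ f g² ≤ ∫⁻ Y, W(Y) ∫⁻ A, ‖R_A(X-Y)‖ₑ²` (`indicator ≤ 1`, `lintegral_lintegral_swap`/`lintegral_prod_symm`, `lintegral_const_mul`). -/
theorem phs_point {ψ : E2 → ℂ} (hψ : PhWin ψ) : ∃ C : ℝ≥0∞, C ≠ ⊤ ∧ ∀ (H : ℝ) (F : E2 × ℝ → ℂ), 0 < H → Continuous F → PhSupp H F → ∀ X : E2 × ℝ,
    ‖phWave F 0 X.1 X.2‖ₑ ^ 2 ≤ C * ∫⁻ Y, ENNReal.ofReal (phsW H Y) * phsRho ψ H F (X - Y) := by
  obtain ⟨C₀, hC₀, hker⟩ := phs_ker_bd hψ
  obtain ⟨N₀, hN₀, hW⟩ := phs_W_int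
  set V₄ : ℝ≥0∞ := volume (Metric.closedBall (0 : E2) 4) with hV₄
  have hV : V₄ ≠ ⊤ := (isCompact_closedBall _ _).measure_lt_top.ne
  refine ⟨ENNReal.ofReal C₀ ^ 2 * (V₄ * N₀), ENNReal.mul_ne_top (ENNReal.pow_ne_top ENNReal.ofReal_ne_top) (ENNReal.mul_ne_top hV hN₀),
    fun H F hH hF h X => ?_⟩
  set a : E2 → ℝ≥0∞ := (Metric.closedBall (0 : E2) 4).indicator 1 with ha
  have ham : Measurable a := measurable_one.indicator measurableSet_closedBall
  have hWm : Measurable fun Y : E2 × ℝ => ENNReal.ofReal (phsW H Y) := ENNReal.measurable_ofReal.comp (phs_W_meas H)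
  set f : E2 × (E2 × ℝ) → ℝ≥0∞ := fun z => a z.1 * ENNReal.ofReal (phsW H z.2) with hf
  set g : E2 × (E2 × ℝ) → ℝ≥0∞ := fun z => ‖phRow ψ H H F 0 (z.1, X.1 - z.2.1, X.2 - z.2.2)‖ₑ with hg
  have hfm : Measurable f := (ham.comp measurable_fst).mul (hWm.comp measurable_snd)
  have hgm : Measurable g :=
    ((ph_row_cont hψ hH hF h 0).comp (by fun_prop : Continuous fun z : E2 × (E2 × ℝ) => ((z.1, X.1 - z.2.1, X.2 - z.2.2) : PhRow))).measurable.enorm
  -- (1), (2)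
  have s1 : ‖phWave F 0 X.1 X.2‖ₑ ≤ ENNReal.ofReal C₀ * ∫⁻ z, f z * g z ∂((volume : Measure E2).prod (volume : Measure (E2 × ℝ))) := by
    have mfg : Measurable fun z => f z * g z := hfm.mul hgm
    rw [phs_rep hψ hH hF h X, lintegral_prod _ mfg.aemeasurable, ← lintegral_const_mul' _ _ ENNReal.ofReal_ne_top]
    refine (enorm_integral_le_lintegral_enorm _).trans (lintegral_mono fun A => ?_)
    rw [← lintegral_const_mul' _ _ ENNReal.ofReal_ne_top]
    refine (enorm_integral_le_lintegral_enorm _).trans (lintegral_mono fun Y => ?_)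
    rw [enorm_mul]
    simp only [hf, hg]
    by_cases hA : ‖A‖ ≤ 4
    · have e1 : a A = 1 := Set.indicator_of_mem (by rw [mem_closedBall_zero_iff]; exact hA) _
      rw [e1, one_mul, ← mul_assoc]
      refine mul_le_mul_left ?_ _
      rw [← ofReal_norm, ← ENNReal.ofReal_mul hC₀]
      exact ENNReal.ofReal_le_ofReal (hker H A Y hH hA)
    · have hz : phRow ψ H H F 0 (A, X.1 - Y.1, X.2 - Y.2) = 0 := by
        refine ph_row_zero hψ hH hH h 0 ?_
        rw [div_self hH.ne', Real.sqrt_one]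
        simp only
        linarith [not_le.1 hA]
      rw [hz, enorm_zero, mul_zero]
      exact zero_le
  -- (3)
  have s2 : ∫⁻ z, f z ∂((volume : Measure E2).prod (volume : Measure (E2 × ℝ))) ≤ V₄ * N₀ := by
    rw [lintegral_prod_mul ham.aemeasurable hWm.aemeasurable, ha, lintegral_indicator_one measurableSet_closedBall]
    exact mul_le_mul_right (hW H hH) _
  have s3 := phs_jensen ((volume : Measure E2).prod (volume : Measure (E2 × ℝ))) hfm.aemeasurable hgm.aemeasurable (p := 2) (by norm_num)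
  have e21 : (2 : ℝ) - 1 = 1 := by norm_num
  rw [e21, ENNReal.rpow_one, ENNReal.rpow_two] at s3
  simp only [ENNReal.rpow_two] at s3
  -- (4)
  have s4 : ∫⁻ z, f z * g z ^ 2 ∂((volume : Measure E2).prod (volume : Measure (E2 × ℝ)))
      ≤ ∫⁻ Y, ENNReal.ofReal (phsW H Y) * phsRho ψ H F (X - Y) := by
    have mfg : Measurable fun z => f z * g z ^ 2 := hfm.mul (hgm.pow_const 2)
    rw [lintegral_prod_symm _ mfg.aemeasurable]
    refine lintegral_mono fun Y => ?_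
    unfold phsRho
    rw [← lintegral_const_mul' _ _ ENNReal.ofReal_ne_top]
    refine lintegral_mono fun A => ?_
    simp only [hf, hg, Prod.fst_sub, Prod.snd_sub]
    refine mul_le_mul_left ?_ _
    calc a A * ENNReal.ofReal (phsW H Y) ≤ 1 * ENNReal.ofReal (phsW H Y) := by
          refine mul_le_mul_left ?_ _
          rw [ha]
          exact Set.indicator_le_self' (fun _ _ => zero_le) A
      _ = _ := one_mul _
  calc ‖phWave F 0 X.1 X.2‖ₑ ^ 2
      ≤ (ENNReal.ofReal C₀ * ∫⁻ z, f z * g z ∂((volume : Measure E2).prod (volume : Measure (E2 × ℝ)))) ^ 2 := pow_le_pow_left' s1 2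
    _ = ENNReal.ofReal C₀ ^ 2 * (∫⁻ z, f z * g z ∂((volume : Measure E2).prod (volume : Measure (E2 × ℝ)))) ^ 2 := mul_pow _ _ _
    _ ≤ ENNReal.ofReal C₀ ^ 2 * ((V₄ * N₀) * ∫⁻ Y, ENNReal.ofReal (phsW H Y) * phsRho ψ H F (X - Y)) := by
        refine mul_le_mul_right (s3.trans ?_) _
        exact mul_le_mul' s2 s4
    _ = _ := by ring

end Claimed.Agent.R256
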