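-- KEEP
import Claimed.Agent.R256.Phys.SynPt

/-!
# Row 256, L3, BLOCK S, leaf S-SCHUR : from the convolution with the majorant to the cubes      (architect helper180; prefix `phs_`, auxiliary `phs_sc_`)

Abstract: `ρ` is ANY measurable function `E2 × ℝ → ℝ≥0∞`.  No sum over pairs of cubes: the cubes enter through the indicator `1[c X' = c X'']`, `c = phsC H`, and Tonelli.
-/

set_option autoImplicit false

namespace Claimed.Agent.R256

open MeasureTheory Complex Claimed.Agent.R255.BR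
open scoped FourierTransform Real SchwartzMap InnerProductSpace ENNReal ContDiff

/-- (`measurable_pi_iff`, `Fin.forall_fin_succ`/`fin_cases`, `Int.measurable_floor.comp`, coordinates of `E2` are continuous: `EuclideanSpace.proj`/`continuous_apply`) -/
theorem phs_C_meas (H : ℝ) : Measurable (phsC H) := by
  have c0 : Measurable fun X : E2 × ℝ => X.1 0 := ((EuclideanSpace.proj (0 : Fin 2) : E2 →L[ℝ] ℝ).continuous.comp continuous_fst).measurable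
  have c1 : Measurable fun X : E2 × ℝ => X.1 1 := ((EuclideanSpace.proj (1 : Fin 2) : E2 →L[ℝ] ℝ).continuous.comp continuous_fst).measurable
  rw [measurable_pi_iff]
  intro i
  fin_cases i
  · exact Int.measurable_floor.comp (c0.div_const H)
  · exact Int.measurable_floor.comp (c1.div_const H)
  · exact Int.measurable_floor.comp (measurable_snd.div_const H)

theorem phs_sc_floor {H : ℝ} (hH : 0 < H) (x : ℝ) (k : ℤ) : ⌊x / H⌋ = k ↔ x ∈ Set.Ico ((k : ℝ) * H) (((k : ℝ) + 1) * H) := by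
  rw [Int.floor_eq_iff, le_div_iff₀ hH, div_lt_iff₀ hH]
  rfl

theorem phs_sc_C_eq (H : ℝ) (X : E2 × ℝ) (Q : Fin 3 → ℤ) :
    phsC H X = Q ↔ ⌊X.1 0 / H⌋ = Q 0 ∧ ⌊X.1 1 / H⌋ = Q 1 ∧ ⌊X.2 / H⌋ = Q 2 := by
  unfold phsC
  constructor
  · intro h
    rw [← h]
    simp
  · rintro ⟨h0, h1, h2⟩
    funext i
    fin_cases i
    · simpa using h0
    · simpa using h1
    · simpa using h2

/-- the volume of a cube.
PLAN: `phsC H ⁻¹' {Q} = B ×ˢ Ico (Q 2 * H) ((Q 2 + 1) * H)`, `B = {b : E2 | ∀ i, b i ∈ Ico (Q' i * H) ((Q' i + 1) * H)}` (`Int.floor_eq_iff`, `div_lt_iff₀`, `le_div_iff₀`);  `Measure.volume_eq_prod`, `Measure.prod_prod`, `Real.volume_Ico`;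
`volume B = ofReal (H^2)` : `(EuclideanSpace.volume_preserving_measurableEquiv (Fin 2)).measure_preimage…` / `EuclideanSpace.volume_preserving_symm_measurableEquiv_toLp`, `Real.volume_pi_Ico`, `Fin.prod_univ_two`. -/
theorem phs_cube_vol {H : ℝ} (hH : 0 < H) (Q : Fin 3 → ℤ) : volume (phsC H ⁻¹' {Q}) = ENNReal.ofReal (H ^ 3) := by
  set lo : Fin 2 → ℝ := fun i => (Q (Fin.castSucc i) : ℝ) * H with hlo
  set hi : Fin 2 → ℝ := fun i => ((Q (Fin.castSucc i) : ℝ) + 1) * H with hhi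
  have e : phsC H ⁻¹' {Q} = ((WithLp.ofLp : E2 → Fin 2 → ℝ) ⁻¹' (Set.univ.pi fun i => Set.Ico (lo i) (hi i))) ×ˢ Set.Ico ((Q 2 : ℝ) * H) (((Q 2 : ℝ) + 1) * H) := by
    ext X
    rw [Set.mem_preimage, Set.mem_singleton_iff, phs_sc_C_eq, phs_sc_floor hH, phs_sc_floor hH, phs_sc_floor hH, Set.mem_prod, Set.mem_preimage,
      Set.mem_univ_pi, Fin.forall_fin_two, and_assoc]
    rfl
  rw [e, Measure.volume_eq_prod, Measure.prod_prod, (PiLp.volume_preserving_ofLp (Fin 2)).measure_preimage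
    (MeasurableSet.univ_pi fun i => measurableSet_Ico).nullMeasurableSet, Real.volume_pi_Ico, Real.volume_Ico, Fin.prod_univ_two]
  have e1 : ∀ k : ℝ, (k + 1) * H - k * H = H := fun k => by ring
  simp only [hlo, hhi, e1]
  rw [← ENNReal.ofReal_mul hH.le, ← ENNReal.ofReal_mul (by positivity)]
  congr 1
  ring

theorem phs_sc_close {H : ℝ} (hH : 0 < H) {x x' : ℝ} (h : ⌊x / H⌋ = ⌊x' / H⌋) : |x - x'| ≤ H := by
  have h1 := (phs_sc_floor hH x ⌊x' / H⌋).1 h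
  have h2 := (phs_sc_floor hH x' ⌊x' / H⌋).1 rfl
  rw [abs_le]
  constructor <;> nlinarith [h1.1, h1.2, h2.1, h2.2]

/-- points of one cube are `H`-close: `|b'_i - b''_i| < H`, so `‖b' - b''‖ ≤ 2H` (`EuclideanSpace.norm_eq`, `Fin.sum_univ_two`, `Real.sqrt_le_left`…), `|y' - y''| < H`;
`1 + |Y''| ≤ 4 (1 + |Y'|)` in the sense of `phsW`. -/
theorem phs_W_fat {H : ℝ} (hH : 0 < H) (X X' X'' : E2 × ℝ) (h : phsC H X' = phsC H X'') :
    phsW H (X - X') ≤ 4 ^ 4 * phsW H (X - X'') := by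
  obtain ⟨h0, h1, h2⟩ := (phs_sc_C_eq H X' (phsC H X'')).1 h
  have g0 : |X'.1 0 - X''.1 0| ≤ H := phs_sc_close hH (by simpa [phsC] using h0)
  have g1 : |X'.1 1 - X''.1 1| ≤ H := phs_sc_close hH (by simpa [phsC] using h1)
  have g2 : |X'.2 - X''.2| ≤ H := phs_sc_close hH (by simpa [phsC] using h2)
  have nb : ‖X'.1 - X''.1‖ ≤ 2 * H := by
    refine abs_le_of_sq_le_sq' ?_ (by positivity) |>.2
    rw [EuclideanSpace.norm_sq_eq, Fin.sum_univ_two]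
    simp only [PiLp.sub_apply, Real.norm_eq_abs, sq_abs]
    have q0 : (X'.1 0 - X''.1 0) ^ 2 ≤ H ^ 2 := sq_le_sq' (abs_le.1 g0).1 (abs_le.1 g0).2
    have q1 : (X'.1 1 - X''.1 1) ^ 2 ≤ H ^ 2 := sq_le_sq' (abs_le.1 g1).1 (abs_le.1 g1).2
    nlinarith
  have t1 : ‖(X - X'').1‖ ≤ ‖(X - X').1‖ + 2 * H := by
    have e : (X - X'').1 = (X - X').1 + (X'.1 - X''.1) := by simp
    rw [e]
    exact (norm_add_le _ _).trans (by linarith)
  have t2 : |(X - X'').2| ≤ |(X - X').2| + H := by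
    have e : (X - X'').2 = (X - X').2 + (X'.2 - X''.2) := by simp
    rw [e]
    exact (abs_add_le _ _).trans (by linarith)
  set s' := 1 + ‖(X - X').1‖ / H + |(X - X').2| / H with hs'
  set s'' := 1 + ‖(X - X'').1‖ / H + |(X - X'').2| / H with hs''
  have p1 : 1 ≤ s' := by
    have a1 : 0 ≤ ‖(X - X').1‖ / H := by positivity
    have a2 : 0 ≤ |(X - X').2| / H := by positivity
    linarith
  have p2 : 0 < s'' := by positivity
  have le : s'' ≤ 4 * s' := by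
    have a1 : ‖(X - X'').1‖ / H ≤ ‖(X - X').1‖ / H + 2 := by
      rw [div_le_iff₀ hH, add_mul, div_mul_cancel₀ _ hH.ne']
      exact t1
    have a2 : |(X - X'').2| / H ≤ |(X - X').2| / H + 1 := by
      rw [div_le_iff₀ hH, add_mul, div_mul_cancel₀ _ hH.ne', one_mul]
      exact t2
    have a3 : 0 ≤ ‖(X - X').1‖ / H := by positivity
    have a4 : 0 ≤ |(X - X').2| / H := by positivity
    linarith
  unfold phsW
  rw [← hs', ← hs'']
  have key : (s' ^ 4)⁻¹ ≤ 4 ^ 4 * (s'' ^ 4)⁻¹ := by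
    rw [← div_eq_mul_inv, le_div_iff₀ (by positivity), inv_mul_le_iff₀ (by positivity), ← mul_pow, mul_comm]
    exact pow_le_pow_left₀ p2.le (by linarith) 4
  calc H⁻¹ ^ 3 * (s' ^ 4)⁻¹ ≤ H⁻¹ ^ 3 * (4 ^ 4 * (s'' ^ 4)⁻¹) := mul_le_mul_of_nonneg_left key (by positivity)
    _ = _ := by ring

/-- the cubes are a countable measurable partition -/
theorem phs_sc_part (H : ℝ) (f : E2 × ℝ → ℝ≥0∞) : ∫⁻ x, f x = ∑' Q : Fin 3 → ℤ, ∫⁻ x in phsC H ⁻¹' {Q}, f x := by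
  have hU : (⋃ Q : Fin 3 → ℤ, phsC H ⁻¹' {Q}) = Set.univ := by
    ext x
    simp
  rw [← lintegral_iUnion (fun Q => phs_C_meas H (measurableSet_singleton Q)) (fun Q Q' hQ => by
    rw [Function.onFun, Set.disjoint_left]
    intro x hx hx'
    exact hQ (hx.symm.trans hx')), hU, setLIntegral_univ]

theorem phs_sc_num {H : ℝ} (hH : 0 < H) : (ENNReal.ofReal (H ^ 3))⁻¹ ^ (3 / 2 : ℝ) * ENNReal.ofReal (H ^ 3) = ENNReal.ofReal (H ^ (-(3 / 2) : ℝ)) := by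
  have h3 : 0 < H ^ 3 := by positivity
  rw [← ENNReal.ofReal_inv_of_pos h3, ENNReal.ofReal_rpow_of_pos (by positivity), ← ENNReal.ofReal_mul (by positivity)]
  congr 1
  have e : H ^ 3 = H ^ (3 : ℝ) := by
    rw [← Real.rpow_natCast]
    norm_num
  rw [e, ← Real.rpow_neg hH.le, ← Real.rpow_mul hH.le, ← Real.rpow_add hH]
  norm_num

/-- **S-SCHUR**.
PLAN.  `κ Y := ofReal (phsW H Y)`, `c := phsC H`, `h₃ := ofReal (H^3)`, `m Q := ∫⁻ X in c ⁻¹' {Q}, ρ X`, `N₀` of `phs_W_int`, `D := ofReal (4^4)`.   `C = D^{3/2} N₀^{3/2}`.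
(1) `T X := ∫⁻ Y, κ Y * ρ (X - Y) = ∫⁻ X', κ (X - X') * ρ X'`   (`lintegral_sub_left_eq_self (fun Y => κ Y * ρ (X - Y)) X`, `sub_sub_cancel`).
(2) `κ (X - X') = h₃⁻¹ * ∫⁻ X'', 1[c X'' = c X'] * κ (X - X') ≤ h₃⁻¹ * D * ∫⁻ X'', 1[c X'' = c X'] * κ (X - X'')`   (`phs_cube_vol`, `lintegral_indicator`, `phs_W_fat`, `ENNReal.inv_mul_cancel`).
(3) Tonelli (`lintegral_lintegral_swap`; `measurableSet_eq_fun_of_countable`/preimages of singletons):   `T X ≤ h₃⁻¹ D ∫⁻ X'', κ (X - X'') * m (c X'')`.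
(4) `phs_jensen` with `p = 3/2`, `f = κ (X - ·)`, `∫⁻ f ≤ N₀` (`lintegral_sub_left_eq_self`):   `(T X)^{3/2} ≤ (h₃⁻¹ D)^{3/2} N₀^{1/2} ∫⁻ X'', κ (X - X'') * (m (c X''))^{3/2}`.
(5) integrate in `X`, Tonelli, `lintegral_sub_right_eq_self`:   `≤ (h₃⁻¹ D)^{3/2} N₀^{3/2} ∫⁻ X'', (m (c X''))^{3/2}`.
(6) `∫⁻ X'', g (c X'') = ∑' Q, g Q * volume (c ⁻¹' {Q}) = h₃ ∑' Q, g Q`   (`lintegral_map` + `lintegral_countable'`, `Measure.map_apply`; `measurable_of_countable`/`measurable_from_top`-type for `g`).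
(7) `(h₃⁻¹)^{3/2} h₃ = ofReal (H^{-3/2})`   (`ENNReal.ofReal_rpow_of_pos`, `ENNReal.ofReal_inv_of_pos`, `← ENNReal.ofReal_mul`, `Real.rpow_natCast`, `← Real.rpow_add`…). -/
theorem phs_schur : ∃ C : ℝ≥0∞, C ≠ ⊤ ∧ ∀ (H : ℝ) (ρ : E2 × ℝ → ℝ≥0∞), 0 < H → Measurable ρ →
    ∫⁻ X, (∫⁻ Y, ENNReal.ofReal (phsW H Y) * ρ (X - Y)) ^ (3 / 2 : ℝ)
      ≤ C * ENNReal.ofReal (H ^ (-(3 / 2) : ℝ)) * ∑' Q : Fin 3 → ℤ, (∫⁻ X in phsC H ⁻¹' {Q}, ρ X) ^ (3 / 2 : ℝ) := by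
  have := phs_pt_haar
  obtain ⟨N₀, hN₀, hW⟩ := phs_W_int
  set D : ℝ≥0∞ := ENNReal.ofReal (4 ^ 4) with hD
  refine ⟨D ^ (3 / 2 : ℝ) * N₀ ^ (3 / 2 : ℝ), ENNReal.mul_ne_top (ENNReal.rpow_ne_top_of_nonneg (by norm_num) ENNReal.ofReal_ne_top)
    (ENNReal.rpow_ne_top_of_nonneg (by norm_num) hN₀), fun H ρ hH hρ => ?_⟩
  set κ : E2 × ℝ → ℝ≥0∞ := fun Y => ENNReal.ofReal (phsW H Y) with hκdef
  have hκ : Measurable κ := (phs_W_meas H).ennreal_ofReal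
  set S : (Fin 3 → ℤ) → Set (E2 × ℝ) := fun Q => phsC H ⁻¹' {Q} with hSdef
  have hS : ∀ Q, MeasurableSet (S Q) := fun Q => phs_C_meas H (measurableSet_singleton Q)
  set h₃ : ℝ≥0∞ := ENNReal.ofReal (H ^ 3) with hh₃
  have hh0 : h₃ ≠ 0 := by
    rw [hh₃, Ne, ENNReal.ofReal_eq_zero, not_le]
    positivity
  have hht : h₃ ≠ ⊤ := ENNReal.ofReal_ne_top
  set m : (Fin 3 → ℤ) → ℝ≥0∞ := fun Q => ∫⁻ X in S Q, ρ X with hm
  set K : (Fin 3 → ℤ) → E2 × ℝ → ℝ≥0∞ := fun Q X => ∫⁻ X'' in S Q, κ (X - X'') with hK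
  have hκ2 : Measurable fun z : (E2 × ℝ) × (E2 × ℝ) => κ (z.1 - z.2) := hκ.comp (measurable_fst.sub measurable_snd)
  have hKm : ∀ Q, Measurable (K Q) := fun Q => hκ2.lintegral_prod_right'
  have hκX : ∀ X, Measurable fun X'' => κ (X - X'') := fun X => hκ.comp (measurable_const.sub measurable_id)
  have hmass : ∫⁻ Y, κ Y ≤ N₀ := hW H hH
  -- (1) translation
  have s1 : ∀ X, ∫⁻ Y, κ Y * ρ (X - Y) = ∫⁻ X', κ (X - X') * ρ X' := by
    intro X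
    rw [← lintegral_sub_left_eq_self (fun Y => κ Y * ρ (X - Y)) X]
    simp only [sub_sub_cancel]
  -- (2) fattening
  have s2 : ∀ Q X, ∀ X' ∈ S Q, κ (X - X') ≤ h₃⁻¹ * (D * K Q X) := by
    intro Q X X' hX'
    have a1 : κ (X - X') * h₃ ≤ D * K Q X := by
      calc κ (X - X') * h₃ = ∫⁻ _ in S Q, κ (X - X') := by
            rw [setLIntegral_const, hh₃, ← phs_cube_vol hH Q]
        _ ≤ ∫⁻ X'' in S Q, D * κ (X - X'') := by
            refine setLIntegral_mono ((hκX X).const_mul D) fun X'' hX'' => ?_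
            rw [hD, hκdef, ← ENNReal.ofReal_mul (by norm_num)]
            exact ENNReal.ofReal_le_ofReal (phs_W_fat hH X X' X'' (by
              have h1 : phsC H X' = Q := hX'
              have h2 : phsC H X'' = Q := hX''
              rw [h1, h2]))
        _ = D * K Q X := lintegral_const_mul D (hκX X)
    calc κ (X - X') = h₃⁻¹ * (κ (X - X') * h₃) := by
          rw [mul_comm (κ (X - X')), ← mul_assoc, ENNReal.inv_mul_cancel hh0 hht, one_mul]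
      _ ≤ h₃⁻¹ * (D * K Q X) := by gcongr
  -- (3) the convolution is dominated by a sum over the cubes
  have s3 : ∀ X, ∫⁻ Y, κ Y * ρ (X - Y) ≤ (h₃⁻¹ * D) * ∑' Q, K Q X * m Q := by
    intro X
    rw [s1 X, phs_sc_part H, ← ENNReal.tsum_mul_left]
    refine ENNReal.tsum_le_tsum fun Q => ?_
    calc ∫⁻ X' in S Q, κ (X - X') * ρ X' ≤ ∫⁻ X' in S Q, (h₃⁻¹ * (D * K Q X)) * ρ X' := by
          refine setLIntegral_mono (hρ.const_mul _) fun X' hX' => ?_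
          gcongr
          exact s2 Q X X' hX'
      _ = (h₃⁻¹ * (D * K Q X)) * m Q := lintegral_const_mul _ hρ
      _ = h₃⁻¹ * D * (K Q X * m Q) := by ring
  -- (4) Jensen for the sum
  have s4 : ∀ X, ∑' Q, K Q X ≤ N₀ := by
    intro X
    rw [← phs_sc_part H (fun X'' => κ (X - X'')), lintegral_sub_left_eq_self κ X]
    exact hmass
  have s5 : ∀ X, (∑' Q, K Q X * m Q) ^ (3 / 2 : ℝ) ≤ N₀ ^ (1 / 2 : ℝ) * ∑' Q, K Q X * m Q ^ (3 / 2 : ℝ) := by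
    intro X
    have h := phs_jensen (Measure.count : Measure (Fin 3 → ℤ)) (f := fun Q => K Q X) (g := m) (measurable_of_countable _).aemeasurable
      (measurable_of_countable _).aemeasurable (p := 3 / 2) (by norm_num)
    simp only [lintegral_count] at h
    refine h.trans ?_
    have e : (3 / 2 : ℝ) - 1 = 1 / 2 := by norm_num
    rw [e]
    gcongr
    exact s4 X
  -- (5) integration in `X`
  have s6 : ∀ Q, ∫⁻ X, K Q X ≤ N₀ * h₃ := by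
    intro Q
    have : ∫⁻ X, K Q X = ∫⁻ X'' in S Q, ∫⁻ X, κ (X - X'') := by
      rw [hK]
      exact lintegral_lintegral_swap hκ2.aemeasurable
    rw [this]
    calc ∫⁻ X'' in S Q, ∫⁻ X, κ (X - X'') = ∫⁻ _ in S Q, ∫⁻ Y, κ Y := by
          refine lintegral_congr fun X'' => ?_
          exact lintegral_sub_right_eq_self κ X''
      _ = (∫⁻ Y, κ Y) * h₃ := by rw [setLIntegral_const, hh₃, ← phs_cube_vol hH Q]
      _ ≤ N₀ * h₃ := by gcongr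
  have s7 : ∫⁻ X, ∑' Q, K Q X * m Q ^ (3 / 2 : ℝ) ≤ (N₀ * h₃) * ∑' Q, m Q ^ (3 / 2 : ℝ) := by
    rw [lintegral_tsum fun Q => ((hKm Q).mul_const _).aemeasurable, ← ENNReal.tsum_mul_left]
    refine ENNReal.tsum_le_tsum fun Q => ?_
    rw [lintegral_mul_const _ (hKm Q)]
    gcongr
    exact s6 Q
  -- conclusion
  calc ∫⁻ X, (∫⁻ Y, κ Y * ρ (X - Y)) ^ (3 / 2 : ℝ)
      ≤ ∫⁻ X, (h₃⁻¹ * D) ^ (3 / 2 : ℝ) * (N₀ ^ (1 / 2 : ℝ) * ∑' Q, K Q X * m Q ^ (3 / 2 : ℝ)) := by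
        refine lintegral_mono fun X => ?_
        calc (∫⁻ Y, κ Y * ρ (X - Y)) ^ (3 / 2 : ℝ) ≤ ((h₃⁻¹ * D) * ∑' Q, K Q X * m Q) ^ (3 / 2 : ℝ) :=
              ENNReal.rpow_le_rpow (s3 X) (by norm_num)
          _ = (h₃⁻¹ * D) ^ (3 / 2 : ℝ) * (∑' Q, K Q X * m Q) ^ (3 / 2 : ℝ) := ENNReal.mul_rpow_of_nonneg _ _ (by norm_num)
          _ ≤ _ := by
              gcongr
              exact s5 X
    _ = (h₃⁻¹ * D) ^ (3 / 2 : ℝ) * (N₀ ^ (1 / 2 : ℝ) * ∫⁻ X, ∑' Q, K Q X * m Q ^ (3 / 2 : ℝ)) := by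
        have hm1 : Measurable fun X => ∑' Q, K Q X * m Q ^ (3 / 2 : ℝ) := Measurable.tsum fun Q => (hKm Q).mul_const _
        rw [lintegral_const_mul _ (hm1.const_mul _), lintegral_const_mul _ hm1]
    _ ≤ (h₃⁻¹ * D) ^ (3 / 2 : ℝ) * (N₀ ^ (1 / 2 : ℝ) * ((N₀ * h₃) * ∑' Q, m Q ^ (3 / 2 : ℝ))) := by gcongr
    _ = D ^ (3 / 2 : ℝ) * N₀ ^ (3 / 2 : ℝ) * ENNReal.ofReal (H ^ (-(3 / 2) : ℝ)) * ∑' Q, m Q ^ (3 / 2 : ℝ) := by
        rw [← phs_sc_num hH, ENNReal.mul_rpow_of_nonneg _ _ (by norm_num : (0 : ℝ) ≤ 3 / 2)]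
        have e : N₀ ^ (3 / 2 : ℝ) = N₀ ^ (1 / 2 : ℝ) * N₀ := by
          rw [show (3 / 2 : ℝ) = 1 / 2 + 1 by norm_num, ENNReal.rpow_add_of_nonneg _ _ (by norm_num) (by norm_num), ENNReal.rpow_one]
        rw [e]
        ring

end Claimed.Agent.R256
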