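-- KEEP
import Claimed.Agent.R256.Phys.SynSchur

/-!
# Row 256, L3, BLOCK S : synthesis at the terminal scale (Lemma phys-synthesis, 09 l.376-440)      (chief helper73, architect helper180; prefix `ph_`, block prefix `phs_`)

EXITS = `ph_synth` (FIXED TIME, no propagation, no loss, no error term) and `ph_slab` (the time integral, by the shift trick of helper163).
THE CUT: header of `SynDefs.lean`.   `SynConv` (convolution identity) , `SynKer` (kernels) ⟹ `SynRep` (reproducing formula) ⟹ `SynPt` (pointwise bound `|v|² ≤ C W * ρ`) ; `SynSchur` (`∫ (W * ρ)^{3/2} ≤ C H^{-3/2} ∑_Q m_Q^{3/2}`) ⟹ `ph_synth` (here).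
* `ph_slab` : TOOL `ls_subdiv` (`Top/Tools.lean`: subdivision of `[0,1)`, translation, `∑_j ∫⁻ ≤ ∫⁻ ∑_j`, NO measurability in `h`); `Icc 0 1 = Ico 0 1` a.e.;
   `ph_synth` for `phSh (jH+h) F`, `ph_wave_sh`, `ph_row_sh`, `ph_sh_sh`; `∫⁻_{[0,H]} const = H · const`;  `H · H^{-3/2} = H^{-1/2}`.
-/

set_option autoImplicit false

namespace Claimed.Agent.R256

open MeasureTheory Complex Claimed.Agent.R255.BR
open scoped FourierTransform Real SchwartzMap InnerProductSpace ENNReal ContDiff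

/-- the energy of a cube.
PLAN: `phCube H Q = Set.univ ×ˢ (phsC H ⁻¹' {Q})` in `E2 × (E2 × ℝ)` (`funext`/`Fin.forall_fin_succ` on `![..] = Q`); Tonelli (`lintegral_prod_symm`/`setLIntegral` + `Measure.prod_restrict`, `Measure.restrict_univ`; `ph_row_cont`);
`ofReal_integral_eq_lintegral_ofReal` with `(ph_iso hψ hH hH hF h 0).1.integrableOn`; `ofReal (‖z‖^2) = ‖z‖ₑ^2`; `phMass = H/H * ∫ = ∫`. -/
theorem phs_rho_cube {ψ : E2 → ℂ} (hψ : PhWin ψ) {H : ℝ} (hH : 0 < H) {F : E2 × ℝ → ℂ} (hF : Continuous F) (h : PhSupp H F) (Q : Fin 3 → ℤ) :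
    ∫⁻ X in phsC H ⁻¹' {Q}, phsRho ψ H F X = ENNReal.ofReal (phMass ψ H H F 0 (phCube H Q)) := by
  have hcube : phCube H Q = (Set.univ : Set E2) ×ˢ (phsC H ⁻¹' {Q}) := by
    ext p
    rw [Set.mem_prod, Set.mem_preimage, Set.mem_singleton_iff, phs_sc_C_eq]
    simp only [Set.mem_univ, true_and]
    rfl
  have hi := (ph_iso hψ hH hH hF h 0).1
  have hm : Measurable fun p : PhRow => ‖phRow ψ H H F 0 p‖ₑ ^ 2 := ((ph_row_cont hψ hH hF h 0).measurable.enorm).pow_const 2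
  unfold phMass
  rw [div_self hH.ne', one_mul, ofReal_integral_eq_lintegral_ofReal hi.integrableOn (Filter.Eventually.of_forall fun p => by positivity)]
  have e : ∀ p : PhRow, ENNReal.ofReal (‖phRow ψ H H F 0 p‖ ^ 2) = ‖phRow ψ H H F 0 p‖ₑ ^ 2 := fun p => by
    rw [ENNReal.ofReal_pow (norm_nonneg _), ofReal_norm]
  simp only [e]
  rw [hcube, show (volume : Measure PhRow) = (volume : Measure E2).prod (volume : Measure (E2 × ℝ)) from rfl, ← Measure.prod_restrict,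
    Measure.restrict_univ, lintegral_prod_symm _ hm.aemeasurable]
  rfl

/-- **I7 = Lemma phys-synthesis** at a fixed time -/
theorem ph_synth {ψ : E2 → ℂ} (hψ : PhWin ψ) : ∃ C : ℝ, 0 ≤ C ∧ ∀ (H : ℝ) (F : E2 × ℝ → ℂ), 0 < H → Continuous F → PhSupp H F →
    ∫⁻ X : E2 × ℝ, ‖phWave F 0 X.1 X.2‖ₑ ^ (3 : ℝ)
      ≤ ENNReal.ofReal (C * H ^ (-(3 / 2) : ℝ) * ∑' Q : Fin 3 → ℤ, (phMass ψ H H F 0 (phCube H Q)) ^ (3 / 2 : ℝ)) := by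
  obtain ⟨C₁, hC₁, h1⟩ := phs_point hψ
  obtain ⟨C₂, hC₂, h2⟩ := phs_schur
  have hC₁' : C₁ ^ (3 / 2 : ℝ) ≠ ⊤ := ENNReal.rpow_ne_top_of_nonneg (by norm_num) hC₁
  refine ⟨(C₁ ^ (3 / 2 : ℝ) * C₂).toReal, ENNReal.toReal_nonneg, fun H F hH hF h => ?_⟩
  have hsum := ph_cubes_pow hψ hH hH hF h 0
  have hnn : ∀ Q : Fin 3 → ℤ, 0 ≤ (phMass ψ H H F 0 (phCube H Q)) ^ (3 / 2 : ℝ) := fun Q =>
    Real.rpow_nonneg (ph_mass_nonneg ψ hH hH F 0 _) _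
  have e1 : ∑' Q : Fin 3 → ℤ, (∫⁻ X in phsC H ⁻¹' {Q}, phsRho ψ H F X) ^ (3 / 2 : ℝ)
      = ENNReal.ofReal (∑' Q : Fin 3 → ℤ, (phMass ψ H H F 0 (phCube H Q)) ^ (3 / 2 : ℝ)) := by
    rw [ENNReal.ofReal_tsum_of_nonneg hnn hsum]
    refine tsum_congr fun Q => ?_
    rw [phs_rho_cube hψ hH hF h Q, ENNReal.ofReal_rpow_of_nonneg (ph_mass_nonneg ψ hH hH F 0 _) (by norm_num)]
  have hpt : ∀ X : E2 × ℝ, ‖phWave F 0 X.1 X.2‖ₑ ^ (3 : ℝ)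
      ≤ C₁ ^ (3 / 2 : ℝ) * (∫⁻ Y, ENNReal.ofReal (phsW H Y) * phsRho ψ H F (X - Y)) ^ (3 / 2 : ℝ) := by
    intro X
    have e : ‖phWave F 0 X.1 X.2‖ₑ ^ (3 : ℝ) = (‖phWave F 0 X.1 X.2‖ₑ ^ 2) ^ (3 / 2 : ℝ) := by
      rw [← ENNReal.rpow_natCast, ← ENNReal.rpow_mul]
      norm_num
    rw [e, ← ENNReal.mul_rpow_of_nonneg _ _ (by norm_num)]
    exact ENNReal.rpow_le_rpow (h1 H F hH hF h X) (by norm_num)
  calc ∫⁻ X : E2 × ℝ, ‖phWave F 0 X.1 X.2‖ₑ ^ (3 : ℝ)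
      ≤ ∫⁻ X : E2 × ℝ, C₁ ^ (3 / 2 : ℝ) * (∫⁻ Y, ENNReal.ofReal (phsW H Y) * phsRho ψ H F (X - Y)) ^ (3 / 2 : ℝ) :=
        lintegral_mono hpt
    _ = C₁ ^ (3 / 2 : ℝ) * ∫⁻ X : E2 × ℝ, (∫⁻ Y, ENNReal.ofReal (phsW H Y) * phsRho ψ H F (X - Y)) ^ (3 / 2 : ℝ) :=
        lintegral_const_mul' _ _ hC₁'
    _ ≤ C₁ ^ (3 / 2 : ℝ) * (C₂ * ENNReal.ofReal (H ^ (-(3 / 2) : ℝ))
          * ∑' Q : Fin 3 → ℤ, (∫⁻ X in phsC H ⁻¹' {Q}, phsRho ψ H F X) ^ (3 / 2 : ℝ)) :=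
        mul_le_mul_right (h2 H _ hH (phs_rho_meas hψ hH hF h)) _
    _ = ENNReal.ofReal ((C₁ ^ (3 / 2 : ℝ) * C₂).toReal * H ^ (-(3 / 2) : ℝ)
          * ∑' Q : Fin 3 → ℤ, (phMass ψ H H F 0 (phCube H Q)) ^ (3 / 2 : ℝ)) := by
        rw [e1, ENNReal.ofReal_mul (by positivity), ENNReal.ofReal_mul ENNReal.toReal_nonneg,
          ENNReal.ofReal_toReal (ENNReal.mul_ne_top hC₁' hC₂)]
        ring

theorem phs_sl_mass (ψ : E2 → ℂ) (H T h s : ℝ) (F : E2 × ℝ → ℂ) (S : Set PhRow) (hT : T = h + s) :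
    phMass ψ H H (phSh T F) 0 S = phMass ψ H H (phSh h F) s S := by
  unfold phMass
  simp only [ph_row_sh, add_zero, hT]

/-- the time integral over `[0,1]` : the terminal functional for all start times `h ∈ [0,H]`.
PLAN.  `H = phH n`, `C` of `ph_synth`.  `Φ t := ∫⁻ X, ‖phWave F t X.1 X.2‖ₑ^3 ≥ ∫⁻ X in phOm, …` (`setLIntegral_le_lintegral`).   `∫⁻ t in Icc 0 1, Φ = ∫⁻ t in Ico 0 1, Φ` (`Ico_ae_eq_Icc`, `Measure.restrict_congr_set`), `0 + 1 = 1`;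
`ls_subdiv Φ n 0`.   For `h ∈ Ico 0 H` and `j` : `Φ (0 + jH + h) = ∫⁻ ‖phWave (phSh (0 + jH + h) F) 0 ..‖ₑ^3` (`ph_wave_sh`, `add_zero`) `≤ ofReal (C H^{-3/2} S_j h)` (`ph_synth`, `ph_sh_cont`, `ph_sh_supp`),
`S_j h = ∑' Q, (phMass ψ H H (phSh (0+jH+h) F) 0 (phCube H Q))^{3/2} = ∑' Q, (phMass ψ H H (phSh h F) (jH) (phCube H Q))^{3/2}` (`phMass` unfolds to rows, `ph_row_sh` twice, `add_comm`).
`∑_j ofReal = ofReal ∑_j` (`ENNReal.ofReal_sum_of_nonneg`; `tsum_nonneg`, `Real.rpow_nonneg`, `ph_mass_nonneg`), `C H^{-3/2} ∑_j S_j = C H⁻¹ phFun ψ n (phSh h F) ≤ C H⁻¹ M` (`H^{-3/2} = H⁻¹ H^{-1/2}` : `Real.rpow_add`).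
`setLIntegral_mono'` on `Ico 0 H` (measurable set), `setLIntegral_const`, `Real.volume_Ico`, `ofReal (C H⁻¹ M) * ofReal H = ofReal (C M)`. -/
theorem ph_slab {ψ : E2 → ℂ} (hψ : PhWin ψ) : ∃ C : ℝ, 0 ≤ C ∧ ∀ (n : ℕ) (F : E2 × ℝ → ℂ) (M : ℝ), Continuous F → PhSupp (phH n) F →
    (∀ h ∈ Set.Icc (0 : ℝ) (phH n), phFun ψ n (phSh h F) ≤ M) →
    ∫⁻ t in Set.Icc (0 : ℝ) 1, ∫⁻ X in phOm, ‖phWave F t X.1 X.2‖ₑ ^ (3 : ℝ) ≤ ENNReal.ofReal (C * M) := by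
  obtain ⟨C, hC0, hC⟩ := ph_synth hψ
  refine ⟨C, hC0, fun n F M hF hs hM => ?_⟩
  have hH : 0 < phH n := by unfold phH; positivity
  set H := phH n with hHd
  have hHe : H = ((2 : ℝ) ^ n)⁻¹ := rfl
  set Φ : ℝ → ℝ≥0∞ := fun t => ∫⁻ X : E2 × ℝ, ‖phWave F t X.1 X.2‖ₑ ^ (3 : ℝ) with hΦ
  have s1 : ∫⁻ t in Set.Icc (0 : ℝ) 1, ∫⁻ X in phOm, ‖phWave F t X.1 X.2‖ₑ ^ (3 : ℝ) ≤ ∫⁻ t in Set.Ico (0 : ℝ) (0 + 1), Φ t := by
    rw [zero_add, Measure.restrict_congr_set (Ico_ae_eq_Icc (μ := volume) (a := (0 : ℝ)) (b := 1))]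
    exact lintegral_mono fun t => setLIntegral_le_lintegral _ _
  have s2 := ls_subdiv Φ n 0
  rw [← hHe] at s2
  have s3 : ∀ h ∈ Set.Ico (0 : ℝ) H, ∑ j ∈ Finset.range (2 ^ n), Φ (0 + j * H + h) ≤ ENNReal.ofReal (C * H⁻¹ * M) := by
    intro h hh
    have hb := hM h ⟨hh.1, hh.2.le⟩
    set S : ℕ → ℝ := fun j => ∑' Q : Fin 3 → ℤ, (phMass ψ H H (phSh h F) (j * H) (phCube H Q)) ^ (3 / 2 : ℝ) with hS
    have hS0 : ∀ j, 0 ≤ S j := fun j => tsum_nonneg fun Q => Real.rpow_nonneg (ph_mass_nonneg ψ hH hH _ _ _) _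
    have t1 : ∀ j ∈ Finset.range (2 ^ n), Φ (0 + j * H + h) ≤ ENNReal.ofReal (C * H ^ (-(3 / 2) : ℝ) * S j) := by
      intro j _
      have := hC H (phSh (0 + j * H + h) F) hH (ph_sh_cont hH hF hs _) (ph_sh_supp hs _)
      simp only [ph_wave_sh, add_zero] at this
      refine this.trans (le_of_eq ?_)
      congr 2
      refine tsum_congr fun Q => ?_
      rw [phs_sl_mass ψ H (0 + j * H + h) h (j * H) F _ (by ring)]
    refine (Finset.sum_le_sum t1).trans ?_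
    rw [← ENNReal.ofReal_sum_of_nonneg (fun j _ => by have := hS0 j; positivity)]
    refine ENNReal.ofReal_le_ofReal ?_
    rw [← Finset.mul_sum]
    have e1 : H ^ (-(3 / 2) : ℝ) = H⁻¹ * H ^ (-(1 / 2) : ℝ) := by
      rw [← Real.rpow_neg_one, ← Real.rpow_add hH]
      norm_num
    have e2 : phFun ψ n (phSh h F) = H ^ (-(1 / 2) : ℝ) * ∑ j ∈ Finset.range (2 ^ n), S j := rfl
    rw [e2] at hb
    calc C * H ^ (-(3 / 2) : ℝ) * ∑ j ∈ Finset.range (2 ^ n), S j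
        = C * H⁻¹ * (H ^ (-(1 / 2) : ℝ) * ∑ j ∈ Finset.range (2 ^ n), S j) := by rw [e1]; ring
      _ ≤ C * H⁻¹ * M := mul_le_mul_of_nonneg_left hb (by positivity)
  calc ∫⁻ t in Set.Icc (0 : ℝ) 1, ∫⁻ X in phOm, ‖phWave F t X.1 X.2‖ₑ ^ (3 : ℝ)
      ≤ ∫⁻ h in Set.Ico (0 : ℝ) H, ∑ j ∈ Finset.range (2 ^ n), Φ (0 + j * H + h) := s1.trans s2
    _ ≤ ∫⁻ _h in Set.Ico (0 : ℝ) H, ENNReal.ofReal (C * H⁻¹ * M) := setLIntegral_mono' measurableSet_Ico s3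
    _ = ENNReal.ofReal (C * H⁻¹ * M) * ENNReal.ofReal H := by
        rw [setLIntegral_const, Real.volume_Ico, sub_zero]
    _ = ENNReal.ofReal (C * M) := by
        rw [← ENNReal.ofReal_mul' hH.le]
        congr 1
        field_simp

end Claimed.Agent.R256
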