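-- KEEP
import Claimed.Agent.R256.Phys.Adm
import Claimed.Agent.R256.Phys.Syn

/-!
# Row 256, L3, GLUE : `Round ⟹ Level` (09 l.441-470)      (chief helper73; prefix `ph_`)

`η = min (β/400) (η₀/2)`, `ζ = β/4`, `γ = min (β/2) 1`.   `wop (pat 2^n) g = wk G`, `G = pat · 𝓕 g` (`ls_wop_eq`), `ph_st` : three unit slabs `T = -1, -2, -3`.
* `n < n₀`, or `B = 0`, or `e < H^{12} κ` : `ph_small`.
* otherwise : `ph_adm` at all start times `T + h`, `PhRound`, `ph_slab`.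
-/

set_option autoImplicit false

namespace Claimed.Agent.R256

open MeasureTheory Complex Claimed.Agent.R255.BR
open scoped FourierTransform Real SchwartzMap InnerProductSpace ENNReal ContDiff

theorem ph_H_rpow (n : ℕ) (a : ℝ) : (phH n) ^ (-a) = (2 : ℝ) ^ (a * n) := by
  unfold phH
  rw [← Real.rpow_natCast 2 n, ← Real.rpow_neg (by norm_num), ← Real.rpow_mul (by norm_num)]
  congr 1
  ring

theorem ph_H_pow (n k : ℕ) : (phH n) ^ k = (2 : ℝ) ^ (-(k : ℝ) * n) := by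
  have := ph_H_rpow n (-(k : ℝ))
  rw [neg_neg, Real.rpow_natCast] at this
  exact this

theorem ph_pow32 {e : ℝ} (he : 0 ≤ e) : e ^ (3 / 2 : ℝ) = e * Real.sqrt e := by
  rw [Real.sqrt_eq_rpow, show (3 / 2 : ℝ) = 1 + 1 / 2 by norm_num, Real.rpow_add' he (by norm_num), Real.rpow_one]

/-- `2^{an} ≤ 2^{bn}` -/
theorem ph_two_mono (n : ℕ) {a b : ℝ} (h : a ≤ b) : (2 : ℝ) ^ (a * n) ≤ (2 : ℝ) ^ (b * n) :=
  Real.rpow_le_rpow_of_exponent_le (by norm_num) (mul_le_mul_of_nonneg_right h (Nat.cast_nonneg n))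

theorem ph_two_one (n : ℕ) {a : ℝ} (h : 0 ≤ a) : 1 ≤ (2 : ℝ) ^ (a * n) :=
  Real.one_le_rpow (by norm_num) (mul_nonneg h (Nat.cast_nonneg n))

/-- the square root of `κ` -/
theorem ph_sqrt_kappa (n : ℕ) {Cκ γ B : ℝ} (hC : 0 ≤ Cκ) (hB : 0 ≤ B) :
    Real.sqrt (Cκ * (phH n) ^ (-γ) * B ^ 2) = Real.sqrt Cκ * (2 : ℝ) ^ (γ / 2 * n) * B := by
  have e : Cκ * (phH n) ^ (-γ) * B ^ 2 = (Real.sqrt Cκ * (2 : ℝ) ^ (γ / 2 * n) * B) ^ 2 := by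
    rw [mul_pow, mul_pow, Real.sq_sqrt hC, ph_H_rpow, ← Real.rpow_natCast ((2 : ℝ) ^ (γ / 2 * n)) 2, ← Real.rpow_mul (by norm_num)]
    congr 3
    push_cast
    ring
  rw [e, Real.sqrt_sq (by positivity)]

/-- one slab, trivial bound, small `n` -/
theorem ph_lvl_a1 {Cs V β : ℝ} (hCs : 0 ≤ Cs) (hV : 1 ≤ V) (hβ : 0 < β) (n₀ n : ℕ) (hn : n < n₀) {e D B : ℝ} (he0 : 0 ≤ e) (hB : 0 ≤ B)
    (heD : e ≤ 4 * D) (hD : D ≤ V * B ^ 2) :
    Cs * (phH n) ^ (-(9 / 2) : ℝ) * e ^ (3 / 2 : ℝ) ≤ (Cs * (2 : ℝ) ^ ((9 / 2 : ℝ) * n₀) * 8 * Real.sqrt V) * 2 ^ (β * n) * B * D := by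
  have hD0 : 0 ≤ D := by linarith
  have h1 : (phH n) ^ (-(9 / 2) : ℝ) ≤ (2 : ℝ) ^ ((9 / 2 : ℝ) * n₀) := by
    rw [ph_H_rpow]
    refine Real.rpow_le_rpow_of_exponent_le (by norm_num) ?_
    have : (n : ℝ) ≤ n₀ := by exact_mod_cast hn.le
    linarith
  have h2 : Real.sqrt e ≤ 2 * Real.sqrt V * B := by
    rw [Real.sqrt_le_iff]
    refine ⟨by positivity, ?_⟩
    rw [mul_pow, mul_pow, Real.sq_sqrt (by linarith)]
    nlinarith
  have h3 : e ^ (3 / 2 : ℝ) ≤ 4 * D * (2 * Real.sqrt V * B) := by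
    rw [ph_pow32 he0]
    exact mul_le_mul heD h2 (Real.sqrt_nonneg _) (by positivity)
  have h4 := ph_two_one n hβ.le
  have h5 : 0 ≤ (phH n) ^ (-(9 / 2) : ℝ) := (Real.rpow_pos_of_pos (ph_H_pos n) _).le
  calc Cs * (phH n) ^ (-(9 / 2) : ℝ) * e ^ (3 / 2 : ℝ)
      ≤ Cs * (2 : ℝ) ^ ((9 / 2 : ℝ) * n₀) * (4 * D * (2 * Real.sqrt V * B)) :=
        mul_le_mul (mul_le_mul_of_nonneg_left h1 hCs) h3 (by positivity) (by positivity)
    _ = (Cs * (2 : ℝ) ^ ((9 / 2 : ℝ) * n₀) * 8 * Real.sqrt V) * 1 * B * D := by ring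
    _ ≤ (Cs * (2 : ℝ) ^ ((9 / 2 : ℝ) * n₀) * 8 * Real.sqrt V) * 2 ^ (β * n) * B * D := by
        refine mul_le_mul_of_nonneg_right (mul_le_mul_of_nonneg_right (mul_le_mul_of_nonneg_left h4 (by positivity)) hB) hD0

/-- one slab, trivial bound, small energy -/
theorem ph_lvl_a2 {Cs Cκ β γ : ℝ} (hCs : 0 ≤ Cs) (hCκ : 1 ≤ Cκ) (hβ : 0 < β) (hγ : 0 < γ) (hγ1 : γ ≤ 1) (n : ℕ) {e D B : ℝ} (he0 : 0 ≤ e) (hB : 0 ≤ B)
    (heD : e ≤ 4 * D) (hsm : e ≤ (phH n) ^ 12 * (Cκ * (phH n) ^ (-γ) * B ^ 2)) :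
    Cs * (phH n) ^ (-(9 / 2) : ℝ) * e ^ (3 / 2 : ℝ) ≤ (Cs * 4 * Real.sqrt Cκ) * 2 ^ (β * n) * B * D := by
  have hD0 : 0 ≤ D := by linarith
  have h2 : Real.sqrt e ≤ (2 : ℝ) ^ (-6 * (n : ℝ)) * (Real.sqrt Cκ * (2 : ℝ) ^ (γ / 2 * n) * B) := by
    have e1 : (phH n) ^ 12 * (Cκ * (phH n) ^ (-γ) * B ^ 2) = ((2 : ℝ) ^ (-6 * (n : ℝ)) * (Real.sqrt Cκ * (2 : ℝ) ^ (γ / 2 * n) * B)) ^ 2 := by
      rw [mul_pow, ← ph_sqrt_kappa n (by linarith) hB, Real.sq_sqrt (by have := Real.rpow_pos_of_pos (ph_H_pos n) (-γ); positivity), ph_H_pow,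
        ← Real.rpow_natCast ((2 : ℝ) ^ (-6 * (n : ℝ))) 2, ← Real.rpow_mul (by norm_num)]
      congr 2
      push_cast
      ring
    rw [Real.sqrt_le_iff]
    exact ⟨by positivity, by rw [← e1]; exact hsm⟩
  have h3 : e ^ (3 / 2 : ℝ) ≤ 4 * D * ((2 : ℝ) ^ (-6 * (n : ℝ)) * (Real.sqrt Cκ * (2 : ℝ) ^ (γ / 2 * n) * B)) := by
    rw [ph_pow32 he0]
    exact mul_le_mul heD h2 (Real.sqrt_nonneg _) (by positivity)
  have h6 : (2 : ℝ) ^ ((9 / 2 : ℝ) * n) * (2 : ℝ) ^ (-6 * (n : ℝ)) * (2 : ℝ) ^ (γ / 2 * n) ≤ 2 ^ (β * n) := by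
    rw [← Real.rpow_add (by norm_num), ← Real.rpow_add (by norm_num)]
    refine Real.rpow_le_rpow_of_exponent_le (by norm_num) ?_
    have : (0 : ℝ) ≤ n := Nat.cast_nonneg n
    nlinarith
  rw [ph_H_rpow]
  calc Cs * (2 : ℝ) ^ ((9 / 2 : ℝ) * n) * e ^ (3 / 2 : ℝ)
      ≤ Cs * (2 : ℝ) ^ ((9 / 2 : ℝ) * n) * (4 * D * ((2 : ℝ) ^ (-6 * (n : ℝ)) * (Real.sqrt Cκ * (2 : ℝ) ^ (γ / 2 * n) * B))) :=
        mul_le_mul_of_nonneg_left h3 (by positivity)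
    _ = (Cs * 4 * Real.sqrt Cκ) * ((2 : ℝ) ^ ((9 / 2 : ℝ) * n) * (2 : ℝ) ^ (-6 * (n : ℝ)) * (2 : ℝ) ^ (γ / 2 * n)) * B * D := by ring
    _ ≤ (Cs * 4 * Real.sqrt Cκ) * 2 ^ (β * n) * B * D := by
        refine mul_le_mul_of_nonneg_right (mul_le_mul_of_nonneg_right (mul_le_mul_of_nonneg_left h6 (by positivity)) hB) hD0

/-- one slab, main case: the numerical part -/
theorem ph_lvl_b {CR Cκ β η ζ γ : ℝ} (hCκ : 1 ≤ Cκ) (hsum : 100 * η + ζ + γ / 2 ≤ β) (n : ℕ) {e D B : ℝ} (he0 : 0 ≤ e) (hB : 0 ≤ B) (heD : e ≤ 4 * D) :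
    CR * (phH n) ^ (-(100 * η + ζ)) * e * Real.sqrt (Cκ * (phH n) ^ (-γ) * B ^ 2) ≤ (|CR| * 4 * Real.sqrt Cκ) * 2 ^ (β * n) * B * D := by
  have hD0 : 0 ≤ D := by linarith
  rw [ph_sqrt_kappa n (by linarith) hB, ph_H_rpow]
  have h6 : (2 : ℝ) ^ ((100 * η + ζ) * n) * (2 : ℝ) ^ (γ / 2 * n) ≤ 2 ^ (β * n) := by
    rw [← Real.rpow_add (by norm_num), ← add_mul]
    exact ph_two_mono n hsum
  calc CR * (2 : ℝ) ^ ((100 * η + ζ) * n) * e * (Real.sqrt Cκ * (2 : ℝ) ^ (γ / 2 * n) * B)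
      ≤ |CR| * (2 : ℝ) ^ ((100 * η + ζ) * n) * (4 * D) * (Real.sqrt Cκ * (2 : ℝ) ^ (γ / 2 * n) * B) := by
        refine mul_le_mul_of_nonneg_right ?_ (by positivity)
        exact mul_le_mul (mul_le_mul_of_nonneg_right (le_abs_self CR) (by positivity)) heD he0 (by positivity)
    _ = (|CR| * 4 * Real.sqrt Cκ) * ((2 : ℝ) ^ ((100 * η + ζ) * n) * (2 : ℝ) ^ (γ / 2 * n)) * B * D := by ring
    _ ≤ (|CR| * 4 * Real.sqrt Cκ) * 2 ^ (β * n) * B * D := by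
        refine mul_le_mul_of_nonneg_right (mul_le_mul_of_nonneg_right (mul_le_mul_of_nonneg_left h6 (by positivity)) hB) hD0

/-- **EXIT OF THE LAYER** -/
theorem ph_level (h : Round) : Level := by
  obtain ⟨ψ, hψ, η₀, hη₀, hR⟩ := h
  intro β hβ
  set η : ℝ := min (β / 400) (η₀ / 2) with hηdef
  have hη : 0 < η := lt_min (by positivity) (by positivity)
  have hη' : η < η₀ := (min_le_right _ _).trans_lt (by linarith)
  have hη4 : 100 * η ≤ β / 4 := by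
    have := min_le_left (β / 400) (η₀ / 2)
    linarith
  set γ : ℝ := min (β / 2) 1 with hγdef
  have hγ : 0 < γ := lt_min (by positivity) one_pos
  have hγ1 : γ ≤ 1 := min_le_right _ _
  have hγ2 : γ ≤ β / 2 := min_le_left _ _
  obtain ⟨Cκ, tl, hCκ, hadm⟩ := ph_adm hψ η hη γ hγ
  obtain ⟨CR, n₀, hRound⟩ := hR η hη hη' (β / 4) (by positivity) tl
  obtain ⟨CS, hCS, hslab⟩ := ph_slab hψ
  obtain ⟨Cs, hCs, hsmall⟩ := ph_small
  obtain ⟨V, hV, hsq⟩ := PhData.sq_le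
  set K : ℝ := Cs * (2 : ℝ) ^ ((9 / 2 : ℝ) * n₀) * 8 * Real.sqrt V + Cs * 4 * Real.sqrt Cκ + CS * (|CR| * 4 * Real.sqrt Cκ) with hK
  have hK1 : 0 ≤ Cs * (2 : ℝ) ^ ((9 / 2 : ℝ) * n₀) * 8 * Real.sqrt V := by positivity
  have hK2 : 0 ≤ Cs * 4 * Real.sqrt Cκ := by positivity
  have hK3 : 0 ≤ CS * (|CR| * 4 * Real.sqrt Cκ) := by positivity
  refine ⟨3 * K, fun n g B hm hb hs => ?_⟩
  have hd : PhData g B := ⟨hm, hb, hs⟩
  have hB : 0 ≤ B := (norm_nonneg _).trans (hb 0)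
  set H := phH n with hHdef
  have hH : 0 < H := ph_H_pos n
  have hH1 : H ≤ 1 := ph_H_le_one n
  set D : ℝ := ∫ x, ‖g x‖ ^ 2 with hD
  set e : ℝ := ∫ q, ‖phF n g q‖ ^ 2 with he
  have he0 : 0 ≤ e := integral_nonneg fun _ => by positivity
  have heD : e ≤ 4 * D := ph_energy n hd.integrable hd.memLp
  have hDV : D ≤ V * B ^ 2 := hsq g B hd
  have hD0 : 0 ≤ D := integral_nonneg fun _ => by positivity
  have hP : 0 ≤ (2 : ℝ) ^ (β * n) * B * D := by positivity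
  have hFc : ∀ T : ℝ, Continuous (phSh T (phF n g)) := fun T => ph_sh_cont hH (ph_F_cont n hd.integrable) (ph_F_supp n g) T
  have hFs : ∀ T : ℝ, PhSupp H (phSh T (phF n g)) := fun T => ph_sh_supp (ph_F_supp n g) T
  -- one slab
  have slab : ∀ k ∈ Finset.range 3,
      ∫⁻ t in Set.Icc (0 : ℝ) 1, ∫⁻ X in phOm, ‖phWave (phSh (-(k : ℝ) - 1) (phF n g)) t X.1 X.2‖ₑ ^ (3 : ℝ)
        ≤ ENNReal.ofReal (K * 2 ^ (β * n) * B * D) := by
    intro k hk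
    have hk3 : (k : ℝ) ≤ 2 := by
      have : k ≤ 2 := by
        have := Finset.mem_range.1 hk
        omega
      exact_mod_cast this
    have hk0 : (0 : ℝ) ≤ k := Nat.cast_nonneg k
    set T : ℝ := -(k : ℝ) - 1 with hT
    by_cases hcase : n₀ ≤ n ∧ 0 < B ∧ H ^ 12 * (Cκ * H ^ (-γ) * B ^ 2) ≤ e
    · obtain ⟨hn, hBp, hbig⟩ := hcase
      have hM : ∀ h ∈ Set.Icc (0 : ℝ) H, phFun ψ n (phSh h (phSh T (phF n g))) ≤ (|CR| * 4 * Real.sqrt Cκ) * 2 ^ (β * n) * B * D := by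
        intro h hh
        rw [ph_sh_sh]
        have hTh : |T + h| ≤ 3 := by
          rw [abs_le]
          constructor <;> linarith [hh.1, hh.2]
        have ha := hadm n g B (T + h) hd hTh hBp hbig
        have hr := hRound n _ _ hn ha
        rw [ph_sh_energy] at hr
        exact hr.trans (ph_lvl_b hCκ (by linarith) n he0 hB heD)
      refine (hslab n _ _ (hFc T) (hFs T) hM).trans (ENNReal.ofReal_le_ofReal ?_)
      have : CS * ((|CR| * 4 * Real.sqrt Cκ) * 2 ^ (β * n) * B * D) = CS * (|CR| * 4 * Real.sqrt Cκ) * (2 ^ (β * n) * B * D) := by ring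
      rw [this, hK]
      have : (Cs * (2 : ℝ) ^ ((9 / 2 : ℝ) * n₀) * 8 * Real.sqrt V + Cs * 4 * Real.sqrt Cκ + CS * (|CR| * 4 * Real.sqrt Cκ)) * 2 ^ (β * n) * B * D
          = (Cs * (2 : ℝ) ^ ((9 / 2 : ℝ) * n₀) * 8 * Real.sqrt V) * (2 ^ (β * n) * B * D) + (Cs * 4 * Real.sqrt Cκ) * (2 ^ (β * n) * B * D)
            + CS * (|CR| * 4 * Real.sqrt Cκ) * (2 ^ (β * n) * B * D) := by ring
      rw [this]
      have := mul_nonneg hK1 hP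
      have := mul_nonneg hK2 hP
      linarith
    · have hsm := hsmall H _ hH (hFc T) (hFs T)
      rw [ph_sh_energy] at hsm
      refine hsm.trans (ENNReal.ofReal_le_ofReal ?_)
      have hexp : K * 2 ^ (β * n) * B * D
          = (Cs * (2 : ℝ) ^ ((9 / 2 : ℝ) * n₀) * 8 * Real.sqrt V) * 2 ^ (β * n) * B * D + (Cs * 4 * Real.sqrt Cκ) * 2 ^ (β * n) * B * D
            + CS * (|CR| * 4 * Real.sqrt Cκ) * (2 ^ (β * n) * B * D) := by rw [hK]; ring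
      have n1 : 0 ≤ (Cs * (2 : ℝ) ^ ((9 / 2 : ℝ) * n₀) * 8 * Real.sqrt V) * 2 ^ (β * n) * B * D := by positivity
      have n2 : 0 ≤ (Cs * 4 * Real.sqrt Cκ) * 2 ^ (β * n) * B * D := by positivity
      have n3 := mul_nonneg hK3 hP
      rw [hexp]
      by_cases hn : n₀ ≤ n
      · have hsm2 : e ≤ H ^ 12 * (Cκ * H ^ (-γ) * B ^ 2) := by
          rcases hB.lt_or_eq with hBp | hB0
          · by_contra hlt
            exact hcase ⟨hn, hBp, (not_le.1 hlt).le⟩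
          · rw [← hB0] at hDV ⊢
            have : e ≤ 0 := by nlinarith
            simpa using this
        have := ph_lvl_a2 hCs hCκ hβ hγ hγ1 n he0 hB heD hsm2
        linarith
      · have := ph_lvl_a1 hCs hV hβ n₀ n (not_le.1 hn) he0 hB heD hDV
        linarith
  -- assembly
  have hG : Integrable (fun η : E3 => (pat (2 ^ n) η : ℂ) * 𝓕 g η) := ls_mF_int (ls_pat_ck (by positivity)) hd.integrable
  have hst := ph_st _ hG
  calc ∫⁻ z, ‖wop (fun η => (pat (2 ^ n) η : ℂ)) g z‖ₑ ^ (3 : ℝ) ∂locμ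
      ≤ ∑ k ∈ Finset.range 3, ∫⁻ t in Set.Icc (0 : ℝ) 1, ∫⁻ X in phOm, ‖phWave (phSh (-(k : ℝ) - 1) (phF n g)) t X.1 X.2‖ₑ ^ (3 : ℝ) := hst
    _ ≤ ∑ _k ∈ Finset.range 3, ENNReal.ofReal (K * 2 ^ (β * n) * B * D) := Finset.sum_le_sum slab
    _ = ENNReal.ofReal (3 * K * 2 ^ (β * n) * B * D) := by
        rw [Finset.sum_const, Finset.card_range, nsmul_eq_mul, show 3 * K * 2 ^ (β * n) * B * D = 3 * (K * 2 ^ (β * n) * B * D) by ring,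
          ENNReal.ofReal_mul (by norm_num : (0 : ℝ) ≤ 3), ENNReal.ofReal_ofNat]
        rfl

end Claimed.Agent.R256
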