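-- KEEP
import Claimed.Agent.R256.Phys.Main
import Claimed.Agent.R256.Phys.Ent
import Claimed.Agent.R256.Top.Glob
import Claimed.Agent.R256.Top.Main

/-!
# Row 256 (LS paper), folder Phys = sec. 9 (09-physical-wave.tex l.86-470) : CONTRACT      (chief helper73, second architect helper163; prefix `ph`)

**ENTRY**  `RoundRate` (`Phys/Ent.lean`) :  `∃ η₀ > 0, ∀ η ∈ (0, η₀), (rndWav η).RateF (100 η)`      (`Mdl.RateF` of `Base/Sys.lean`, `rndWav` of `Base/RndWav.lean`; implied by `Mdl.Rate` through `bs_rateF_of_rate`).
           SUPPLIER: the round hub (R1 helper223, R2 helper38, architect helper207).   NOTHING ELSE is used from secs. 1-8, except optionally W1 of folder Rt (`ph_ent_an`).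
**EXIT**   `ph_level : Round → Level` and `ph_contract : RoundRate → Level`      (`Level` of `Top/Amp.lean`, consumer helper163: `ls_annular`, `ls_main`);   `ph_s0496` = the statement of S0496 from `RoundRate`.

UNITS (file : exits : size estimate : architect).   Every file compiles; every `sorry` is a leaf or a block exit; statements of the exits are FROZEN (defects to helper73).
* `Defs.lean`   definitions (`phWave, phRow, phMass, PhReg, PhAdm, phFun, PhRound, Round, phSpec, phF, phSh, phX`)                                                     helper73
* `Null.lean`   BLOCK N  null coordinates, energy, Bernstein, small energies: `ph_null, ph_st, ph_F_*, ph_energy, ph_sh_*, ph_small, PhData.*`      ~1700 l.     helper163 (leaves L-256-PHYS-N1..N4)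
* `Pv.lean`     BLOCK G  Lemma phys-predecessor-volume in raw data: `ph_pv_quad`                                                                    ~2300 l.     helper163 (leaves L-256-PHYS-PV1..PV6)
* `Geo.lean`    bridge `ph_vol` (from `ph_pv_quad 4`), `ph_far_rows`                                                                                ~350 l.      leaf L-256-PHYS-G1
* `Iso.lean`    BLOCK I  the plateau analysis is isometric: `ph_iso, ph_row_*, ph_mass_*, ph_cubes, ph_cubes_pow`, measurability of tests           ~900 l.      leaves L-256-PHYS-I1..I2
* `Ker.lean`    BLOCK K  Lemma phys-initial-kernel: `ph_row_ker, ph_ker_bd, ph_hs` ⟹ `ph_mass_split`                                               ~1500 l.     leaves L-256-PHYS-K1..K4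
* `Syn.lean`    BLOCK S  Lemma phys-synthesis at a fixed time `ph_synth`; time integral `ph_slab` (shift trick)                                     ~1300 l.     leaves L-256-PHYS-S1..S4
* `Adm.lean`    BLOCK A  Proposition phys-regularity `ph_adm` (from `ph_vol, ph_far_rows, ph_mass_split, ph_mass_le, ph_energy, PhData.*`)          ~350 l.      helper73
* `Main.lean`   GLUE     `ph_level` (from `ph_st, ph_small, ph_adm, ph_slab, ph_energy, PhData.*`)                                                  ~300 l.      helper73
* `Ent.lean`    BLOCK E  `ph_entry : RoundRate → Round` (dictionary abstract model ↔ concrete rows)                                                 ~1200 l.     leaves L-256-PHYS-E1..E4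
TOOLS on main, proved: `Top/Tools.lean` (`ls_plancherel`, `ls_plancherel_inv`, `ls_unif_decay`, `ls_unif_decay2`), `R255/BR/{Defs,Split,Tools,Conv,Grid}` (FROZEN).

DEPENDENCIES:  Defs ← Null ← Iso ← Ker ← Syn;   Defs, Pv ← Geo;   Geo, Ker ← Adm;   Adm, Syn ← Main;   Iso, Base/RndCut ← Ent;   Main, Ent, Top ← Contract.
DIFFERENCES WITH THE PAPER (all simplifications, all checked): no complex conjugation (`t = -(x₃+τ)`, `y = x₃-τ`); synthesis at a fixed time, the cuts are moved by the start time `T + h`, `h ∈ [0,H]` (no propagation estimate, no loss `H^{-C₄σ}`, no error term);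
weight `r⁴ f` instead of `r⁴ f^{1-η}` in the predecessor volume; small `n` and small energies by Bernstein only.
-/

set_option autoImplicit false

namespace Claimed.Agent.R256

open MeasureTheory Claims.C0424
open scoped SchwartzMap

/-- **the contract of the layer** -/
theorem ph_contract (h : RoundRate) : Level := ph_level (ph_entry h)

/-- the statement of S0496 from the rate of the round wave model -/
theorem ph_s0496 (h : RoundRate) (ε : ℝ) (hε : 0 < ε) :
    ∃ C : ℝ, ∀ f : 𝓢(E3, ℂ),
      eLpNorm (fun z : E3 × ℝ => halfWave f z.2 z.1) 3 stμ ≤ ENNReal.ofReal C * eLpNorm (besselPotential ε f) 3 volume :=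
  ls_main (ls_annular (ph_contract h)) ε hε

end Claimed.Agent.R256
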